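import Vale.Agent.P297.H10.Frame

/-!
The conditions on the quartic family.
-/

set_option linter.unusedSectionVars false
set_option linter.unusedSimpArgs false

namespace Vale.Agent.P297.H10

open Vale.Agent.P297 Vale.Agent.P297.Gen Vale.Agent.P297.G4
open Vale.Agent.P297.H637 Vale.Agent.P297.Z3 Polynomial

section

variable {R : Type} [CommRing R]

def rA (d : Fin 10 → R) (e : R) : R := 16 * d 0 * e ^ 2 + 4 * d 1 * e + d 2
def rB (d : Fin 10 → R) (e : R) : R := 4 * d 3 * e + d 4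
def rG (d : Fin 10 → R) (e : R) : R := 4 * d 5 * e + d 6

def rT (d : Fin 10 → R) (e : R) : R :=
  rA d e + 2 * e * rB d e + 2 * e * rG d e - 2 * e * (1 - 4 * e) * d 8

def rQ (d : Fin 10 → R) (e : R) : R :=
  e * (4 * (1 - 4 * e) ^ 2 * (d 7 * d 9) - (1 - 4 * e) ^ 2 * d 8 ^ 2 +
    (1 - 4 * e) * (-4 * rB d e * d 9 + 2 * rG d e * d 8 + 2 * rB d e * d 8 - 4 * d 7 * rG d e) +
    4 * rA d e * d 9 - rG d e ^ 2 + 4 * rA d e * d 7 - rB d e ^ 2) +
    (2 * e - 1) * (rB d e * rG d e - 2 * rA d e * d 8)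

def rD (d : Fin 10 → R) (e : R) : R :=
  4 * rA d e * d 7 * d 9 - rA d e * d 8 ^ 2 - rB d e ^ 2 * d 9 + rB d e * rG d e * d 8 -
    rG d e ^ 2 * d 7

/-- the discriminant, divided by constants -/
def rF (T Q D e : R) : R :=
  Q ^ 2 * T ^ 2 + 4 * e * Q ^ 3 + 4 * (1 - 4 * e) * D * T ^ 3 +
    18 * e * (1 - 4 * e) * D * T * Q - 27 * e ^ 2 * (1 - 4 * e) ^ 2 * D ^ 2

end

section

variable {R S : Type} [CommRing R] [CommRing S] (φ : R →+* S)

theorem map_rT (d : Fin 10 → R) (l : R) : φ (rT d l) = rT (fun i => φ (d i)) (φ l) := by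
  simp only [rT, rA, rB, rG, map_add, map_sub, map_mul, map_pow, map_neg, map_ofNat, map_one]

theorem map_rQ (d : Fin 10 → R) (l : R) : φ (rQ d l) = rQ (fun i => φ (d i)) (φ l) := by
  simp only [rQ, rA, rB, rG, map_add, map_sub, map_mul, map_pow, map_neg, map_ofNat, map_one]

theorem map_rD (d : Fin 10 → R) (l : R) : φ (rD d l) = rD (fun i => φ (d i)) (φ l) := by
  simp only [rD, rA, rB, rG, map_add, map_sub, map_mul, map_pow, map_neg, map_ofNat, map_one]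

end

theorem rT_eq (d : Fin 10 → ℂ) {e : ℂ} (he : e ≠ 0) : e ^ 2 * tTh d e⁻¹ = rT d e := by
  simp only [tTh, ta, tb, tg, rT, rA, rB, rG]
  field_simp

theorem rD_eq (d : Fin 10 → ℂ) {e : ℂ} (he : e ≠ 0) : e ^ 2 * tDe d e⁻¹ = rD d e := by
  simp only [tDe, ta, tb, tg, rD, rA, rB, rG]
  field_simp

theorem rQ_eq (d : Fin 10 → ℂ) {e : ℂ} (he : e ≠ 0) : e ^ 3 * tQ d e⁻¹ = rQ d e := by
  simp only [tQ, ta, tb, tg, rQ, rA, rB, rG]
  field_simp

theorem rI_eq (d : Fin 10 → ℂ) {e : ℂ} (he : e ≠ 0) :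
    e ^ 4 * tI d e⁻¹ = 16 * (rT d e ^ 2 + 3 * e * rQ d e) := by
  rw [← rT_eq d he, ← rQ_eq d he, tI]
  ring

theorem rJ_eq (d : Fin 10 → ℂ) {e : ℂ} (he : e ≠ 0) :
    e ^ 6 * tJ d e⁻¹ =
      -(64 * (2 * rT d e ^ 3 + 9 * e * rT d e * rQ d e -
        27 * e ^ 2 * (1 - 4 * e) * rD d e)) := by
  rw [← rT_eq d he, ← rQ_eq d he, ← rD_eq d he, tJ]
  field_simp

theorem rF_eq (d : Fin 10 → ℂ) {e : ℂ} (he : e ≠ 0) :
    e ^ 12 * (4 * tI d e⁻¹ ^ 3 - tJ d e⁻¹ ^ 2) =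
      110592 * e ^ 2 * rF (rT d e) (rQ d e) (rD d e) e := by
  have h1 : e ^ 12 * (4 * tI d e⁻¹ ^ 3 - tJ d e⁻¹ ^ 2) =
      4 * (e ^ 4 * tI d e⁻¹) ^ 3 - (e ^ 6 * tJ d e⁻¹) ^ 2 := by ring
  rw [h1, rI_eq d he, rJ_eq d he, rF]
  ring

/-- the polynomial -/
noncomputable def pF (d : Fin 10 → ℂ) : ℂ[X] :=
  rF (rT (fun i => C (d i)) X) (rQ (fun i => C (d i)) X) (rD (fun i => C (d i)) X) X

theorem eval_rT (d : Fin 10 → ℂ) (e : ℂ) : eval e (rT (fun i => C (d i)) X) = rT d e := by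
  have h := map_rT (evalRingHom e) (fun i => C (d i)) X
  simpa using h

theorem eval_rQ (d : Fin 10 → ℂ) (e : ℂ) : eval e (rQ (fun i => C (d i)) X) = rQ d e := by
  have h := map_rQ (evalRingHom e) (fun i => C (d i)) X
  simpa using h

theorem eval_rD (d : Fin 10 → ℂ) (e : ℂ) : eval e (rD (fun i => C (d i)) X) = rD d e := by
  have h := map_rD (evalRingHom e) (fun i => C (d i)) X
  simpa using h

theorem eval_pF (d : Fin 10 → ℂ) (e : ℂ) :
    eval e (pF d) = rF (rT d e) (rQ d e) (rD d e) e := by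
  rw [pF, rF]
  simp only [eval_add, eval_sub, eval_mul, eval_pow, eval_ofNat, eval_X, eval_one, eval_rT,
    eval_rQ, eval_rD]
  rfl

theorem eval_tI (d : Fin 10 → ℂ) (e : ℂ) : eval e (tI (fun i => C (d i)) X) = tI d e := by
  have h := map_tI (evalRingHom e) (fun i => C (d i)) X
  simpa using h

theorem eval_tJ (d : Fin 10 → ℂ) (e : ℂ) : eval e (tJ (fun i => C (d i)) X) = tJ d e := by
  have h := map_tJ (evalRingHom e) (fun i => C (d i)) X
  simpa using h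

/-- a polynomial that vanishes outside zero -/
theorem eq_zero_of_eval {f : ℂ[X]} (h : ∀ e : ℂ, e ≠ 0 → eval e f = 0) : f = 0 := by
  have h1 : X * f = 0 := by
    apply Polynomial.funext
    intro e
    by_cases he : e = 0
    · rw [eval_mul, eval_X, he, zero_mul, eval_zero]
    · rw [eval_mul, h e he, mul_zero, eval_zero]
  exact (mul_eq_zero.1 h1).resolve_left X_ne_zero

theorem pF_eq_zero {d : Fin 10 → ℂ}
    (h : 4 * (tI (fun i => C (d i)) X : ℂ[X]) ^ 3 = tJ (fun i => C (d i)) X ^ 2) : pF d = 0 := by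
  apply eq_zero_of_eval
  intro e he
  have h1 := congrArg (eval e⁻¹) h
  simp only [eval_mul, eval_pow, eval_ofNat, eval_tI, eval_tJ] at h1
  have h2 := rF_eq d he
  rw [h1, sub_self, mul_zero] at h2
  rw [eval_pF]
  have h3 : (110592 * e ^ 2 : ℂ) ≠ 0 := mul_ne_zero (by norm_num) (pow_ne_zero 2 he)
  exact (mul_eq_zero.1 h2.symm).resolve_left h3

theorem pF_eq_zero_imp {d : Fin 10 → ℂ} (h : pF d = 0) :
    4 * (tI (fun i => C (d i)) X : ℂ[X]) ^ 3 = tJ (fun i => C (d i)) X ^ 2 := by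
  rw [← sub_eq_zero]
  by_contra hne
  apply hne
  have h5 : ∀ l : ℂ, l ≠ 0 → eval l (4 * (tI (fun i => C (d i)) X : ℂ[X]) ^ 3 -
      tJ (fun i => C (d i)) X ^ 2) = 0 := by
    intro l hl
    have h2 := rF_eq d (inv_ne_zero hl)
    rw [← eval_pF, h, eval_zero, mul_zero, inv_inv] at h2
    simp only [eval_sub, eval_mul, eval_pow, eval_ofNat, eval_tI, eval_tJ]
    exact (mul_eq_zero.1 h2).resolve_left (pow_ne_zero _ (inv_ne_zero hl))
  exact eq_zero_of_eval h5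

/-- the value at zero -/
theorem eval_pF_zero (d : Fin 10 → ℂ) :
    eval 0 (pF d) = d 2 ^ 2 * ((d 4 ^ 2 - 4 * d 2 * d 7) * (d 6 ^ 2 - 4 * d 2 * d 9)) := by
  rw [eval_pF]
  simp only [rF, rT, rQ, rD, rA, rB, rG]
  ring

theorem deriv_rT (d : Fin 10 → ℂ) :
    eval 0 (derivative (rT (fun i => C (d i)) X)) = 4 * d 1 + 2 * d 4 + 2 * d 6 - 2 * d 8 := by
  simp only [rT, rA, rB, rG]
  simp

theorem deriv_rQ (d : Fin 10 → ℂ) :
    eval 0 (derivative (rQ (fun i => C (d i)) X)) =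
      4 * d 7 * d 9 - d 8 ^ 2 + (-4 * d 4 * d 9 + 2 * d 6 * d 8 + 2 * d 4 * d 8 -
        4 * d 7 * d 6) + 4 * d 2 * d 9 - d 6 ^ 2 + 4 * d 2 * d 7 - d 4 ^ 2 +
        2 * (d 4 * d 6 - 2 * d 2 * d 8) -
        (4 * d 3 * d 6 + 4 * d 4 * d 5 - 8 * d 1 * d 8) := by
  simp only [rQ, rA, rB, rG]
  simp
  ring

theorem deriv_rD (d : Fin 10 → ℂ) :
    eval 0 (derivative (rD (fun i => C (d i)) X)) =
      16 * d 1 * d 7 * d 9 - 4 * d 1 * d 8 ^ 2 - 8 * d 3 * d 4 * d 9 +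
        (4 * d 3 * d 6 + 4 * d 4 * d 5) * d 8 - 8 * d 5 * d 6 * d 7 := by
  simp only [rD, rA, rB, rG]
  simp [derivative_pow]
  ring

/-- the derivative at zero -/
theorem deriv_pF (d : Fin 10 → ℂ) :
    eval 0 (derivative (pF d)) =
      2 * rQ d 0 * eval 0 (derivative (rQ (fun i => C (d i)) X)) * rT d 0 ^ 2 +
      2 * rQ d 0 ^ 2 * rT d 0 * eval 0 (derivative (rT (fun i => C (d i)) X)) +
      4 * rQ d 0 ^ 3 + 4 * (eval 0 (derivative (rD (fun i => C (d i)) X)) * rT d 0 ^ 3 +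
        3 * rD d 0 * rT d 0 ^ 2 * eval 0 (derivative (rT (fun i => C (d i)) X)) -
        4 * rD d 0 * rT d 0 ^ 3) + 18 * rD d 0 * rT d 0 * rQ d 0 := by
  have e1 := eval_rT d 0
  have e2 := eval_rQ d 0
  have e3 := eval_rD d 0
  rw [pF, rF]
  generalize rT (fun i => C (d i)) (X : ℂ[X]) = T at *
  generalize rQ (fun i => C (d i)) (X : ℂ[X]) = Q at *
  generalize rD (fun i => C (d i)) (X : ℂ[X]) = D at *
  rw [← e1, ← e2, ← e3]
  simp [derivative_pow]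
  ring

/-- **The discriminant does not vanish identically: first criterion.** -/
theorem hdisc_of_top {d : Fin 10 → ℂ} (h2 : d 2 ≠ 0) (h4 : d 4 ^ 2 - 4 * d 2 * d 7 ≠ 0)
    (h6 : d 6 ^ 2 - 4 * d 2 * d 9 ≠ 0) :
    4 * (tI (fun i => C (d i)) X : ℂ[X]) ^ 3 ≠ tJ (fun i => C (d i)) X ^ 2 := by
  intro h
  have h1 := eval_pF_zero d
  rw [pF_eq_zero h, eval_zero] at h1
  exact mul_ne_zero (pow_ne_zero 2 h2) (mul_ne_zero h4 h6) h1.symm

/-- **The discriminant does not vanish identically: second criterion.** -/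
theorem hdisc_of_zero {d : Fin 10 → ℂ} (h2 : d 2 = 0) (h4 : d 4 ≠ 0) (h6 : d 6 ≠ 0) :
    4 * (tI (fun i => C (d i)) X : ℂ[X]) ^ 3 ≠ tJ (fun i => C (d i)) X ^ 2 := by
  intro h
  have h1 := deriv_pF d
  have e1 : rT d 0 = 0 := by
    simp only [rT, rA]
    rw [h2]
    ring
  have e2 : rQ d 0 = -(d 4 * d 6) := by
    simp only [rQ, rA, rB, rG]
    rw [h2]
    ring
  rw [pF_eq_zero h, derivative_zero, eval_zero, e1, e2] at h1
  have h3 : 4 * (d 4 * d 6) ^ 3 = 0 := by linear_combination h1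
  exact mul_ne_zero (by norm_num) (pow_ne_zero 3 (mul_ne_zero h4 h6)) h3

/-- **The family is not isotrivial.** -/
theorem hnt_of_hdisc {d : Fin 10 → ℂ}
    (hdisc : 4 * (tI (fun i => C (d i)) X : ℂ[X]) ^ 3 ≠ tJ (fun i => C (d i)) X ^ 2)
    (h : d 2 ≠ 0 ∨ (d 4 ≠ 0 ∧ d 6 ≠ 0)) (α β a b : ℂ) :
    ¬ ((tI (fun i => C (d i)) X : ℂ[X]) = C α * (C a * X + C b) ^ 4 ∧
      (tJ (fun i => C (d i)) X : ℂ[X]) = C β * (C a * X + C b) ^ 6) := by
  rintro ⟨hI, hJ⟩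
  have kI : ∀ l, tI d l = α * (a * l + b) ^ 4 := by
    intro l
    have h1 := congrArg (eval l) hI
    simpa [eval_tI] using h1
  have kJ : ∀ l, tJ d l = β * (a * l + b) ^ 6 := by
    intro l
    have h1 := congrArg (eval l) hJ
    simpa [eval_tJ] using h1
  -- the reversed polynomials
  have rI : C (16 : ℂ) * (rT (fun i => C (d i)) X ^ 2 + 3 * X * rQ (fun i => C (d i)) X) =
      C α * (C a + C b * X) ^ 4 := by
    rw [← sub_eq_zero]
    apply eq_zero_of_eval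
    intro e he
    have h1 := rI_eq d he
    rw [kI] at h1
    simp only [eval_sub, eval_mul, eval_add, eval_pow, eval_C, eval_X, eval_ofNat, eval_rT,
      eval_rQ]
    rw [← h1]
    field_simp
    ring
  have rJ : C (-64 : ℂ) * (2 * rT (fun i => C (d i)) X ^ 3 +
      9 * X * rT (fun i => C (d i)) X * rQ (fun i => C (d i)) X -
        27 * X ^ 2 * (1 - 4 * X) * rD (fun i => C (d i)) X) = C β * (C a + C b * X) ^ 6 := by
    rw [← sub_eq_zero]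
    apply eq_zero_of_eval
    intro e he
    have h1 := rJ_eq d he
    rw [kJ] at h1
    simp only [eval_sub, eval_mul, eval_add, eval_pow, eval_C, eval_X, eval_ofNat, eval_rT,
      eval_rQ, eval_rD, eval_one]
    have h2 : (-64 : ℂ) * (2 * rT d e ^ 3 + 9 * e * rT d e * rQ d e -
        27 * e ^ 2 * (1 - 4 * e) * rD d e) = e ^ 6 * (β * (a * e⁻¹ + b) ^ 6) := by
      rw [h1]
      ring
    rw [h2]
    field_simp
    ring
  have e1 := eval_rT d 0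
  have t0 : rT d 0 = d 2 := by
    simp only [rT, rA]
    ring
  have q0 : rQ d 0 = 2 * d 2 * d 8 - d 4 * d 6 := by
    simp only [rQ, rA, rB, rG]
    ring
  have a0 : 16 * d 2 ^ 2 = α * a ^ 4 := by
    have h1 := congrArg (eval 0) rI
    simp only [eval_mul, eval_add, eval_pow, eval_C, eval_X, eval_ofNat, eval_rT, eval_rQ] at h1
    rw [t0] at h1
    linear_combination h1
  have b0 : -(128 * d 2 ^ 3) = β * a ^ 6 := by
    have h1 := congrArg (eval 0) rJ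
    simp only [eval_mul, eval_add, eval_sub, eval_pow, eval_C, eval_X, eval_ofNat, eval_rT,
      eval_rQ, eval_rD, eval_one] at h1
    rw [t0] at h1
    linear_combination h1
  by_cases ha : a = 0
  · -- `p` is constant
    have k2 : d 2 = 0 := by
      rw [ha] at a0
      have h2 : d 2 ^ 2 = 0 := by linear_combination a0 / 16
      exact pow_eq_zero_iff two_ne_zero |>.1 h2
    rcases h with h | ⟨h4, h6⟩
    · exact h k2
    · have h1 := congrArg (fun f => eval 0 (derivative f)) rI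
      rw [ha] at h1
      have h2 : eval 0 (rQ (fun i => C (d i)) (X : ℂ[X])) = rQ d 0 := eval_rQ d 0
      have h3 : eval 0 (rT (fun i => C (d i)) (X : ℂ[X])) = 0 := by rw [eval_rT, t0, k2]
      simp [derivative_pow, h2, h3] at h1
      rw [q0, k2] at h1
      have h4' : d 4 * d 6 = 0 := by linear_combination -h1
      exact mul_ne_zero h4 h6 h4'
  · have h1 : (4 * α ^ 3 - β ^ 2) * a ^ 12 = 0 := by
      have h2 : (4 * α ^ 3 - β ^ 2) * a ^ 12 = 4 * (α * a ^ 4) ^ 3 - (β * a ^ 6) ^ 2 := by ring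
      rw [h2, ← a0, ← b0]
      ring
    have h2 := (mul_eq_zero.1 h1).resolve_right (pow_ne_zero _ ha)
    apply hdisc
    rw [hI, hJ]
    have h3 : (4 : ℂ[X]) * C α ^ 3 = C β ^ 2 := by
      rw [← C_pow, ← C_pow, ← sub_eq_zero.1 h2, C_mul]
      rfl
    linear_combination (C a * X + C b) ^ 12 * h3

/-- the determinants of the binary forms -/
def Ds (p q r : Fin 3 → ℂ) (i : Fin 3) : ℂ := p i * r i - q i ^ 2

theorem br_sq (p q r : Fin 3 → ℂ) :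
    br p q r ^ 2 = 4 * Ds p q r 0 * Ds p q r 1 * Ds p q r 2 +
      Dm p q r 0 1 * Dm p q r 0 2 * Dm p q r 1 2 - Ds p q r 0 * Dm p q r 1 2 ^ 2 -
      Ds p q r 1 * Dm p q r 0 2 ^ 2 - Ds p q r 2 * Dm p q r 0 1 ^ 2 := by
  simp only [br, Ds, Dm]
  ring

theorem dQ_eq (a : ℂ) (p q r : Fin 3 → ℂ) :
    dQ a p q r = ![a ^ 4 - 2 * a * br p q r,
      2 * a ^ 2 * Ds p q r 0 + 2 * a * br p q r,
      Ds p q r 0 ^ 2,
      2 * a * br p q r - 2 * a ^ 2 * Ds p q r 1,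
      2 * Ds p q r 0 * Ds p q r 1 - Dm p q r 0 1 ^ 2,
      2 * a ^ 2 * Ds p q r 2 + 2 * a * br p q r,
      Dm p q r 0 2 ^ 2 - 2 * Ds p q r 0 * Ds p q r 2,
      Ds p q r 1 ^ 2,
      2 * Ds p q r 1 * Ds p q r 2 - Dm p q r 1 2 ^ 2,
      Ds p q r 2 ^ 2] := rfl

theorem dQ_0 (a : ℂ) (p q r : Fin 3 → ℂ) : dQ a p q r 0 = a ^ 4 - 2 * a * br p q r := rfl
theorem dQ_1 (a : ℂ) (p q r : Fin 3 → ℂ) :
    dQ a p q r 1 = 2 * a ^ 2 * Ds p q r 0 + 2 * a * br p q r := rfl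
theorem dQ_2 (a : ℂ) (p q r : Fin 3 → ℂ) : dQ a p q r 2 = Ds p q r 0 ^ 2 := rfl
theorem dQ_3 (a : ℂ) (p q r : Fin 3 → ℂ) :
    dQ a p q r 3 = 2 * a * br p q r - 2 * a ^ 2 * Ds p q r 1 := rfl
theorem dQ_4 (a : ℂ) (p q r : Fin 3 → ℂ) :
    dQ a p q r 4 = 2 * Ds p q r 0 * Ds p q r 1 - Dm p q r 0 1 ^ 2 := rfl
theorem dQ_5 (a : ℂ) (p q r : Fin 3 → ℂ) :
    dQ a p q r 5 = 2 * a ^ 2 * Ds p q r 2 + 2 * a * br p q r := rfl
theorem dQ_6 (a : ℂ) (p q r : Fin 3 → ℂ) :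
    dQ a p q r 6 = Dm p q r 0 2 ^ 2 - 2 * Ds p q r 0 * Ds p q r 2 := rfl
theorem dQ_7 (a : ℂ) (p q r : Fin 3 → ℂ) : dQ a p q r 7 = Ds p q r 1 ^ 2 := rfl
theorem dQ_8 (a : ℂ) (p q r : Fin 3 → ℂ) :
    dQ a p q r 8 = 2 * Ds p q r 1 * Ds p q r 2 - Dm p q r 1 2 ^ 2 := rfl
theorem dQ_9 (a : ℂ) (p q r : Fin 3 → ℂ) : dQ a p q r 9 = Ds p q r 2 ^ 2 := rfl

/-- **The discriminant does not vanish identically.** -/
theorem hdisc_Q8 {a : ℂ} {p q r : Fin 3 → ℂ}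
    (h01 : Dm p q r 0 1 ^ 2 - 4 * Ds p q r 0 * Ds p q r 1 ≠ 0)
    (h02 : Dm p q r 0 2 ^ 2 - 4 * Ds p q r 0 * Ds p q r 2 ≠ 0)
    (h : Ds p q r 0 = 0 ∨ (Dm p q r 0 1 ≠ 0 ∧ Dm p q r 0 2 ≠ 0) ∨
      (Dm p q r 0 1 = 0 ∧ Dm p q r 0 2 ≠ 0 ∧
        4 * Ds p q r 0 * Ds p q r 1 * a - (Ds p q r 0 - Ds p q r 1) * br p q r ≠ 0) ∨
      (Dm p q r 0 2 = 0 ∧ Dm p q r 0 1 ≠ 0 ∧
        4 * Ds p q r 0 * Ds p q r 2 * a + (Ds p q r 0 + Ds p q r 2) * br p q r ≠ 0)) :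
    4 * (tI (fun i => C (dQ a p q r i)) X : ℂ[X]) ^ 3 ≠ tJ (fun i => C (dQ a p q r i)) X ^ 2 := by
  by_cases h0 : Ds p q r 0 = 0
  · apply hdisc_of_zero
    · rw [dQ_2, h0]
      ring
    · intro h3
      apply h01
      rw [dQ_4, h0] at h3
      rw [h0]
      linear_combination -h3
    · intro h3
      apply h02
      rw [dQ_6, h0] at h3
      rw [h0]
      linear_combination h3
  have hb := br_sq p q r
  rcases h with h | ⟨k1, k2⟩ | ⟨k1, k2, k3⟩ | ⟨k1, k2, k3⟩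
  · exact absurd h h0
  · apply hdisc_of_top
    · rw [dQ_2]
      exact pow_ne_zero 2 h0
    · have e : dQ a p q r 4 ^ 2 - 4 * dQ a p q r 2 * dQ a p q r 7 =
          Dm p q r 0 1 ^ 2 * (Dm p q r 0 1 ^ 2 - 4 * Ds p q r 0 * Ds p q r 1) := by
        rw [dQ_4, dQ_2, dQ_7]
        ring
      rw [e]
      exact mul_ne_zero (pow_ne_zero 2 k1) h01
    · have e : dQ a p q r 6 ^ 2 - 4 * dQ a p q r 2 * dQ a p q r 9 =
          Dm p q r 0 2 ^ 2 * (Dm p q r 0 2 ^ 2 - 4 * Ds p q r 0 * Ds p q r 2) := by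
        rw [dQ_6, dQ_2, dQ_9]
        ring
      rw [e]
      exact mul_ne_zero (pow_ne_zero 2 k2) h02
  · intro hd
    have h1 := deriv_pF (dQ a p q r)
    rw [pF_eq_zero hd, derivative_zero, eval_zero, deriv_rT, deriv_rQ, deriv_rD] at h1
    simp only [rT, rQ, rD, rA, rB, rG, dQ_0, dQ_1, dQ_2, dQ_3, dQ_4, dQ_5, dQ_6, dQ_7, dQ_8,
      dQ_9, k1] at h1
    rw [k1] at hb
    generalize Ds p q r 0 = A at *
    generalize Ds p q r 1 = B at *
    generalize Ds p q r 2 = G at *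
    generalize Dm p q r 0 2 = x at *
    generalize Dm p q r 1 2 = y at *
    generalize br p q r = b at *
    have h2 : 4 * A ^ 3 * x ^ 2 * (x ^ 2 - 4 * A * G) * (4 * A * B * a - (A - B) * b) ^ 2 = 0 := by
      linear_combination h1 + 4 * A ^ 3 * x ^ 2 * (x ^ 2 - 4 * A * G) * (A - B) ^ 2 * hb
    exact mul_ne_zero (mul_ne_zero (mul_ne_zero (mul_ne_zero (by norm_num) (pow_ne_zero 3 h0))
      (pow_ne_zero 2 k2)) h02) (pow_ne_zero 2 k3) h2
  · intro hd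
    have h1 := deriv_pF (dQ a p q r)
    rw [pF_eq_zero hd, derivative_zero, eval_zero, deriv_rT, deriv_rQ, deriv_rD] at h1
    simp only [rT, rQ, rD, rA, rB, rG, dQ_0, dQ_1, dQ_2, dQ_3, dQ_4, dQ_5, dQ_6, dQ_7, dQ_8,
      dQ_9, k1] at h1
    rw [k1] at hb
    generalize Ds p q r 0 = A at *
    generalize Ds p q r 1 = B at *
    generalize Ds p q r 2 = G at *
    generalize Dm p q r 0 1 = x at *
    generalize Dm p q r 1 2 = y at *
    generalize br p q r = b at *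
    have h2 : 4 * A ^ 3 * x ^ 2 * (x ^ 2 - 4 * A * B) * (4 * A * G * a + (A + G) * b) ^ 2 = 0 := by
      linear_combination h1 + 4 * A ^ 3 * x ^ 2 * (x ^ 2 - 4 * A * B) * (A + G) ^ 2 * hb
    exact mul_ne_zero (mul_ne_zero (mul_ne_zero (mul_ne_zero (by norm_num) (pow_ne_zero 3 h0))
      (pow_ne_zero 2 k2)) h01) (pow_ne_zero 2 k3) h2

/-- **The family is not isotrivial.** -/
theorem hnt_Q8 {a : ℂ} {p q r : Fin 3 → ℂ}
    (h01 : Dm p q r 0 1 ^ 2 - 4 * Ds p q r 0 * Ds p q r 1 ≠ 0)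
    (h02 : Dm p q r 0 2 ^ 2 - 4 * Ds p q r 0 * Ds p q r 2 ≠ 0)
    (hdisc : 4 * (tI (fun i => C (dQ a p q r i)) X : ℂ[X]) ^ 3 ≠
      tJ (fun i => C (dQ a p q r i)) X ^ 2) (α β c e : ℂ) :
    ¬ ((tI (fun i => C (dQ a p q r i)) X : ℂ[X]) = C α * (C c * X + C e) ^ 4 ∧
      (tJ (fun i => C (dQ a p q r i)) X : ℂ[X]) = C β * (C c * X + C e) ^ 6) := by
  apply hnt_of_hdisc hdisc
  by_cases h0 : Ds p q r 0 = 0
  · right
    constructor
    · intro h3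
      apply h01
      rw [dQ_4, h0] at h3
      rw [h0]
      linear_combination -h3
    · intro h3
      apply h02
      rw [dQ_6, h0] at h3
      rw [h0]
      linear_combination h3
  · left
    rw [dQ_2]
    exact pow_ne_zero 2 h0

theorem qI_PQ (a : ℂ) (p q r : Fin 3 → ℂ) :
    qI (PQ a p q r) = (X * (X - 4)) ^ 2 * tI (fun i => C (dQ a p q r i)) X :=
  qI_tq _ _

theorem qJ_PQ (a : ℂ) (p q r : Fin 3 → ℂ) :
    qJ (PQ a p q r) = (X * (X - 4)) ^ 3 * tJ (fun i => C (dQ a p q r i)) X :=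
  qJ_tq _ _

/-- the condition in terms of values -/
theorem hdisc_of_val {d : Fin 10 → ℂ} (h : ∃ l : ℂ, 4 * tI d l ^ 3 ≠ tJ d l ^ 2) :
    4 * (tI (fun i => C (d i)) X : ℂ[X]) ^ 3 ≠ tJ (fun i => C (d i)) X ^ 2 := by
  obtain ⟨l, hl⟩ := h
  intro h0
  apply hl
  have h1 := congrArg (eval l) h0
  simpa only [eval_mul, eval_pow, eval_ofNat, eval_tI, eval_tJ] using h1

end Vale.Agent.P297.H10
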