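import Vale.Agent.P297.H10.Q8

/-!
The coordinates `(s, X, Y)` of the other side for the quaternion group.
-/

set_option linter.unusedSectionVars false
set_option linter.unusedSimpArgs false

namespace Vale.Agent.P297.H10

open Vale.Agent.P297 Vale.Agent.P297.Gen Vale.Agent.P297.G4 Vale.Agent.P297.C8
open Vale.Agent.P297.H637 Vale.Agent.P297.Z3 Polynomial

section

variable {N : Type} [Field N]

/-- `s = x²` -/
def tS (x : N) : N := x ^ 2

/-- the coordinate on the conic -/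
def tX (x y : N) : N := (y ^ 2 - 1) / (y ^ 2 + 1) * ((x ^ 2 + 1) / (x ^ 2 - 1))

/-- the factor -/
def tF (x y : N) : N := (4 * ((x ^ 2 + 1) * y) / (x * (y ^ 2 + 1))) ^ 2

/-- the square root -/
def tY (x y w : N) : N := tF x y * w

theorem qf_smul (d : Fin 10 → N) (c : N) (u : Fin 4 → N) :
    qf d (fun i => c * u i) = c ^ 2 * qf d u := by
  simp only [qf]
  ring

theorem uq_frame [CharZero N] {x y : N} (hx : x ≠ 0) (hy : y ≠ 0) (h1 : x ^ 2 - 1 ≠ 0)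
    (h3 : y ^ 2 + 1 ≠ 0) :
    uq (lv (tS x)) (tX x y) =
      fun i => tF x y * ![1, lam x y 1 ^ 2, lam x y 2 ^ 2, lam x y 3 ^ 2] i := by
  funext i
  fin_cases i
  · change 4 * (lv (tS x) - (lv (tS x) - 4) * tX x y ^ 2) = tF x y * 1
    simp only [lv, tS, tX, tF]
    field_simp
    ring
  · change lv (tS x) * (lv (tS x) - (lv (tS x) - 4) * tX x y ^ 2) =
      tF x y * ((x + x⁻¹) / 2) ^ 2
    simp only [lv, tS, tX, tF]
    field_simp
    ring
  · change 4 * lv (tS x) = tF x y * ((y + y⁻¹) / 2) ^ 2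
    simp only [lv, tS, tX, tF]
    field_simp
    ring
  · change (lv (tS x) + (lv (tS x) - 4) * tX x y) ^ 2 =
      tF x y * ((x * y + (x * y)⁻¹) / 2) ^ 2
    simp only [lv, tS, tX, tF]
    field_simp
    ring

theorem tS_inv (x : N) : tS x⁻¹ = (tS x)⁻¹ := inv_pow x 2

theorem tX_inv {x y : N} (hx : x ≠ 0) (hy : y ≠ 0) (h1 : x ^ 2 - 1 ≠ 0) (h3 : y ^ 2 + 1 ≠ 0) :
    tX x⁻¹ y⁻¹ = tX x y := by
  have h1' : 1 - x ^ 2 ≠ 0 := fun h => h1 (by linear_combination -h)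
  have h3' : 1 + y ^ 2 ≠ 0 := fun h => h3 (by linear_combination h)
  have e1 : (y⁻¹ ^ 2 - 1) / (y⁻¹ ^ 2 + 1) = (1 - y ^ 2) / (1 + y ^ 2) := by
    field_simp
  have e2 : (x⁻¹ ^ 2 + 1) / (x⁻¹ ^ 2 - 1) = (1 + x ^ 2) / (1 - x ^ 2) := by
    field_simp
  rw [tX, tX, e1, e2]
  field_simp
  ring

theorem tF_inv {x y : N} (hx : x ≠ 0) (hy : y ≠ 0) : tF x⁻¹ y⁻¹ = tF x y := by
  have e1 : 4 * ((x⁻¹ ^ 2 + 1) * y⁻¹) / (x⁻¹ * (y⁻¹ ^ 2 + 1)) =
      4 * ((x ^ 2 + 1) * y) / (x * (y ^ 2 + 1)) := by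
    by_cases h3 : y ^ 2 + 1 = 0
    · have h4 : y⁻¹ ^ 2 + 1 = 0 := by
        have : y⁻¹ ^ 2 + 1 = (y ^ 2 + 1) / y ^ 2 := by
          field_simp
          ring
        rw [this, h3, zero_div]
      rw [h3, h4, mul_zero, mul_zero, div_zero, div_zero]
    · have h3' : 1 + y ^ 2 ≠ 0 := fun h => h3 (by linear_combination h)
      have e3 : y⁻¹ ^ 2 + 1 = (1 + y ^ 2) / y ^ 2 := by
        field_simp
      have e4 : x⁻¹ ^ 2 + 1 = (1 + x ^ 2) / x ^ 2 := by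
        field_simp
      rw [e3, e4]
      field_simp
      ring
  rw [tF, tF, e1]

theorem tY_inv {x y : N} (hx : x ≠ 0) (hy : y ≠ 0) (w : N) : tY x⁻¹ y⁻¹ w = tY x y w := by
  rw [tY, tY, tF_inv hx hy]

theorem tY_neg (x y w : N) : tY x y (-w) = -tY x y w := by
  rw [tY, tY, mul_neg]

theorem sq_eq {x x' : N} (h : x' ^ 2 = x ^ 2) : x' = x ∨ x' = -x := sq_eq_sq_iff_eq_or_eq_neg.1 h

theorem tX_congr {x x' y y' : N} (hx : x' ^ 2 = x ^ 2) (hy : y' ^ 2 = y ^ 2) :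
    tX x' y' = tX x y := by
  rw [tX, tX, hx, hy]

theorem tF_congr {x x' y y' : N} (hx : x' ^ 2 = x ^ 2) (hy : y' ^ 2 = y ^ 2) :
    tF x' y' = tF x y := by
  have h : ∀ a b : N, tF a b = 16 * ((a ^ 2 + 1) ^ 2 * b ^ 2) / (a ^ 2 * (b ^ 2 + 1) ^ 2) := by
    intro a b
    rw [tF, div_pow]
    congr 1 <;> ring
  rw [h, h, hx, hy]

/-- the point is determined up to signs -/
theorem eq_of_T [CharZero N] {x y w x' y' w' : N} (hx : x ≠ 0) (hy : y ≠ 0)
    (h1 : x ^ 2 - 1 ≠ 0) (h2 : x ^ 2 + 1 ≠ 0) (h3 : y ^ 2 + 1 ≠ 0) (h3' : y' ^ 2 + 1 ≠ 0)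
    (hS : tS x' = tS x) (hX : tX x' y' = tX x y) (hY : tY x' y' w' = tY x y w) :
    x' ^ 2 = x ^ 2 ∧ y' ^ 2 = y ^ 2 ∧ w' = w := by
  have e1 : x' ^ 2 = x ^ 2 := hS
  have e2 : y' ^ 2 = y ^ 2 := by
    rw [tX, tX, e1] at hX
    have h4 : (x ^ 2 + 1) / (x ^ 2 - 1) ≠ 0 := div_ne_zero h2 h1
    have h5 := mul_right_cancel₀ h4 hX
    rw [div_eq_div_iff h3' h3] at h5
    have h6 : (2 : N) * (y' ^ 2 - y ^ 2) = 0 := by linear_combination h5
    have h7 := (mul_eq_zero.1 h6).resolve_left two_ne_zero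
    exact sub_eq_zero.1 h7
  refine ⟨e1, e2, ?_⟩
  rw [tY, tY, tF_congr e1 e2] at hY
  refine mul_left_cancel₀ ?_ hY
  exact pow_ne_zero 2 (div_ne_zero (mul_ne_zero (by norm_num : (4 : N) ≠ 0) (mul_ne_zero h2 hy))
    (mul_ne_zero hx h3))

theorem lam_congr_sq [CharZero N] {x x' y y' : N} (hx : x' = x ∨ x' = -x)
    (hy : y' = y ∨ y' = -y) (i : Fin 4) : lam x' y' i ^ 2 = lam x y i ^ 2 := by
  rcases hx with rfl | rfl <;> rcases hy with rfl | rfl <;> fin_cases i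
  all_goals
    simp only [lam, Fin.zero_eta, Fin.mk_one, Fin.reduceFinMk, Matrix.cons_val_zero,
      Matrix.cons_val_one, Matrix.cons_val_two, Matrix.cons_val_three, Matrix.head_cons,
      Matrix.tail_cons, Matrix.cons_val, inv_neg, neg_mul, mul_neg, neg_neg]
  all_goals ring

end

section

variable {N : Type} [Field N] [Algebra ℂ N]

/-- The family of quartics. -/
noncomputable def PQ (a : ℂ) (p q r : Fin 3 → ℂ) : Fin 5 → ℂ[X] :=
  fun i => tq (fun j => C (dQ a p q r j)) X i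

theorem cP_PQ (a : ℂ) (p q r : Fin 3 → ℂ) (s : N) :
    cP (PQ a p q r) s = tq (fun j => algebraMap ℂ N (dQ a p q r j)) (lv s) := by
  funext i
  have h := map_tq (aeval (lv s) : ℂ[X] →ₐ[ℂ] N).toRingHom (fun j => C (dQ a p q r j)) X i
  simp only [AlgHom.toRingHom_eq_coe, RingHom.coe_coe, aeval_X, aeval_C] at h
  exact h

theorem tY_sq [CharZero N] (a : ℂ) (p q r : Fin 3 → ℂ) {x y w : N} (hx : x ≠ 0) (hy : y ≠ 0)
    (h1 : x ^ 2 - 1 ≠ 0) (h3 : y ^ 2 + 1 ≠ 0)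
    (hw : w ^ 2 = (MM (webQ a p q r) x y).det) :
    tY x y w ^ 2 = qv (cP (PQ a p q r) (tS x)) (tX x y) := by
  have e1 := uq_frame hx hy h1 h3
  have e2 := det_webQ a p q r hx hy
  have e3 := qf_smul (fun j => algebraMap ℂ N (dQ a p q r j)) (tF x y)
    ![1, lam x y 1 ^ 2, lam x y 2 ^ 2, lam x y 3 ^ 2]
  have e4 := qv_tq (fun j => algebraMap ℂ N (dQ a p q r j)) (lv (tS x)) (tX x y)
  have e5 := cP_PQ a p q r (tS x)
  rw [e5, e4, e1, e3, ← e2, ← hw, tY, mul_pow]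

theorem det_congr [CharZero N] (a : ℂ) (p q r : Fin 3 → ℂ) {x x' y y' : N} (hx : x ≠ 0)
    (hy : y ≠ 0) (hx' : x' = x ∨ x' = -x) (hy' : y' = y ∨ y' = -y) :
    (MM (webQ a p q r) x' y').det = (MM (webQ a p q r) x y).det := by
  have k1 : x' ≠ 0 := by
    rcases hx' with rfl | rfl
    · exact hx
    · exact neg_ne_zero.2 hx
  have k2 : y' ≠ 0 := by
    rcases hy' with rfl | rfl
    · exact hy
    · exact neg_ne_zero.2 hy
  rw [det_webQ a p q r k1 k2, det_webQ a p q r hx hy, lam_congr_sq hx' hy' 1,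
    lam_congr_sq hx' hy' 2, lam_congr_sq hx' hy' 3]

theorem tran_sub_ne {x : N} (hx : Transcendental ℂ x) (c : ℂ) : x ^ 2 - algebraMap ℂ N c ≠ 0 := by
  intro h
  apply hx
  refine ⟨X ^ 2 - C c, ?_, ?_⟩
  · exact (monic_X_pow_sub_C c two_ne_zero).ne_zero
  · simpa using h

theorem tran_ne {x : N} (hx : Transcendental ℂ x) :
    x ≠ 0 ∧ x ^ 2 - 1 ≠ 0 ∧ x ^ 2 + 1 ≠ 0 := by
  refine ⟨?_, ?_, ?_⟩
  · rintro rfl
    exact hx isAlgebraic_zero
  · have h := tran_sub_ne hx 1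
    rwa [map_one] at h
  · have h := tran_sub_ne hx (-1)
    rwa [map_neg, map_one, sub_neg_eq_add] at h

variable [IsAlgClosed N]

theorem mem_of_sq_mem {M : IntermediateField ℂ N} (hM : Closed M) {x : N} (h : x ^ 2 ∈ M) :
    x ∈ M := by
  apply hM
  exact IsAlgebraic.of_pow two_pos (isAlgebraic_algebraMap (⟨x ^ 2, h⟩ : M))

theorem cl0_sq (x : N) : cl0 ({x ^ 2} : Set N) = cl0 {x} := by
  apply le_antisymm
  · refine cl0_le (cl0_closed _) (Set.singleton_subset_iff.2 ?_)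
    have h1 : x ∈ cl0 ({x} : Set N) := subset_cl0 _ (Set.mem_singleton _)
    exact pow_mem h1 2
  · refine cl0_le (cl0_closed _) (Set.singleton_subset_iff.2 ?_)
    have h1 : x ^ 2 ∈ cl0 ({x ^ 2} : Set N) := subset_cl0 _ (Set.mem_singleton _)
    exact mem_of_sq_mem (closed_cl0 _) h1

theorem tran_of_notMem {x y : N} (hy : y ∉ cl0 ({x} : Set N)) : Transcendental ℂ y := by
  intro h
  apply hy
  apply closed_cl0
  exact h.tower_top _

theorem tran_sq {x : N} (hx : Transcendental ℂ x) : Transcendental ℂ (x ^ 2) := by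
  intro h
  exact hx (h.of_pow two_pos)

theorem tX_notMem {x y : N} (hx : Transcendental ℂ x) (hy : y ∉ cl0 ({x} : Set N)) :
    tX x y ∉ cl0 ({tS x} : Set N) := by
  have : CharZero N := charZero_of_injective_algebraMap (algebraMap ℂ N).injective
  obtain ⟨-, h1, h2⟩ := tran_ne hx
  obtain ⟨-, -, h3⟩ := tran_ne (tran_of_notMem hy)
  intro h
  apply hy
  rw [tS, cl0_sq] at h
  apply mem_of_sq_mem (closed_cl0 _)
  have hxm : x ∈ cl0 ({x} : Set N) := subset_cl0 _ (Set.mem_singleton _)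
  have k1 : (y ^ 2 - 1) / (y ^ 2 + 1) ∈ cl0 ({x} : Set N) := by
    have e : (y ^ 2 - 1) / (y ^ 2 + 1) = tX x y * ((x ^ 2 - 1) / (x ^ 2 + 1)) := by
      rw [tX]
      field_simp
    rw [e]
    exact mul_mem h (div_mem (sub_mem (pow_mem hxm 2) (one_mem _))
      (add_mem (pow_mem hxm 2) (one_mem _)))
  set κ := (y ^ 2 - 1) / (y ^ 2 + 1) with hκ
  have k3 : 1 - κ ≠ 0 := by
    rw [hκ]
    have e : 1 - (y ^ 2 - 1) / (y ^ 2 + 1) = 2 / (y ^ 2 + 1) := by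
      field_simp
      ring
    rw [e]
    exact div_ne_zero two_ne_zero h3
  have k4 : y ^ 2 = (1 + κ) / (1 - κ) := by
    rw [eq_div_iff k3, hκ]
    field_simp
    ring
  rw [k4]
  exact div_mem (add_mem (one_mem _) k1) (sub_mem (one_mem _) k1)

/-- **A generic point of the plane gives a generic point of the family.** -/
theorem genT_Q8 (a : ℂ) (p q r : Fin 3 → ℂ) {x y w : N} (hx : Transcendental ℂ x)
    (hy : y ∉ cl0 ({x} : Set N)) (hw : w ^ 2 = (MM (webQ a p q r) x y).det) :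
    GenT (PQ a p q r) (tS x) (tX x y) (tY x y w) := by
  have : CharZero N := charZero_of_injective_algebraMap (algebraMap ℂ N).injective
  obtain ⟨h0, h1, -⟩ := tran_ne hx
  obtain ⟨k0, -, h3⟩ := tran_ne (tran_of_notMem hy)
  exact ⟨tran_sq hx, tX_notMem hx hy, tY_sq a p q r h0 k0 h1 h3 hw⟩

/-- **The four lifts of a generic point.** -/
theorem lifts_Q8 (a : ℂ) (p q r : Fin 3 → ℂ) {s X Y : N} (h : GenT (PQ a p q r) s X Y) :
    ∃ k : Fin 4 → N × N × N, Function.Injective k ∧ ∀ x y w : N,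
      (Transcendental ℂ x ∧ y ∉ cl0 ({x} : Set N) ∧ w ^ 2 = (MM (webQ a p q r) x y).det ∧
        tS x = s ∧ tX x y = X ∧ tY x y w = Y) ↔ ∃ i, k i = (x, y, w) := by
  have : CharZero N := charZero_of_injective_algebraMap (algebraMap ℂ N).injective
  obtain ⟨x₀, hx₀⟩ := IsAlgClosed.exists_pow_nat_eq s two_pos
  have hs1 : s - 1 ≠ 0 := by
    intro h0
    apply h.tr
    rw [sub_eq_zero.1 h0]
    exact isAlgebraic_one
  have hs2 : s + 1 ≠ 0 := by
    intro h0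
    apply h.tr
    rw [eq_neg_of_add_eq_zero_left h0]
    exact isAlgebraic_one.neg
  have hsm : s ∈ cl0 ({s} : Set N) := subset_cl0 _ (Set.mem_singleton _)
  set κ := X * ((s - 1) / (s + 1)) with hκ
  have hXκ : X = κ * ((s + 1) / (s - 1)) := by
    rw [hκ]
    field_simp
  have hκn : κ ∉ cl0 ({s} : Set N) := by
    intro h0
    apply h.notMem
    rw [hXκ]
    exact mul_mem h0 (div_mem (add_mem hsm (one_mem _)) (sub_mem hsm (one_mem _)))
  have hκ1 : 1 - κ ≠ 0 := by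
    intro h0
    apply hκn
    rw [← sub_eq_zero.1 h0]
    exact one_mem _
  obtain ⟨y₀, hy₀⟩ := IsAlgClosed.exists_pow_nat_eq ((1 + κ) / (1 - κ)) two_pos
  have hx₀t : Transcendental ℂ x₀ := by
    intro h0
    apply h.tr
    rw [← hx₀]
    exact h0.pow 2
  have hcl : cl0 ({x₀} : Set N) = cl0 {s} := by rw [← hx₀, cl0_sq]
  have hy₁ : y₀ ^ 2 + 1 ≠ 0 := by
    rw [hy₀]
    have e : (1 + κ) / (1 - κ) + 1 = 2 / (1 - κ) := by
      field_simp
      ring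
    rw [e]
    exact div_ne_zero two_ne_zero hκ1
  have hκy : κ = (y₀ ^ 2 - 1) / (y₀ ^ 2 + 1) := by
    rw [eq_div_iff hy₁, hy₀]
    field_simp
    ring
  have hy₀n : y₀ ∉ cl0 ({x₀} : Set N) := by
    intro h0
    rw [hcl] at h0
    apply hκn
    rw [hκy]
    exact div_mem (sub_mem (pow_mem h0 2) (one_mem _)) (add_mem (pow_mem h0 2) (one_mem _))
  obtain ⟨h0, h1, h2⟩ := tran_ne hx₀t
  obtain ⟨k0, -, h3⟩ := tran_ne (tran_of_notMem hy₀n)
  have hF : tF x₀ y₀ ≠ 0 := pow_ne_zero 2 (div_ne_zero (mul_ne_zero (by norm_num : (4 : N) ≠ 0)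
    (mul_ne_zero h2 k0)) (mul_ne_zero h0 h3))
  set w₀ := Y / tF x₀ y₀ with hw₀
  have hX₀ : tX x₀ y₀ = X := by
    rw [tX, ← hκy, hx₀, ← hXκ]
  have hY₀ : tY x₀ y₀ w₀ = Y := by
    rw [tY, hw₀, mul_div_cancel₀ _ hF]
  have hdet₀ : w₀ ^ 2 = (MM (webQ a p q r) x₀ y₀).det := by
    have e1 : Y ^ 2 = tF x₀ y₀ ^ 2 * (MM (webQ a p q r) x₀ y₀).det := by
      have e1 := uq_frame h0 k0 h1 h3
      have e2 := det_webQ a p q r h0 k0
      have e3 := qf_smul (fun j => algebraMap ℂ N (dQ a p q r j)) (tF x₀ y₀)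
        ![1, lam x₀ y₀ 1 ^ 2, lam x₀ y₀ 2 ^ 2, lam x₀ y₀ 3 ^ 2]
      have e4 := qv_tq (fun j => algebraMap ℂ N (dQ a p q r j)) (lv (tS x₀)) (tX x₀ y₀)
      have e5 := cP_PQ a p q r (tS x₀)
      have e6 := h.eq
      have e7 : s = tS x₀ := hx₀.symm
      rw [e7, ← hX₀, e5, e4, e1, e3, ← e2] at e6
      exact e6
    rw [hw₀, div_pow, e1]
    field_simp
  have key : ∀ x y w : N, (x = x₀ ∨ x = -x₀) → (y = y₀ ∨ y = -y₀) → w = w₀ →
      (Transcendental ℂ x ∧ y ∉ cl0 ({x} : Set N) ∧ w ^ 2 = (MM (webQ a p q r) x y).det ∧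
        tS x = s ∧ tX x y = X ∧ tY x y w = Y) := by
    intro x y w hx hy hw
    have e1 : x ^ 2 = x₀ ^ 2 := by rcases hx with rfl | rfl <;> ring
    have e2 : y ^ 2 = y₀ ^ 2 := by rcases hy with rfl | rfl <;> ring
    refine ⟨?_, ?_, ?_, ?_, ?_, ?_⟩
    · intro h9
      apply hx₀t
      have h10 := h9.pow 2
      rw [e1] at h10
      exact h10.of_pow two_pos
    · have e3 : cl0 ({x} : Set N) = cl0 {x₀} := by rw [← cl0_sq, e1, cl0_sq]
      rw [e3]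
      intro h9
      apply hy₀n
      apply mem_of_sq_mem (closed_cl0 _)
      rw [← e2]
      exact pow_mem h9 2
    · rw [hw, det_congr a p q r h0 k0 hx hy]
      exact hdet₀
    · rw [tS, e1, hx₀]
    · rw [tX_congr e1 e2, hX₀]
    · rw [tY, tF_congr e1 e2, hw]
      exact hY₀
  have hneg : ∀ {z : N}, z ≠ 0 → z ≠ -z := by
    intro z hz h9
    apply hz
    have h10 : (2 : N) * z = 0 := by linear_combination h9
    exact (mul_eq_zero.1 h10).resolve_left two_ne_zero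
  have hx₁ := hneg h0
  have hy₂ := hneg k0
  refine ⟨![(x₀, y₀, w₀), (x₀, -y₀, w₀), (-x₀, y₀, w₀), (-x₀, -y₀, w₀)], ?_, ?_⟩
  · have a1 : ∀ {u v : N × N × N}, u.1 ≠ v.1 → u ≠ v := fun h h' => h (by rw [h'])
    have a2 : ∀ {u v : N × N × N}, u.2.1 ≠ v.2.1 → u ≠ v := fun h h' => h (by rw [h'])
    intro i j hij
    fin_cases i <;> fin_cases j
    · rfl
    · exact absurd hij (a2 hy₂)
    · exact absurd hij (a1 hx₁)
    · exact absurd hij (a1 hx₁)
    · exact absurd hij (a2 hy₂.symm)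
    · rfl
    · exact absurd hij (a1 hx₁)
    · exact absurd hij (a1 hx₁)
    · exact absurd hij (a1 hx₁.symm)
    · exact absurd hij (a1 hx₁.symm)
    · rfl
    · exact absurd hij (a2 hy₂)
    · exact absurd hij (a1 hx₁.symm)
    · exact absurd hij (a1 hx₁.symm)
    · exact absurd hij (a2 hy₂.symm)
    · rfl
  · intro x y w
    constructor
    · rintro ⟨t1, t2, t3, t4, t5, t6⟩
      obtain ⟨-, -, g3⟩ := tran_ne (tran_of_notMem t2)
      obtain ⟨e1, e2, e3⟩ := eq_of_T h0 k0 h1 h2 h3 g3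
        (by rw [t4, tS, hx₀]) (by rw [t5, hX₀]) (by rw [t6, hY₀])
      rcases sq_eq e1 with rfl | rfl <;> rcases sq_eq e2 with rfl | rfl
      · exact ⟨0, by rw [e3]; rfl⟩
      · exact ⟨1, by rw [e3]; rfl⟩
      · exact ⟨2, by rw [e3]; rfl⟩
      · exact ⟨3, by rw [e3]; rfl⟩
    · rintro ⟨i, hi⟩
      fin_cases i
      · obtain ⟨rfl, h6⟩ := Prod.ext_iff.1 hi
        obtain ⟨rfl, rfl⟩ := Prod.ext_iff.1 h6
        exact key _ _ _ (Or.inl rfl) (Or.inl rfl) rfl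
      · obtain ⟨rfl, h6⟩ := Prod.ext_iff.1 hi
        obtain ⟨rfl, rfl⟩ := Prod.ext_iff.1 h6
        exact key _ _ _ (Or.inl rfl) (Or.inr rfl) rfl
      · obtain ⟨rfl, h6⟩ := Prod.ext_iff.1 hi
        obtain ⟨rfl, rfl⟩ := Prod.ext_iff.1 h6
        exact key _ _ _ (Or.inr rfl) (Or.inl rfl) rfl
      · obtain ⟨rfl, h6⟩ := Prod.ext_iff.1 hi
        obtain ⟨rfl, rfl⟩ := Prod.ext_iff.1 h6
        exact key _ _ _ (Or.inr rfl) (Or.inr rfl) rfl

end

end Vale.Agent.P297.H10
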