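import Vale.Agent.P297.H10.Frame

/-!
The action of the quaternion group on the quadrics of the web and on their rulings.
-/

set_option linter.unusedSectionVars false
set_option linter.unusedSimpArgs false

namespace Vale.Agent.P297.H10

open Vale.Agent.P297 Vale.Agent.P297.Gen Vale.Agent.P297.G4 Vale.Agent.P297.C8
open Vale.Agent.P297.H637 Vale.Agent.P297.Z3 Polynomial

section

variable {N : Type} [Field N] [Algebra ℂ N]

theorem det_rows_mulVec (A : Matrix (Fin 4) (Fin 4) N) (z u d e : Fin 4 → N) :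
    Matrix.det ![A.mulVec z, A.mulVec u, A.mulVec d, A.mulVec e] =
      A.det * Matrix.det ![z, u, d, e] := by
  have h : (![A.mulVec z, A.mulVec u, A.mulVec d, A.mulVec e] : Matrix (Fin 4) (Fin 4) N) =
      Matrix.of ![z, u, d, e] * A.transpose := by
    ext i j
    rw [Matrix.mul_apply]
    fin_cases i
    · change ∑ k, A j k * z k = ∑ k, z k * A j k
      exact Finset.sum_congr rfl fun k _ => mul_comm _ _
    · change ∑ k, A j k * u k = ∑ k, u k * A j k
      exact Finset.sum_congr rfl fun k _ => mul_comm _ _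
    · change ∑ k, A j k * d k = ∑ k, d k * A j k
      exact Finset.sum_congr rfl fun k _ => mul_comm _ _
    · change ∑ k, A j k * e k = ∑ k, e k * A j k
      exact Finset.sum_congr rfl fun k _ => mul_comm _ _
  rw [h, Matrix.det_mul, Matrix.det_transpose, mul_comm]
  rfl

/-- **Similitudes between two quadrics of the web preserve the rulings.** -/
theorem Rul_iff_of_mat (Q : Web) {x y x' y' : N} (w : N) (A : Matrix (Fin 4) (Fin 4) N) {c : N}
    (hc : c ≠ 0) (hdet : A.det = c ^ 2)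
    (hM : ∀ u v, MB Q x' y' (A.mulVec u) (A.mulVec v) = c * MB Q x y u v) (z u : Fin 4 → N) :
    RulB Q x' y' w (A.mulVec z) (A.mulVec u) ↔ RulB Q x y w z u := by
  have hc2 : c ^ 2 ≠ 0 := pow_ne_zero 2 hc
  have hA : IsUnit A.det := by
    rw [hdet]
    exact isUnit_iff_ne_zero.2 hc2
  constructor
  · intro h d e
    have h1 := h (A.mulVec d) (A.mulVec e)
    rw [hM, hM, hM, hM, det_rows_mulVec, hdet] at h1
    apply mul_left_cancel₀ hc2
    linear_combination h1
  · intro h d e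
    have hd : A.mulVec (A⁻¹.mulVec d) = d := by
      rw [Matrix.mulVec_mulVec, Matrix.mul_nonsing_inv A hA, Matrix.one_mulVec]
    have he : A.mulVec (A⁻¹.mulVec e) = e := by
      rw [Matrix.mulVec_mulVec, Matrix.mul_nonsing_inv A hA, Matrix.one_mulVec]
    have h1 := h (A⁻¹.mulVec d) (A⁻¹.mulVec e)
    rw [← hd, ← he, hM, hM, hM, hM, det_rows_mulVec, hdet]
    linear_combination c ^ 2 * h1

/-- The matrices of the group. -/
noncomputable def hmat : Fin 4 → Matrix (Fin 4) (Fin 4) ℂ :=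
  ![!![1, 0, 0, 0; 0, 1, 0, 0; 0, 0, 1, 0; 0, 0, 0, 1],
    !![Complex.I, 0, 0, 0; 0, -Complex.I, 0, 0; 0, 0, Complex.I, 0; 0, 0, 0, -Complex.I],
    !![0, 1, 0, 0; -1, 0, 0, 0; 0, 0, 0, 1; 0, 0, -1, 0],
    !![0, Complex.I, 0, 0; Complex.I, 0, 0, 0; 0, 0, 0, Complex.I; 0, 0, Complex.I, 0]]

/-- The matrices of the group, in a field. -/
noncomputable def hm (N : Type) [Field N] [Algebra ℂ N] (k : Fin 4) : Matrix (Fin 4) (Fin 4) N :=
  (hmat k).map (algebraMap ℂ N)

/-- The signs on `x`. -/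
def sx (N : Type) [Field N] : Fin 4 → N := ![1, 1, -1, -1]

/-- The signs on `y`. -/
def sy (N : Type) [Field N] : Fin 4 → N := ![1, -1, 1, -1]

/-- The characters. -/
def ep (N : Type) [Field N] : Fin 4 → Fin 4 → N :=
  ![![1, 1, 1, 1], ![1, 1, -1, -1], ![1, -1, 1, -1], ![1, -1, -1, 1]]

theorem hm_zero (u : Fin 4 → N) : (hm N 0).mulVec u = u := by
  funext j
  fin_cases j <;> simp [hm, hmat, Matrix.mulVec, dotProduct, Fin.sum_univ_four]

theorem hm_one (u : Fin 4 → N) : (hm N 1).mulVec u =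
    ![algebraMap ℂ N Complex.I * u 0, -(algebraMap ℂ N Complex.I * u 1),
      algebraMap ℂ N Complex.I * u 2, -(algebraMap ℂ N Complex.I * u 3)] := by
  funext j
  fin_cases j <;> simp [hm, hmat, Matrix.mulVec, dotProduct, Fin.sum_univ_four]

theorem hm_two (u : Fin 4 → N) : (hm N 2).mulVec u = ![u 1, -u 0, u 3, -u 2] := by
  funext j
  fin_cases j <;> simp [hm, hmat, Matrix.mulVec, dotProduct, Fin.sum_univ_four]

theorem hm_three (u : Fin 4 → N) : (hm N 3).mulVec u =
    ![algebraMap ℂ N Complex.I * u 1, algebraMap ℂ N Complex.I * u 0,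
      algebraMap ℂ N Complex.I * u 3, algebraMap ℂ N Complex.I * u 2] := by
  funext j
  fin_cases j <;> simp [hm, hmat, Matrix.mulVec, dotProduct, Fin.sum_univ_four]

theorem qb_webQ (a : ℂ) (p q r : Fin 3 → ℂ) (u v : Fin 4 → N) :
    qb (webQ a p q r) u v =
      ![algebraMap ℂ N a * (u 0 * v 3 + u 3 * v 0 - u 1 * v 2 - u 2 * v 1),
        algebraMap ℂ N (p 0) * (u 0 * v 1 + u 1 * v 0) +
          algebraMap ℂ N (q 0) * (u 0 * v 3 + u 3 * v 0 + u 1 * v 2 + u 2 * v 1) +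
          algebraMap ℂ N (r 0) * (u 2 * v 3 + u 3 * v 2),
        algebraMap ℂ N (p 1) * (u 0 * v 0 + u 1 * v 1) +
          algebraMap ℂ N (q 1) * (u 0 * v 2 + u 2 * v 0 + u 1 * v 3 + u 3 * v 1) +
          algebraMap ℂ N (r 1) * (u 2 * v 2 + u 3 * v 3),
        algebraMap ℂ N (p 2) * (u 0 * v 0 - u 1 * v 1) +
          algebraMap ℂ N (q 2) * (u 0 * v 2 + u 2 * v 0 - u 1 * v 3 - u 3 * v 1) +
          algebraMap ℂ N (r 2) * (u 2 * v 2 - u 3 * v 3)] := by
  funext i
  rw [qb_apply]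
  fin_cases i <;>
  · simp [webQ, Fin.sum_univ_four]
    ring

theorem I_sq (N : Type) [Field N] [Algebra ℂ N] : algebraMap ℂ N Complex.I ^ 2 = -1 := by
  rw [← map_pow, Complex.I_sq, map_neg, map_one]

theorem qb_hm (a : ℂ) (p q r : Fin 3 → ℂ) (k : Fin 4) (u v : Fin 4 → N) (i : Fin 4) :
    qb (webQ a p q r) ((hm N k).mulVec u) ((hm N k).mulVec v) i =
      ep N k i * qb (webQ a p q r) u v i := by
  have hI := I_sq N
  rw [qb_webQ, qb_webQ]
  fin_cases k
  · change _ = ep N 0 i * _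
    simp only [Fin.zero_eta, hm_zero]
    fin_cases i <;> simp [ep, -mul_eq_mul_left_iff, -mul_eq_mul_right_iff]
  · change _ = ep N 1 i * _
    simp only [Fin.mk_one, hm_one]
    fin_cases i
    · simp [ep, -mul_eq_mul_left_iff, -mul_eq_mul_right_iff]
      linear_combination (algebraMap ℂ N a * (u 1 * v 2 + u 2 * v 1 - u 0 * v 3 - u 3 * v 0)) * hI
    · simp [ep, -mul_eq_mul_left_iff, -mul_eq_mul_right_iff]
      linear_combination (-algebraMap ℂ N (p 0) * (u 0 * v 1 + u 1 * v 0) -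
          algebraMap ℂ N (q 0) * (u 0 * v 3 + u 3 * v 0 + u 1 * v 2 + u 2 * v 1) -
          algebraMap ℂ N (r 0) * (u 2 * v 3 + u 3 * v 2)) * hI
    · simp [ep, -mul_eq_mul_left_iff, -mul_eq_mul_right_iff]
      linear_combination (algebraMap ℂ N (p 1) * (u 0 * v 0 + u 1 * v 1) +
          algebraMap ℂ N (q 1) * (u 0 * v 2 + u 2 * v 0 + u 1 * v 3 + u 3 * v 1) +
          algebraMap ℂ N (r 1) * (u 2 * v 2 + u 3 * v 3)) * hI
    · simp [ep, -mul_eq_mul_left_iff, -mul_eq_mul_right_iff]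
      linear_combination (algebraMap ℂ N (p 2) * (u 0 * v 0 - u 1 * v 1) +
          algebraMap ℂ N (q 2) * (u 0 * v 2 + u 2 * v 0 - u 1 * v 3 - u 3 * v 1) +
          algebraMap ℂ N (r 2) * (u 2 * v 2 - u 3 * v 3)) * hI
  · change _ = ep N 2 i * _
    simp only [Fin.reduceFinMk, hm_two]
    fin_cases i <;>
    · simp [ep, -mul_eq_mul_left_iff, -mul_eq_mul_right_iff]
      ring
  · change _ = ep N 3 i * _
    simp only [Fin.reduceFinMk, hm_three]
    fin_cases i
    · simp [ep, -mul_eq_mul_left_iff, -mul_eq_mul_right_iff]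
      linear_combination (algebraMap ℂ N a * (u 1 * v 2 + u 2 * v 1 - u 0 * v 3 - u 3 * v 0)) * hI
    · simp [ep, -mul_eq_mul_left_iff, -mul_eq_mul_right_iff]
      linear_combination (algebraMap ℂ N (p 0) * (u 0 * v 1 + u 1 * v 0) +
          algebraMap ℂ N (q 0) * (u 0 * v 3 + u 3 * v 0 + u 1 * v 2 + u 2 * v 1) +
          algebraMap ℂ N (r 0) * (u 2 * v 3 + u 3 * v 2)) * hI
    · simp [ep, -mul_eq_mul_left_iff, -mul_eq_mul_right_iff]
      linear_combination (algebraMap ℂ N (p 1) * (u 0 * v 0 + u 1 * v 1) +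
          algebraMap ℂ N (q 1) * (u 0 * v 2 + u 2 * v 0 + u 1 * v 3 + u 3 * v 1) +
          algebraMap ℂ N (r 1) * (u 2 * v 2 + u 3 * v 3)) * hI
    · simp [ep, -mul_eq_mul_left_iff, -mul_eq_mul_right_iff]
      linear_combination (-algebraMap ℂ N (p 2) * (u 0 * v 0 - u 1 * v 1) -
          algebraMap ℂ N (q 2) * (u 0 * v 2 + u 2 * v 0 - u 1 * v 3 - u 3 * v 1) -
          algebraMap ℂ N (r 2) * (u 2 * v 2 - u 3 * v 3)) * hI

theorem ep_sq (k i : Fin 4) : ep N k i * ep N k i = 1 := by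
  fin_cases k <;> fin_cases i <;> simp [ep]

theorem lam_hm (k : Fin 4) (x y : N) (i : Fin 4) :
    lam (sx N k * x) (sy N k * y) i = ep N k i * lam x y i := by
  have e1 : ∀ z : N, (-1 * z)⁻¹ = -z⁻¹ := fun z => by rw [neg_one_mul, inv_neg]
  have e2 : ∀ z z' : N, (z * (-1 * z'))⁻¹ = -(z * z')⁻¹ := fun z z' => by
    rw [neg_one_mul, mul_neg, inv_neg]
  have e3 : ∀ z z' : N, (-1 * z * z')⁻¹ = -(z * z')⁻¹ := fun z z' => by
    rw [neg_one_mul, neg_mul, inv_neg]
  have e4 : ∀ z z' : N, (-1 * z * (-1 * z'))⁻¹ = (z * z')⁻¹ := fun z z' => by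
    rw [neg_one_mul, neg_one_mul, neg_mul_neg]
  fin_cases k
  · change lam (1 * x) (1 * y) i = ep N 0 i * lam x y i
    rw [one_mul, one_mul]
    fin_cases i <;> simp [ep]
  · change lam (1 * x) (-1 * y) i = ep N 1 i * lam x y i
    rw [one_mul]
    fin_cases i
    · simp [ep, lam]
    · simp [ep, lam]
    · change (-1 * y + (-1 * y)⁻¹) / 2 = -1 * ((y + y⁻¹) / 2)
      rw [e1]
      ring
    · change (x * (-1 * y) + (x * (-1 * y))⁻¹) / 2 = -1 * ((x * y + (x * y)⁻¹) / 2)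
      rw [e2]
      ring
  · change lam (-1 * x) (1 * y) i = ep N 2 i * lam x y i
    rw [one_mul]
    fin_cases i
    · simp [ep, lam]
    · change (-1 * x + (-1 * x)⁻¹) / 2 = -1 * ((x + x⁻¹) / 2)
      rw [e1]
      ring
    · simp [ep, lam]
    · change (-1 * x * y + (-1 * x * y)⁻¹) / 2 = -1 * ((x * y + (x * y)⁻¹) / 2)
      rw [e3]
      ring
  · change lam (-1 * x) (-1 * y) i = ep N 3 i * lam x y i
    fin_cases i
    · simp [ep, lam]
    · change (-1 * x + (-1 * x)⁻¹) / 2 = -1 * ((x + x⁻¹) / 2)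
      rw [e1]
      ring
    · change (-1 * y + (-1 * y)⁻¹) / 2 = -1 * ((y + y⁻¹) / 2)
      rw [e1]
      ring
    · change (-1 * x * (-1 * y) + (-1 * x * (-1 * y))⁻¹) / 2 = 1 * ((x * y + (x * y)⁻¹) / 2)
      rw [e4]
      ring

theorem MB_hm (a : ℂ) (p q r : Fin 3 → ℂ) (k : Fin 4) (x y : N) (u v : Fin 4 → N) :
    MB (webQ a p q r) (sx N k * x) (sy N k * y) ((hm N k).mulVec u) ((hm N k).mulVec v) =
      MB (webQ a p q r) x y u v := by
  simp only [MB, qb_hm, lam_hm]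
  refine Finset.sum_congr rfl fun i _ => ?_
  linear_combination (lam x y i * qb (webQ a p q r) u v i) * ep_sq (N := N) k i

theorem MB_eq (Q : Web) (x y : N) (u v : Fin 4 → N) :
    MB Q x y u v = dotProduct u ((MM Q x y).mulVec v) := by
  simp only [MB, qb_apply, dotProduct, Matrix.mulVec, MM, Finset.mul_sum, Finset.sum_mul]
  rw [Finset.sum_comm]
  refine Finset.sum_congr rfl fun b _ => ?_
  rw [Finset.sum_comm]
  refine Finset.sum_congr rfl fun c _ => ?_
  refine Finset.sum_congr rfl fun i _ => ?_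
  ring

/-- The matrices of the group transform the quadrics of the web. -/
theorem MM_hm (a : ℂ) (p q r : Fin 3 → ℂ) (k : Fin 4) (x y : N) :
    (hm N k).transpose * MM (webQ a p q r) (sx N k * x) (sy N k * y) * hm N k =
      MM (webQ a p q r) x y := by
  have h : ∀ u v : Fin 4 → N, dotProduct u (((hm N k).transpose *
      MM (webQ a p q r) (sx N k * x) (sy N k * y) * hm N k).mulVec v) =
      dotProduct u ((MM (webQ a p q r) x y).mulVec v) := by
    intro u v
    rw [← MB_eq, ← MB_hm a p q r k x y u v, MB_eq, ← Matrix.mulVec_mulVec, ← Matrix.mulVec_mulVec,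
      Matrix.dotProduct_mulVec, Matrix.vecMul_transpose]
  ext b c
  have h1 := h (Pi.single b 1) (Pi.single c 1)
  simpa using h1

theorem det_hm (k : Fin 4) : (hm N k).det = 1 := by
  have hI := I_sq N
  rw [det4]
  fin_cases k
  · simp [hm, hmat]
  · simp [hm, hmat]
    linear_combination (algebraMap ℂ N Complex.I ^ 2 - 1) * hI
  · simp [hm, hmat]
  · simp [hm, hmat]
    linear_combination (algebraMap ℂ N Complex.I ^ 2 - 1) * hI

/-- **The group preserves the rulings.** -/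
theorem Rul_hm (a : ℂ) (p q r : Fin 3 → ℂ) (k : Fin 4) (x y w : N) (z u : Fin 4 → N) :
    RulB (webQ a p q r) (sx N k * x) (sy N k * y) w ((hm N k).mulVec z) ((hm N k).mulVec u) ↔
      RulB (webQ a p q r) x y w z u := by
  refine Rul_iff_of_mat (webQ a p q r) w (hm N k) (c := 1) one_ne_zero ?_ ?_ z u
  · rw [det_hm, one_pow]
  · intro u v
    rw [MB_hm, one_mul]

theorem qq_hm (a : ℂ) (p q r : Fin 3 → ℂ) (k : Fin 4) (u : Fin 4 → N) (i : Fin 4) :
    qq (webQ a p q r) ((hm N k).mulVec u) i = ep N k i * qq (webQ a p q r) u i :=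
  qb_hm a p q r k u u i

theorem st_hm (a : ℂ) (p q r : Fin 3 → ℂ) (k : Fin 4) (u : Fin 4 → N) :
    st (qq (webQ a p q r) ((hm N k).mulVec u)) = st (qq (webQ a p q r) u) := by
  simp only [st, qq_hm]
  fin_cases k <;>
  · simp [ep]
    try ring

/-- the signs of the linear forms -/
def sm (N : Type) [Field N] : Fin 4 → N := ![1, -1, -1, 1]

theorem mv_hm (a : ℂ) (p q r : Fin 3 → ℂ) (k : Fin 4) (x y : N) (u : Fin 4 → N) :
    (∑ i, mv (sx N k * x) (sy N k * y) i * vy (qq (webQ a p q r) ((hm N k).mulVec u)) i) =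
      sm N k * ∑ i, mv x y i * vy (qq (webQ a p q r) u) i := by
  have e1 : ∀ z : N, (-1 * z)⁻¹ = -z⁻¹ := fun z => by rw [neg_one_mul, inv_neg]
  simp only [Fin.sum_univ_three, vy_zero, vy_one, vy_two, qq_hm]
  fin_cases k
  · change (1 * y)⁻¹ * (1 * _ * (1 * _)) + 1 * x * (1 * _ * (1 * _)) +
      1 * (1 * _ * (1 * _)) = 1 * (y⁻¹ * _ + x * _ + 1 * _)
    simp only [one_mul]
  · change (-1 * y)⁻¹ * (-1 * _ * (-1 * _)) + 1 * x * (1 * _ * (-1 * _)) +
      1 * (1 * _ * (-1 * _)) = -1 * (y⁻¹ * _ + x * _ + 1 * _)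
    rw [e1]
    ring
  · change (1 * y)⁻¹ * (1 * _ * (-1 * _)) + -1 * x * (-1 * _ * (-1 * _)) +
      1 * (-1 * _ * (1 * _)) = -1 * (y⁻¹ * _ + x * _ + 1 * _)
    rw [one_mul]
    ring
  · change (-1 * y)⁻¹ * (-1 * _ * (1 * _)) + -1 * x * (-1 * _ * (1 * _)) +
      1 * (-1 * _ * (-1 * _)) = 1 * (y⁻¹ * _ + x * _ + 1 * _)
    rw [e1]
    ring

theorem sm_ne (k : Fin 4) : sm N k ≠ 0 := by
  fin_cases k <;> simp [sm]

/-- The sign changes of a point are the four elements of the group. -/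
theorem exists_hm {x y x' y' : N} (hx : x' ^ 2 = x ^ 2) (hy : y' ^ 2 = y ^ 2) :
    ∃ k : Fin 4, x' = sx N k * x ∧ y' = sy N k * y := by
  rcases sq_eq hx with rfl | rfl <;> rcases sq_eq hy with rfl | rfl
  · exact ⟨0, (one_mul _).symm, (one_mul _).symm⟩
  · exact ⟨1, (one_mul _).symm, (neg_one_mul _).symm⟩
  · exact ⟨2, (neg_one_mul _).symm, (one_mul _).symm⟩
  · exact ⟨3, (neg_one_mul _).symm, (neg_one_mul _).symm⟩

end

end Vale.Agent.P297.H10
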