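import Vale.Agent.P297.H72.Special
import Vale.Agent.P297.H777.SmoothR
import Mathlib.RingTheory.AdicCompletion.Completeness
import Mathlib.RingTheory.Henselian
import Mathlib.RingTheory.PowerSeries.Order

/-!
The octic of a smooth intersection `Q(o) = e(v)` of four quadrics is irreducible.

If the octic has two factors then they vanish, together with `A² - B² - C² - D²`, at a point of the
double curves where the two sheets of the octic come together (a pinch point), and a parity argument
for power series gives a contradiction.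
-/

set_option linter.unusedSectionVars false

namespace Vale.Agent.P297.C8

open Polynomial

section forms

/-- A factor of a monomial is a monomial. -/
theorem monomial_of_mul {R : Type} [CommRing R] [IsDomain R] {P Q : R[X]} {c : R} {n : ℕ}
    (hc : c ≠ 0) (h : P * Q = C c * X ^ n) : ∃ a : ℕ, ∀ k, k ≠ a → P.coeff k = 0 := by
  have h0 : P * Q ≠ 0 := by
    rw [h]
    exact mul_ne_zero (C_ne_zero.2 hc) (pow_ne_zero _ X_ne_zero)
  have hP := left_ne_zero_of_mul h0
  have hQ := right_ne_zero_of_mul h0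
  have h1 : P.natDegree + Q.natDegree = n := by
    rw [← natDegree_mul hP hQ, h, natDegree_C_mul_X_pow n c hc]
  have h2 : P.natTrailingDegree + Q.natTrailingDegree = n := by
    rw [← natTrailingDegree_mul hP hQ, h, C_mul_X_pow_eq_monomial, natTrailingDegree_monomial hc]
  have h3 := natTrailingDegree_le_natDegree P
  have h4 := natTrailingDegree_le_natDegree Q
  refine ⟨P.natDegree, fun k hk => ?_⟩
  rcases lt_or_gt_of_ne hk with h5 | h5
  · exact coeff_eq_zero_of_lt_natTrailingDegree (by omega)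
  · exact coeff_eq_zero_of_natDegree_lt h5

/-- Factors of forms are forms. -/
theorem homog_of_mul {f g : MvPolynomial (Fin 4) ℂ} {n : ℕ} (h : (f * g).IsHomogeneous n)
    (h0 : f * g ≠ 0) : ∃ a, f.IsHomogeneous a := by
  let S := MvPolynomial (Fin 4) ℂ
  let φ : S →ₐ[ℂ] S[X] := MvPolynomial.aeval (fun i => X * C (MvPolynomial.X i : S))
  have hφ : ∀ {m : ℕ} {q : S}, q.IsHomogeneous m → φ q = C q * X ^ m := by
    intro m q hq
    have h1 := H777.aeval_smul_homog (R := S[X]) hq X (fun i => C (MvPolynomial.X i : S))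
    have h2 : MvPolynomial.aeval (fun i => C (MvPolynomial.X i : S)) q = C q := by
      have h3 := MvPolynomial.comp_aeval_apply (f := (MvPolynomial.X : Fin 4 → S))
        (IsScalarTower.toAlgHom ℂ S S[X]) q
      rw [MvPolynomial.aeval_X_left_apply] at h3
      exact h3.symm
    rw [h2] at h1
    rw [mul_comm]
    exact h1
  have hcoeff : ∀ (q : S) (k : ℕ), (φ q).coeff k = MvPolynomial.homogeneousComponent k q := by
    intro q k
    conv_lhs => rw [← MvPolynomial.sum_homogeneousComponent q, map_sum]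
    simp only [hφ (MvPolynomial.homogeneousComponent_isHomogeneous _ q), finsetSum_coeff,
      coeff_C_mul, coeff_X_pow, mul_ite, mul_one, mul_zero]
    rw [Finset.sum_ite_eq]
    split_ifs with h1
    · rfl
    · rw [MvPolynomial.homogeneousComponent_eq_zero]
      rw [Finset.mem_range] at h1
      omega
  have hmul : φ f * φ g = C (f * g) * X ^ n := by
    rw [← map_mul, hφ h]
  obtain ⟨a, ha⟩ := monomial_of_mul h0 hmul
  refine ⟨a, ?_⟩
  have h1 : f = MvPolynomial.homogeneousComponent a f := by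
    conv_lhs => rw [← MvPolynomial.sum_homogeneousComponent f]
    by_cases h2 : a ∈ Finset.range (f.totalDegree + 1)
    · rw [Finset.sum_eq_single_of_mem a h2]
      intro k _ hk
      rw [← hcoeff, ha k hk]
    · rw [Finset.sum_eq_zero]
      · rw [MvPolynomial.homogeneousComponent_eq_zero]
        rw [Finset.mem_range] at h2
        omega
      · intro k hk
        rw [← hcoeff, ha k]
        rintro rfl
        exact h2 hk
  rw [h1]
  exact MvPolynomial.homogeneousComponent_isHomogeneous a f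

/-- Three forms of positive degree have a common zero. -/
theorem exists_zero_three (y : Fin 3 → MvPolynomial (Fin 4) ℂ) (n : Fin 3 → ℕ)
    (hn : ∀ k, 0 < n k) (hy : ∀ k, (y k).IsHomogeneous (n k)) :
    ∃ o : Fin 4 → ℂ, o ≠ 0 ∧ ∀ k, MvPolynomial.aeval o (y k) = 0 := by
  by_contra hcon
  push Not at hcon
  let S := MvPolynomial (Fin 4) ℂ
  let L := FractionRing S
  let o : Fin 4 → L := fun j => algebraMap S L (MvPolynomial.X j)
  let g : S →ₐ[ℂ] L := IsScalarTower.toAlgHom ℂ S L
  have hinj : Function.Injective g := IsFractionRing.injective S L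
  have hg : ∀ f : S, MvPolynomial.aeval o f = g f := by
    intro f
    have h1 := MvPolynomial.comp_aeval_apply (MvPolynomial.X : Fin 4 → S) g f
    rw [MvPolynomial.aeval_X_left_apply] at h1
    exact h1.symm
  have hX : ∀ j, IsIntegral (Algebra.adjoin ℂ (Set.range y)) (MvPolynomial.X j : S) := by
    intro j
    have h1 := H777.isIntegral_of_no_zero y n hn hy (fun z hz => by
        by_contra h0
        obtain ⟨k, hk⟩ := hcon z h0
        exact hk (hz k)) o j
    have h2 : (Set.range fun k => MvPolynomial.aeval o (y k)) = g '' Set.range y := by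
      rw [← Set.range_comp]
      congr 1
      funext k
      exact hg _
    rw [h2] at h1
    exact H777.isIntegral_pullback g hinj _ h1
  let A : Subalgebra ℂ S := Algebra.adjoin ℂ (Set.range y)
  have hint : ∀ f : S, IsIntegral A f := by
    intro f
    let B : Subalgebra A S := integralClosure A S
    let B' : Subalgebra ℂ S := B.restrictScalars ℂ
    have h2 : (⊤ : Subalgebra ℂ S) ≤ B' := by
      rw [← MvPolynomial.adjoin_range_X, Algebra.adjoin_le_iff]
      rintro _ ⟨j, rfl⟩
      exact hX j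
    exact h2 (Algebra.mem_top : f ∈ ⊤)
  have : Algebra.IsAlgebraic (Algebra.adjoin ℂ (Set.range y)) S :=
    ⟨fun f => (hint f).isAlgebraic⟩
  have h3 : Algebra.trdeg ℂ S ≤ Cardinal.mk (Set.range y) :=
    Algebra.IsAlgebraic.trdeg_le_cardinalMk ℂ (Set.range y)
  have h4 : Algebra.trdeg ℂ S = 4 := by
    rw [MvPolynomial.trdeg_of_isDomain]
    simp
  have h5 : Cardinal.mk (Set.range y) ≤ 3 := by
    refine Cardinal.mk_range_le.trans ?_
    simp
  have h6 : (4 : Cardinal) ≤ 3 := by
    rw [← h4]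
    exact h3.trans h5
  exact absurd h6 (by norm_num)

end forms

section hensel

variable {k : Type} [Field k]

/-- A simple root lifts to a power series. -/
theorem hensel_ps {P : (PowerSeries k)[X]} (hl : IsUnit P.leadingCoeff)
    (h0 : PowerSeries.constantCoeff (P.eval 0) = 0)
    (h1 : PowerSeries.constantCoeff (P.derivative.eval 0) ≠ 0) :
    ∃ a : PowerSeries k, P.eval a = 0 ∧ PowerSeries.constantCoeff a = 0 := by
  have hH : HenselianRing (PowerSeries k) (Ideal.span {PowerSeries.X}) := inferInstance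
  obtain ⟨w, hw⟩ := hl
  have hmon : (C (↑w⁻¹ : PowerSeries k) * P).Monic := by
    have h2 : (C (↑w⁻¹ : PowerSeries k) * P).leadingCoeff = ↑w⁻¹ * P.leadingCoeff := by
      rw [leadingCoeff_mul, leadingCoeff_C]
    rw [Monic, h2, ← hw]
    exact w.inv_mul
  obtain ⟨a, ha, ha'⟩ := hH.is_henselian (C (↑w⁻¹ : PowerSeries k) * P) hmon 0 (by
    rw [Ideal.mem_span_singleton, PowerSeries.X_dvd_iff, eval_mul, map_mul, h0, mul_zero]) (by
    apply IsUnit.map
    rw [derivative_C_mul, eval_mul, eval_C]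
    refine IsUnit.mul (Units.isUnit _) ?_
    rw [PowerSeries.isUnit_iff_constantCoeff]
    exact isUnit_iff_ne_zero.2 h1)
  refine ⟨a, ?_, ?_⟩
  · rw [IsRoot.def, eval_mul, eval_C] at ha
    exact (mul_eq_zero.1 ha).resolve_left (Units.ne_zero _)
  · rw [sub_zero, Ideal.mem_span_singleton, PowerSeries.X_dvd_iff] at ha'
    exact ha'

theorem order_eq_zero_of {B : PowerSeries k} (h : PowerSeries.constantCoeff B ≠ 0) :
    B.order = 0 := by
  rw [PowerSeries.order_zero_of_unit]
  rw [PowerSeries.isUnit_iff_constantCoeff]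
  exact isUnit_iff_ne_zero.2 h

/-- The parity argument at a pinch point. -/
theorem pinch_parity {A B C D : PowerSeries k} (h2 : (2 : k) ≠ 0)
    (hF : B ^ 2 * C ^ 2 + B ^ 2 * D ^ 2 + C ^ 2 * D ^ 2 = 2 * A * B * C * D)
    (hB : PowerSeries.constantCoeff B ≠ 0) (hC : PowerSeries.constantCoeff C = 0)
    (hD : PowerSeries.constantCoeff D = 0) (hA : PowerSeries.constantCoeff (A - B) = 0)
    (hA' : PowerSeries.coeff 1 (A - B) ≠ 0) : C = 0 ∧ D = 0 := by
  obtain ⟨C', rfl⟩ := PowerSeries.X_dvd_iff.2 hC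
  obtain ⟨D', rfl⟩ := PowerSeries.X_dvd_iff.2 hD
  obtain ⟨δ, hδ⟩ := PowerSeries.X_dvd_iff.2 hA
  have hX : (PowerSeries.X : PowerSeries k) ≠ 0 := PowerSeries.X_ne_zero
  have hδ0 : PowerSeries.constantCoeff δ ≠ 0 := by
    rw [hδ] at hA'
    have h3 := PowerSeries.coeff_succ_X_mul 0 δ
    rw [zero_add] at h3
    rw [h3] at hA'
    simpa using hA'
  have hB0 : B ≠ 0 := by
    rintro rfl
    simp at hB
  set u := C' - D' with hu
  set w := 2 * δ * B - PowerSeries.X * (C' * D') with hw
  have hw0 : PowerSeries.constantCoeff w ≠ 0 := by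
    rw [hw, map_sub, map_mul, map_mul, map_mul, PowerSeries.constantCoeff_X, zero_mul, sub_zero,
      map_ofNat]
    exact mul_ne_zero (mul_ne_zero h2 hδ0) hB
  have hwne : w ≠ 0 := by
    intro h
    rw [h] at hw0
    simp at hw0
  have hmain : B ^ 2 * u ^ 2 = PowerSeries.X * (C' * D' * w) := by
    have h3 : PowerSeries.X ^ 2 * (B ^ 2 * u ^ 2) =
        PowerSeries.X ^ 2 * (PowerSeries.X * (C' * D' * w)) := by
      have h4 : A = B + PowerSeries.X * δ := by rw [← hδ]; ring
      rw [h4] at hF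
      rw [hu, hw]
      linear_combination hF
    exact mul_left_cancel₀ (pow_ne_zero 2 hX) h3
  by_cases hC0 : C' = 0
  · rw [hC0, zero_mul, zero_mul, mul_zero] at hmain
    have h5 := (mul_eq_zero.1 hmain).resolve_left (pow_ne_zero 2 hB0)
    have h6 : u = 0 := pow_eq_zero_iff two_ne_zero |>.1 h5
    rw [hu, hC0, zero_sub, neg_eq_zero] at h6
    rw [hC0, h6, mul_zero]
    exact ⟨rfl, rfl⟩
  by_cases hD0 : D' = 0
  · rw [hD0, mul_zero, zero_mul, mul_zero] at hmain
    have h5 := (mul_eq_zero.1 hmain).resolve_left (pow_ne_zero 2 hB0)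
    have h6 : u = 0 := pow_eq_zero_iff two_ne_zero |>.1 h5
    rw [hu, hD0, sub_zero] at h6
    exact absurd h6 hC0
  exfalso
  have hu0 : u ≠ 0 := by
    intro h
    rw [h, zero_pow two_ne_zero, mul_zero] at hmain
    exact mul_ne_zero hX (mul_ne_zero (mul_ne_zero hC0 hD0) hwne) hmain.symm
  have ho := congrArg PowerSeries.order hmain
  rw [PowerSeries.order_mul, PowerSeries.order_pow, PowerSeries.order_pow, PowerSeries.order_mul,
    PowerSeries.order_mul, PowerSeries.order_mul, order_eq_zero_of hB, order_eq_zero_of hw0,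
    PowerSeries.order_X] at ho
  obtain ⟨m, hm⟩ := ENat.ne_top_iff_exists.1 (PowerSeries.order_eq_top.not.2 hC0)
  obtain ⟨n, hn⟩ := ENat.ne_top_iff_exists.1 (PowerSeries.order_eq_top.not.2 hD0)
  obtain ⟨l, hl⟩ := ENat.ne_top_iff_exists.1 (PowerSeries.order_eq_top.not.2 hu0)
  rw [← hm, ← hn, ← hl] at ho
  have ho' : 2 * l = 1 + (m + n) := by
    have h7 : ((2 * l : ℕ) : ℕ∞) = ((1 + (m + n) : ℕ) : ℕ∞) := by
      push_cast
      simpa using ho
    exact_mod_cast h7
  have hord : (D').order = (D').order := rfl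
  have h8 : (-D').order = D'.order := PowerSeries.order_neg _
  rcases lt_trichotomy m n with h | h | h
  · have h9 : u.order = C'.order := by
      rw [hu, sub_eq_add_neg]
      rw [PowerSeries.order_add_of_order_ne, h8, ← hm, ← hn]
      · exact min_eq_left (by exact_mod_cast h.le)
      · rw [h8, ← hm, ← hn]
        exact_mod_cast h.ne
    rw [← hl, ← hm] at h9
    have h10 : l = m := by exact_mod_cast h9
    omega
  · omega
  · have h9 : u.order = D'.order := by
      rw [hu, sub_eq_add_neg]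
      rw [PowerSeries.order_add_of_order_ne, h8, ← hm, ← hn]
      · exact min_eq_right (by exact_mod_cast h.le)
      · rw [h8, ← hm, ← hn]
        exact_mod_cast h.ne'
    rw [← hl, ← hn] at h9
    have h10 : l = n := by exact_mod_cast h9
    omega

end hensel

section generic

/-- the constant coefficient -/
noncomputable def ccA (k : Type) [Field k] [Algebra ℂ k] : PowerSeries k →ₐ[ℂ] k :=
  { PowerSeries.constantCoeff with commutes' := fun _ => PowerSeries.constantCoeff_C _ }

theorem ccA_apply {k : Type} [Field k] [Algebra ℂ k] (a : PowerSeries k) :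
    ccA k a = PowerSeries.constantCoeff a := rfl

/-- The variable of the power series is transcendental. -/
theorem transcendental_psX (k : Type) [Field k] :
    Transcendental k (PowerSeries.X : PowerSeries k) := by
  rintro ⟨p, hp, h0⟩
  apply hp
  have h1 : ∀ q : k[X], aeval (PowerSeries.X : PowerSeries k) q = (q : PowerSeries k) := by
    intro q
    induction q using Polynomial.induction_on' with
    | add q r h1 h2 => rw [map_add, h1, h2, Polynomial.coe_add]
    | monomial n c =>
      rw [aeval_monomial, Polynomial.coe_monomial]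
      ext m
      change PowerSeries.coeff m (PowerSeries.C c * PowerSeries.X ^ n) = _
      rw [PowerSeries.coeff_C_mul, PowerSeries.coeff_X_pow, PowerSeries.coeff_monomial]
      split_ifs <;> simp
  rw [h1] at h0
  exact Polynomial.coe_eq_zero_iff.1 h0

/-- The arc with a parameter. -/
noncomputable def arc {k : Type} [Field k] [Algebra ℂ k] (c : k) (p a b d : Fin 4 → ℂ)
    (τ : PowerSeries k) : Fin 4 → PowerSeries k := fun j =>
  algebraMap ℂ (PowerSeries k) (p j) + PowerSeries.X * (algebraMap ℂ (PowerSeries k) (a j) +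
    PowerSeries.C c * algebraMap ℂ (PowerSeries k) (b j)) + τ * algebraMap ℂ (PowerSeries k) (d j)

open IntermediateField in
/-- A form that vanishes on the arc with a free parameter is a multiple of the equation. -/
theorem dvd_of_arc {f : MvPolynomial (Fin 4) ℂ} (hirr : Irreducible f) {m : ℕ}
    (hf : f.IsHomogeneous m) {k : Type} [Field k] [Algebra ℂ k] {l c : k}
    (hlc : AlgebraicIndependent ℂ ![l, c]) {p a b d : Fin 4 → ℂ}
    (hind : LinearIndependent ℂ ![b, p, a, d]) {τ : PowerSeries k}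
    (hf0 : MvPolynomial.aeval (arc c p a b d τ) f = 0) {h : MvPolynomial (Fin 4) ℂ} {n : ℕ}
    (hh : h.IsHomogeneous n) (h0 : MvPolynomial.aeval (arc c p a b d τ) h = 0) : f ∣ h := by
  let R := PowerSeries k
  let N := FractionRing R
  have hinj : Function.Injective (algebraMap R N) := IsFractionRing.injective R N
  let ν : R →ₐ[ℂ] N := IsScalarTower.toAlgHom ℂ R N
  let o : Fin 4 → N := fun j => ν (PowerSeries.C l * arc c p a b d τ j)
  have hl0 : l ≠ 0 := by
    have h1 := hlc.ne_zero 0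
    exact h1
  have h1 : AlgebraicIndependent k (![ν PowerSeries.X] : Fin 1 → N) := by
    refine algebraicIndependent_unique_type_iff.2 ?_
    change Transcendental k (algebraMap R N PowerSeries.X)
    rw [transcendental_algebraMap_iff hinj]
    exact transcendental_psX k
  have h2 := hlc.sumElim_comp h1
  have h3 : AlgebraicIndependent ℂ (![ν PowerSeries.X, algebraMap k N l, algebraMap k N c] :
      Fin 3 → N) := by
    refine (algebraicIndependent_equiv' (finSumFinEquiv (m := 1) (n := 2)) ?_).1 h2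
    funext k
    rcases k with k | k
    · fin_cases k
      rfl
    · fin_cases k
      · rfl
      · rfl
  let V : Matrix (Fin 4) (Fin 4) ℂ := Matrix.of ![b, p, a, d]
  have hV : IsUnit V := Matrix.linearIndependent_rows_iff_isUnit.1 hind
  have hdet : IsUnit V.det := (Matrix.isUnit_iff_isUnit_det V).1 hV
  have hVW : V * V⁻¹ = 1 := Matrix.mul_nonsing_inv V hdet
  let t : Fin 4 → R := ![PowerSeries.X * PowerSeries.C c, 1, PowerSeries.X, τ]
  have harc : ∀ j, arc c p a b d τ j = ∑ i, t i * algebraMap ℂ R (V i j) := by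
    intro j
    rw [Fin.sum_univ_four]
    change _ = PowerSeries.X * PowerSeries.C c * algebraMap ℂ R (b j) +
      1 * algebraMap ℂ R (p j) + PowerSeries.X * algebraMap ℂ R (a j) +
      τ * algebraMap ℂ R (d j)
    unfold arc
    ring
  have key : ∀ i, ∑ j, arc c p a b d τ j * algebraMap ℂ R (V⁻¹ j i) = t i := by
    intro i
    simp only [harc, Finset.sum_mul]
    rw [Finset.sum_comm]
    have h4 : ∀ i', ∑ j, t i' * algebraMap ℂ R (V i' j) * algebraMap ℂ R (V⁻¹ j i) =
        t i' * algebraMap ℂ R ((V * V⁻¹) i' i) := by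
      intro i'
      rw [Matrix.mul_apply, map_sum, Finset.mul_sum]
      refine Finset.sum_congr rfl fun j _ => ?_
      rw [map_mul]
      ring
    simp only [h4, hVW, Matrix.one_apply]
    simp
  have hmem : ∀ i, ν (PowerSeries.C l * t i) ∈ adjoin ℂ (Set.range o) := by
    intro i
    rw [← key i, Finset.mul_sum, map_sum]
    refine sum_mem fun j _ => ?_
    have h5 : ν (PowerSeries.C l * (arc c p a b d τ j * algebraMap ℂ R (V⁻¹ j i))) =
        o j * algebraMap ℂ N (V⁻¹ j i) := by
      rw [← mul_assoc, map_mul, ν.commutes]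
    rw [h5]
    exact mul_mem (subset_adjoin _ _ ⟨j, rfl⟩) (_root_.algebraMap_mem _ _)
  have ml : ν (PowerSeries.C l) ∈ adjoin ℂ (Set.range o) := by
    have h5 := hmem 1
    have h6 : t 1 = 1 := rfl
    rwa [h6, mul_one] at h5
  have nl : ν (PowerSeries.C l) ≠ 0 := by
    intro h5
    have h6 : PowerSeries.C l = (0 : R) := hinj (by rw [map_zero]; exact h5)
    have h7 := congrArg PowerSeries.constantCoeff h6
    rw [PowerSeries.constantCoeff_C, map_zero] at h7
    exact hl0 h7
  have mX : ν PowerSeries.X ∈ adjoin ℂ (Set.range o) := by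
    have h5 := div_mem (hmem 2) ml
    rw [map_mul, mul_div_cancel_left₀ _ nl] at h5
    exact h5
  have nX : ν PowerSeries.X ≠ 0 := by
    intro h5
    exact PowerSeries.X_ne_zero (hinj (by rw [map_zero]; exact h5))
  have mc : ν (PowerSeries.C c) ∈ adjoin ℂ (Set.range o) := by
    have h5 := div_mem (div_mem (hmem 0) ml) mX
    have h6 : t 0 = PowerSeries.X * PowerSeries.C c := rfl
    rw [h6, map_mul, mul_div_cancel_left₀ _ nl, map_mul, mul_div_cancel_left₀ _ nX] at h5
    exact h5
  obtain ⟨s, hs⟩ := H777.exists_indep o _ h3 (by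
    intro i
    fin_cases i
    · exact mX
    · exact ml
    · exact mc)
  have hval : ∀ {e : ℕ} {q : MvPolynomial (Fin 4) ℂ}, q.IsHomogeneous e →
      MvPolynomial.aeval (arc c p a b d τ) q = 0 → MvPolynomial.aeval o q = 0 := by
    intro e q hq h5
    have h6 : o = fun j => ν (PowerSeries.C l) * ν (arc c p a b d τ j) := by
      funext j
      exact map_mul ν _ _
    rw [h6, H777.aeval_smul_homog hq]
    have h7 := MvPolynomial.comp_aeval_apply (f := arc c p a b d τ) ν q
    rw [h5, map_zero] at h7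
    rw [← h7, mul_zero]
  exact (H777.dvd_of_generic f hirr o (hval hf hf0) s hs h).1 (hval hh h0)

end generic

section pinch

open H777

variable {Q : Web}

/-- The quadrics on a line. -/
theorem qq_line (hQ : ∀ i, (Q i).IsSymm) {R : Type} [CommRing R] [Algebra ℂ R] (u w : Fin 4 → R)
    (t : R) (l : Fin 4) : qq Q (fun j => u j + t * w j) l =
      qq Q u l + t * (2 * qb Q u w l) + t ^ 2 * qq Q w l := by
  have h1 : (fun j => u j + t * w j) = u + t • w := rfl
  rw [h1, qq_add hQ, qq_smul, qb_smul_right]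
  simp only [Pi.add_apply, Pi.smul_apply, smul_eq_mul]
  ring

theorem alg_qb (Q : Web) {R : Type} [CommRing R] [Algebra ℂ R] (u w : Fin 4 → ℂ) (l : Fin 4) :
    qb Q (fun j => algebraMap ℂ R (u j)) (fun j => algebraMap ℂ R (w j)) l =
      algebraMap ℂ R (qb Q u w l) := (map_qb Q (Algebra.ofId ℂ R) u w l).symm

theorem alg_qq (Q : Web) {R : Type} [CommRing R] [Algebra ℂ R] (u : Fin 4 → ℂ) (l : Fin 4) :
    qq Q (fun j => algebraMap ℂ R (u j)) l = algebraMap ℂ R (qq Q u l) :=
  (map_qb Q (Algebra.ofId ℂ R) u u l).symm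

/-- The octic on a line through a pinch point. -/
theorem octic_pinch (hQ : ∀ i, (Q i).IsSymm) {i j k : Fin 4}
    (hst : ∀ {R : Type} [CommRing R] (y : Fin 4 → R), st y = y i ^ 2 * y j ^ 2 +
      y i ^ 2 * y k ^ 2 + y j ^ 2 * y k ^ 2 - 2 * (y 0 * y i * y j * y k))
    {s : ℂ} (hs : s * s = 1) {p d : Fin 4 → ℂ} (hA : qq Q p 0 = s * qq Q p i)
    (hC : qq Q p j = 0) (hD : qq Q p k = 0)
    (e1 : 2 * qb Q p d j - s * (2 * qb Q p d k) = 1)
    (e2 : 2 * qb Q p d 0 - s * (2 * qb Q p d i) = 0) :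
    ∃ R : ℂ[X], lineP (octic Q) p d = X ^ 2 * R ∧ R.eval 0 = qq Q p i ^ 2 := by
  have hy : ∀ l, qq Q (fun j => C (p j) + X * C (d j) : Fin 4 → ℂ[X]) l =
      C (qq Q p l) + X * C (2 * qb Q p d l) + X ^ 2 * C (qq Q d l) := by
    intro l
    have h1 := qq_line hQ (fun j => C (p j) : Fin 4 → ℂ[X]) (fun j => C (d j)) X l
    rw [h1]
    have h2 := alg_qq Q (R := ℂ[X]) p l
    have h3 := alg_qq Q (R := ℂ[X]) d l
    have h4 := alg_qb Q (R := ℂ[X]) p d l
    simp only [algebraMap_eq] at h2 h3 h4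
    rw [h2, h3, h4, C_mul]
    rfl
  rw [octic_lineP, hst, hy, hy, hy, hy, hA, hC, hD]
  have hS : C s * C s = (1 : ℂ[X]) := by rw [← C_mul, hs, C_1]
  have hE1 : C (2 * qb Q p d j) - C s * C (2 * qb Q p d k) = (1 : ℂ[X]) := by
    rw [← C_mul, ← C_sub, e1, C_1]
  have hE2 : C (2 * qb Q p d 0) - C s * C (2 * qb Q p d i) = (0 : ℂ[X]) := by
    rw [← C_mul, ← C_sub, e2, C_0]
  have hAA : C (s * qq Q p i) = C s * C (qq Q p i) := C_mul
  rw [hAA, C_0]
  generalize C s = S at *
  generalize C (2 * qb Q p d j) = C1 at *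
  generalize C (2 * qb Q p d k) = D1 at *
  generalize C (2 * qb Q p d 0) = A1 at *
  generalize C (2 * qb Q p d i) = B1 at *
  generalize C (qq Q d j) = C2 at *
  generalize C (qq Q d k) = D2 at *
  generalize C (qq Q d 0) = A2 at *
  generalize C (qq Q d i) = B2 at *
  refine ⟨(C (qq Q p i) + X * B1 + X ^ 2 * B2) ^ 2 * (1 + X * (C2 - S * D2)) ^ 2 +
    X ^ 2 * (C1 + X * C2) ^ 2 * (D1 + X * D2) ^ 2 -
    2 * (X ^ 2 * (A2 - S * B2) * (C (qq Q p i) + X * B1 + X ^ 2 * B2) * (C1 + X * C2) *
      (D1 + X * D2)), ?_, ?_⟩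
  · generalize C (qq Q p i) = B0
    have hAB : (S * B0 + X * A1 + X ^ 2 * A2) - S * (B0 + X * B1 + X ^ 2 * B2) =
        X ^ 2 * (A2 - S * B2) := by
      linear_combination X * hE2
    have hCD : (0 + X * C1 + X ^ 2 * C2) - S * (0 + X * D1 + X ^ 2 * D2) =
        X * (1 + X * (C2 - S * D2)) := by
      linear_combination X * hE1
    have hC' : (0 + X * C1 + X ^ 2 * C2) = X * (C1 + X * C2) := by ring
    have hD' : (0 + X * D1 + X ^ 2 * D2) = X * (D1 + X * D2) := by ring
    generalize (S * B0 + X * A1 + X ^ 2 * A2) = A at *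
    generalize (B0 + X * B1 + X ^ 2 * B2) = B at *
    generalize (1 + X * (C2 - S * D2)) = G at *
    generalize (A2 - S * B2) = E at *
    rw [hC', hD'] at hCD ⊢
    generalize (C1 + X * C2) = C' at *
    generalize (D1 + X * D2) = D' at *
    have h5 : X * C' = X * G + S * (X * D') := by linear_combination hCD
    have h6 : A = X ^ 2 * E + S * B := by linear_combination hAB
    rw [h6]
    linear_combination (B ^ 2 * (X * C' + (X * G + S * (X * D'))) - 2 * S * B ^ 2 * (X * D') ) * h5
      - B ^ 2 * (X * D') ^ 2 * hS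
  · simp

theorem eval_zero_map {A B : Type} [CommRing A] [CommRing B] (φ : A →+* B) (P : A[X]) :
    φ (P.eval 0) = (P.map φ).eval 0 := by
  rw [← map_zero φ, eval_map, eval₂_at_apply]

/-- **At a pinch point** the two quadrics through the double curve vanish on a component. -/
theorem pinch_dvd (hQ : ∀ i, (Q i).IsSymm) {f g : MvPolynomial (Fin 4) ℂ}
    (hF : octic Q = f * g) (hirr : Irreducible f) {m : ℕ} (hf : f.IsHomogeneous m)
    {i j k : Fin 4}
    (hst : ∀ {R : Type} [CommRing R] (y : Fin 4 → R), st y = y i ^ 2 * y j ^ 2 +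
      y i ^ 2 * y k ^ 2 + y j ^ 2 * y k ^ 2 - 2 * (y 0 * y i * y j * y k))
    {s : ℂ} (hs : s * s = 1) {p d a b : Fin 4 → ℂ} (hA : qq Q p 0 = s * qq Q p i)
    (hB : qq Q p i ≠ 0) (hC : qq Q p j = 0) (hD : qq Q p k = 0)
    (hfp : MvPolynomial.aeval p f = 0) (hgp : MvPolynomial.aeval p g = 0)
    (e1 : 2 * qb Q p d j - s * (2 * qb Q p d k) = 1)
    (e2 : 2 * qb Q p d 0 - s * (2 * qb Q p d i) = 0)
    (e4 : 2 * qb Q p a 0 - s * (2 * qb Q p a i) = 1)
    (hfd : MvPolynomial.aeval d f ≠ 0) (hind : LinearIndependent ℂ ![b, p, a, d]) :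
    f ∣ qq Q MvPolynomial.X j ∧ f ∣ qq Q MvPolynomial.X k := by
  obtain ⟨R, hR, hR0⟩ := octic_pinch hQ hst hs hA hC hD e1 e2
  -- the simple root
  have hmul : lineP f p d * lineP g p d = X ^ 2 * R := by
    rw [← hR, hF]
    unfold lineP
    rw [map_mul]
  have hev : ∀ q : MvPolynomial (Fin 4) ℂ, (lineP q p d).eval 0 = MvPolynomial.aeval p q := by
    intro q
    have h1 := lineP_eval₂ q p d (AlgHom.id ℂ ℂ) 0
    have h2 : (lineP q p d).eval₂ (AlgHom.id ℂ ℂ).toRingHom 0 = (lineP q p d).eval 0 := rfl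
    rw [← h2, h1]
    congr 2
    funext l
    simp
  obtain ⟨f1, hf1⟩ : X ∣ lineP f p d := by
    rw [X_dvd_iff, coeff_zero_eq_eval_zero, hev, hfp]
  obtain ⟨g1, hg1⟩ : X ∣ lineP g p d := by
    rw [X_dvd_iff, coeff_zero_eq_eval_zero, hev, hgp]
  have hfg : f1 * g1 = R := by
    apply mul_left_cancel₀ (pow_ne_zero 2 (X_ne_zero (R := ℂ)))
    rw [← hmul, hf1, hg1]
    ring
  have hf10 : f1.eval 0 ≠ 0 := by
    intro h0
    apply hB
    have h1 : (f1 * g1).eval 0 = 0 := by rw [eval_mul, h0, zero_mul]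
    rw [hfg, hR0] at h1
    exact pow_eq_zero_iff two_ne_zero |>.1 h1
  have hder : (derivative (lineP f p d)).eval 0 = f1.eval 0 := by
    rw [hf1, derivative_mul, derivative_X]
    simp
  -- the field of parameters
  let S2 := MvPolynomial (Fin 2) ℂ
  let k' := FractionRing S2
  let l' : k' := algebraMap S2 k' (MvPolynomial.X 0)
  let c' : k' := algebraMap S2 k' (MvPolynomial.X 1)
  have hlc : AlgebraicIndependent ℂ ![l', c'] := by
    have h1 := (MvPolynomial.algebraicIndependent_X (Fin 2) ℂ).map'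
      (f := IsScalarTower.toAlgHom ℂ S2 k') (IsFractionRing.injective S2 k')
    convert h1 using 1
    funext l
    fin_cases l <;> rfl
  let B := PowerSeries k'
  let P0 : Fin 4 → B := fun l => algebraMap ℂ B (p l) + PowerSeries.X * (algebraMap ℂ B (a l) +
    PowerSeries.C c' * algebraMap ℂ B (b l))
  let D0 : Fin 4 → B := fun l => algebraMap ℂ B (d l)
  have hcP : ∀ l, ccA k' (P0 l) = algebraMap ℂ k' (p l) := by
    intro l
    change ccA k' (algebraMap ℂ B (p l) + PowerSeries.X * _) = _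
    rw [map_add, map_mul, AlgHom.commutes, ccA_apply PowerSeries.X,
      PowerSeries.constantCoeff_X, zero_mul, add_zero]
  have hmapΦ : (lineP f P0 D0).map (ccA k').toRingHom =
      (lineP f p d).map (Algebra.ofId ℂ k').toRingHom := by
    rw [lineP_map, lineP_map]
    congr 1
    funext l
    exact hcP l
  have hccev : ∀ {T : B[X]} {T' : ℂ[X]}, T.map (ccA k').toRingHom =
      T'.map (Algebra.ofId ℂ k').toRingHom →
      PowerSeries.constantCoeff (T.eval 0) = algebraMap ℂ k' (T'.eval 0) := by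
    intro T T' h
    have h1 := eval_zero_map (ccA k').toRingHom T
    rw [h, ← eval_zero_map] at h1
    exact h1
  obtain ⟨τ, hτ, hτ0⟩ := hensel_ps (P := lineP f P0 D0) (by
    have h1 : (lineP f P0 D0).natDegree ≤ m :=
      natDegree_lineP_le f P0 D0 (hf.totalDegree hirr.ne_zero).le
    have h2 : (lineP f P0 D0).coeff m = algebraMap ℂ B (MvPolynomial.aeval d f) := by
      rw [coeff_lineP hf]
      exact (MvPolynomial.comp_aeval_apply (f := d) (Algebra.ofId ℂ B) f).symm
    have h3 : algebraMap ℂ B (MvPolynomial.aeval d f) ≠ 0 := by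
      rw [Ne, map_eq_zero_iff _ (algebraMap ℂ B).injective]
      exact hfd
    have h4 : (lineP f P0 D0).leadingCoeff = algebraMap ℂ B (MvPolynomial.aeval d f) := by
      rw [← h2, leadingCoeff]
      congr 1
      exact le_antisymm h1 (le_natDegree_of_ne_zero (by rw [h2]; exact h3))
    rw [h4]
    exact (isUnit_iff_ne_zero.2 hfd).map _) (by
    rw [hccev hmapΦ, hev, hfp, map_zero]) (by
    rw [hccev (T := derivative (lineP f P0 D0)) (T' := derivative (lineP f p d)) (by
      rw [← derivative_map, hmapΦ, derivative_map]), hder, Ne,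
      map_eq_zero_iff _ (algebraMap ℂ k').injective]
    exact hf10)
  have hfarc : MvPolynomial.aeval (arc c' p a b d τ) f = 0 := by
    have h1 := lineP_eval₂ f P0 D0 (AlgHom.id ℂ B) τ
    have h2 : (lineP f P0 D0).eval₂ (AlgHom.id ℂ B).toRingHom τ = (lineP f P0 D0).eval τ := rfl
    rw [h2, hτ] at h1
    rw [h1]
    rfl
  -- the values of the quadrics
  obtain ⟨τ', hτ'⟩ := PowerSeries.X_dvd_iff.2 hτ0
  let w : Fin 4 → B := fun l => algebraMap ℂ B (a l) + PowerSeries.C c' * algebraMap ℂ B (b l) +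
    τ' * algebraMap ℂ B (d l)
  have harc : arc c' p a b d τ = fun l => algebraMap ℂ B (p l) + PowerSeries.X * w l := by
    funext l
    unfold arc
    rw [hτ']
    change _ = algebraMap ℂ B (p l) + PowerSeries.X * (algebraMap ℂ B (a l) +
      PowerSeries.C c' * algebraMap ℂ B (b l) + τ' * algebraMap ℂ B (d l))
    ring
  set o := arc c' p a b d τ with ho
  have hqo : ∀ l, qq Q o l = algebraMap ℂ B (qq Q p l) +
      PowerSeries.X * (2 * qb Q (fun l => algebraMap ℂ B (p l)) w l) +
      PowerSeries.X ^ 2 * qq Q w l := by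
    intro l
    rw [harc, qq_line hQ, alg_qq]
  have hcq : ∀ l, PowerSeries.constantCoeff (qq Q o l) = algebraMap ℂ k' (qq Q p l) := by
    intro l
    have h1 : qq Q o l = algebraMap ℂ B (qq Q p l) + PowerSeries.X *
        (2 * qb Q (fun l => algebraMap ℂ B (p l)) w l + PowerSeries.X * qq Q w l) := by
      rw [hqo]
      ring
    rw [h1, map_add, map_mul, PowerSeries.constantCoeff_X, zero_mul, add_zero]
    exact (ccA k').commutes _
  have hFo : st (qq Q o) = 0 := by
    rw [← aeval_octic, hF, map_mul, hfarc, zero_mul]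
  have s0 : s ≠ 0 := by
    rintro rfl
    rw [mul_zero] at hs
    exact zero_ne_one hs
  have hS : algebraMap ℂ B s * algebraMap ℂ B s = 1 := by rw [← map_mul, hs, map_one]
  have hSB : algebraMap ℂ B s ≠ 0 := by
    rw [Ne, map_eq_zero_iff _ (algebraMap ℂ B).injective]
    exact s0
  have hccs : PowerSeries.constantCoeff (algebraMap ℂ B s) = algebraMap ℂ k' s :=
    (ccA k').commutes s
  have hCk : CharZero k' := charZero_of_injective_algebraMap (algebraMap ℂ k').injective
  -- the coefficient of the difference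
  have hcw : ∀ l, qb Q (fun j => ccA k' (algebraMap ℂ B (p j))) (fun j => ccA k' (w j)) l =
      algebraMap ℂ k' (qb Q p a l) + c' * algebraMap ℂ k' (qb Q p b l) +
        ccA k' τ' * algebraMap ℂ k' (qb Q p d l) := by
    intro l
    have h1 : (fun j => ccA k' (algebraMap ℂ B (p j))) = fun j => algebraMap ℂ k' (p j) :=
      funext fun j => (ccA k').commutes _
    have h2 : (fun j => ccA k' (w j)) = (fun j => algebraMap ℂ k' (a j)) +
        c' • (fun j => algebraMap ℂ k' (b j)) + (ccA k' τ') • (fun j => algebraMap ℂ k' (d j)) := by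
      funext j
      change ccA k' (algebraMap ℂ B (a j) + PowerSeries.C c' * algebraMap ℂ B (b j) +
        τ' * algebraMap ℂ B (d j)) = algebraMap ℂ k' (a j) + c' * algebraMap ℂ k' (b j) +
        ccA k' τ' * algebraMap ℂ k' (d j)
      rw [map_add, map_add, map_mul, map_mul, AlgHom.commutes, AlgHom.commutes, AlgHom.commutes,
        ccA_apply (PowerSeries.C c'), PowerSeries.constantCoeff_C]
    rw [h1, h2, qb_add_right, qb_add_right, qb_smul_right, qb_smul_right]
    simp only [Pi.add_apply, Pi.smul_apply, smul_eq_mul, alg_qb]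
  have hcoeff : PowerSeries.coeff 1 (qq Q o 0 - algebraMap ℂ B s * qq Q o i) ≠ 0 := by
    have h1 : qq Q o 0 - algebraMap ℂ B s * qq Q o i = PowerSeries.X *
        ((2 * qb Q (fun l => algebraMap ℂ B (p l)) w 0 -
          algebraMap ℂ B s * (2 * qb Q (fun l => algebraMap ℂ B (p l)) w i)) +
          PowerSeries.X * (qq Q w 0 - algebraMap ℂ B s * qq Q w i)) := by
      rw [hqo, hqo, hA, map_mul]
      ring
    have h2 := PowerSeries.coeff_succ_X_mul 0
      ((2 * qb Q (fun l => algebraMap ℂ B (p l)) w 0 -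
          algebraMap ℂ B s * (2 * qb Q (fun l => algebraMap ℂ B (p l)) w i)) +
          PowerSeries.X * (qq Q w 0 - algebraMap ℂ B s * qq Q w i))
    rw [zero_add] at h2
    rw [h1, h2, PowerSeries.coeff_zero_eq_constantCoeff_apply, map_add, map_mul,
      PowerSeries.constantCoeff_X, zero_mul, add_zero, ← ccA_apply, map_sub, map_mul, map_mul,
      map_mul, map_ofNat, map_qb, map_qb, hcw, hcw, AlgHom.commutes]
    intro h3
    obtain ⟨β, hβ⟩ : ∃ β : ℂ, β = 2 * qb Q p b 0 - s * (2 * qb Q p b i) := ⟨_, rfl⟩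
    have h4 : 1 + c' * algebraMap ℂ k' β = 0 := by
      have h5 := congrArg (algebraMap ℂ k') e4
      have h6 := congrArg (algebraMap ℂ k') e2
      rw [hβ]
      simp only [map_sub, map_mul, map_ofNat, map_one, map_zero] at h5 h6 ⊢
      linear_combination h3 - h5 - ccA k' τ' * h6
    have htr : Transcendental ℂ c' := by
      have h5 := hlc.transcendental 1
      exact h5
    apply htr
    refine ⟨C β * X + 1, ?_, ?_⟩
    · intro h5
      have h6 := congrArg (fun q => Polynomial.coeff q 0) h5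
      simp at h6
    · simp only [map_add, map_mul, aeval_C, aeval_X, map_one]
      linear_combination h4
  obtain ⟨hj, hk⟩ := pinch_parity (A := qq Q o 0) (B := algebraMap ℂ B s * qq Q o i)
    (C := qq Q o j) (D := algebraMap ℂ B s * qq Q o k) two_ne_zero (by
      rw [hst] at hFo
      linear_combination hFo + (qq Q o i ^ 2 * qq Q o j ^ 2 + (algebraMap ℂ B s ^ 2 + 1) *
        qq Q o i ^ 2 * qq Q o k ^ 2 + qq Q o j ^ 2 * qq Q o k ^ 2 -
        2 * qq Q o 0 * qq Q o i * qq Q o j * qq Q o k) * hS) (by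
      rw [map_mul, hccs, hcq]
      refine mul_ne_zero ?_ ?_
      · rw [Ne, map_eq_zero_iff _ (algebraMap ℂ k').injective]
        exact s0
      · rw [Ne, map_eq_zero_iff _ (algebraMap ℂ k').injective]
        exact hB) (by
      rw [hcq, hC, map_zero]) (by
      rw [map_mul, hcq, hD, map_zero, mul_zero]) (by
      rw [map_sub, map_mul, hccs, hcq, hcq, hA, map_mul, sub_self]) hcoeff
  have hk' : qq Q o k = 0 := (mul_eq_zero.1 hk).resolve_left hSB
  have hval : ∀ l, MvPolynomial.aeval o
      (qq Q (MvPolynomial.X : Fin 4 → MvPolynomial (Fin 4) ℂ) l) = qq Q o l := by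
    intro l
    rw [aeval_qq_X]
  exact ⟨dvd_of_arc hirr hf hlc hind hfarc (qq_X_homogeneous Q j) (by rw [← ho, hval, hj]),
    dvd_of_arc hirr hf hlc hind hfarc (qq_X_homogeneous Q k) (by rw [← ho, hval, hk'])⟩

/-- The gradient of the equation of the Steiner surface. -/
def gs4 {R : Type} [CommRing R] (y : Fin 4 → R) : Fin 4 → R :=
  ![-(2 * (y 1 * y 2 * y 3)), 2 * (y 1 * y 3 ^ 2) + 2 * (y 1 * y 2 ^ 2) - 2 * (y 0 * y 2 * y 3),
    2 * (y 2 * y 3 ^ 2) + 2 * (y 1 ^ 2 * y 2) - 2 * (y 0 * y 1 * y 3),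
    2 * (y 2 ^ 2 * y 3) + 2 * (y 1 ^ 2 * y 3) - 2 * (y 0 * y 1 * y 2)]

theorem derivative_st (y : Fin 4 → ℂ[X]) :
    derivative (st y) = ∑ l, gs4 y l * derivative (y l) := by
  rw [Fin.sum_univ_four]
  simp only [gs4, st, derivative_add, derivative_sub, derivative_mul, derivative_pow,
    Matrix.cons_val, Nat.cast_ofNat, map_ofNat, derivative_ofNat]
  norm_num
  ring

theorem eval_gs4 (Y : Fin 4 → ℂ[X]) (l : Fin 4) :
    (gs4 Y l).eval 0 = gs4 (fun l => (Y l).eval 0) l := by
  fin_cases l <;> simp [gs4]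

theorem gs4_ee {R : Type} [CommRing R] [Algebra ℂ R] (v u : Fin 3 → R) :
    ∑ l, gs4 (ee v) l * eb v u l = 0 := by
  rw [Fin.sum_univ_four]
  simp only [gs4, ee_zero, ee_one, ee_two, ee_three, eb, Matrix.cons_val]
  ring

/-- At a common zero of two factors the gradient vanishes. -/
theorem gs4_eq_zero (hQ : ∀ i, (Q i).IsSymm) (hsm : SmoothX Q) {f g : MvPolynomial (Fin 4) ℂ}
    (hF : octic Q = f * g) {p : Fin 4 → ℂ} (hp : p ≠ 0) (hfp : MvPolynomial.aeval p f = 0)
    (hgp : MvPolynomial.aeval p g = 0) : gs4 (qq Q p) = 0 := by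
  have hst : st (qq Q p) = 0 := by rw [← aeval_octic, hF, map_mul, hfp, zero_mul]
  obtain ⟨v, hv⟩ := exists_ee_all hst
  refine hsm p v hv.symm (Or.inl hp) (gs4 (qq Q p)) (fun u => ?_) (fun u => ?_)
  · have hev : ∀ q : MvPolynomial (Fin 4) ℂ, (lineP q p u).eval 0 = MvPolynomial.aeval p q := by
      intro q
      have h1 := lineP_eval₂ q p u (AlgHom.id ℂ ℂ) 0
      have h2 : (lineP q p u).eval₂ (AlgHom.id ℂ ℂ).toRingHom 0 = (lineP q p u).eval 0 := rfl
      rw [← h2, h1]
      congr 2
      funext l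
      simp
    have h1 : derivative (lineP (octic Q) p u) =
        derivative (lineP f p u) * lineP g p u + lineP f p u * derivative (lineP g p u) := by
      rw [hF, ← derivative_mul]
      unfold lineP
      rw [map_mul]
    have h2 := congrArg (fun P => Polynomial.eval 0 P) h1
    simp only [eval_add, eval_mul, hev, hfp, hgp, mul_zero, zero_mul, add_zero] at h2
    rw [octic_lineP, derivative_st, eval_finsetSum] at h2
    have hy : ∀ l, qq Q (fun j => C (p j) + X * C (u j) : Fin 4 → ℂ[X]) l =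
        C (qq Q p l) + X * C (2 * qb Q p u l) + X ^ 2 * C (qq Q u l) := by
      intro l
      have h1 := qq_line hQ (fun j => C (p j) : Fin 4 → ℂ[X]) (fun j => C (u j)) X l
      rw [h1]
      have h2 := alg_qq Q (R := ℂ[X]) p l
      have h3 := alg_qq Q (R := ℂ[X]) u l
      have h4 := alg_qb Q (R := ℂ[X]) p u l
      simp only [algebraMap_eq] at h2 h3 h4
      rw [h2, h3, h4, C_mul]
      rfl
    have hy0 : ∀ l, (qq Q (fun j => C (p j) + X * C (u j) : Fin 4 → ℂ[X]) l).eval 0 =
        qq Q p l := by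
      intro l
      rw [hy]
      simp
    have hy1 : ∀ l, (derivative (qq Q (fun j => C (p j) + X * C (u j) : Fin 4 → ℂ[X]) l)).eval 0 =
        2 * qb Q p u l := by
      intro l
      rw [hy, derivative_add, derivative_add, derivative_mul, derivative_mul, derivative_X,
        derivative_C, derivative_C, derivative_C, derivative_X_pow]
      generalize qb Q p u l = β
      simp
    have hg : ∀ l, (gs4 (qq Q (fun j => C (p j) + X * C (u j) : Fin 4 → ℂ[X])) l).eval 0 =
        gs4 (qq Q p) l := by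
      intro l
      rw [eval_gs4]
      congr 1
      funext l
      exact hy0 l
    simp only [eval_mul, hg, hy1] at h2
    have h3 : 2 * ∑ i, gs4 (qq Q p) i * qb Q p u i = 0 := by
      rw [← h2, Finset.mul_sum]
      exact Finset.sum_congr rfl fun i _ => by ring
    exact (mul_eq_zero.1 h3).resolve_left two_ne_zero
  · rw [← hv]
    exact gs4_ee v u

/-- Two independent functionals. -/
theorem exists_dual {φ ψ : (Fin 4 → ℂ) → ℂ} (hφa : ∀ u w, φ (u + w) = φ u + φ w)
    (hφs : ∀ (c : ℂ) u, φ (c • u) = c * φ u) (hψa : ∀ u w, ψ (u + w) = ψ u + ψ w)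
    (hψs : ∀ (c : ℂ) u, ψ (c • u) = c * ψ u)
    (h : ∀ α β : ℂ, (∀ w, α * φ w + β * ψ w = 0) → α = 0 ∧ β = 0) :
    ∃ d a, φ d = 1 ∧ ψ d = 0 ∧ φ a = 0 ∧ ψ a = 1 := by
  obtain ⟨w₁, h1⟩ : ∃ w, φ w ≠ 0 := by
    by_contra hne
    push Not at hne
    have h2 := (h 1 0 (fun w => by rw [hne w]; ring)).1
    exact one_ne_zero h2
  obtain ⟨w₂, h2⟩ : ∃ w, ψ w₁ * φ w - φ w₁ * ψ w ≠ 0 := by
    by_contra hne
    push Not at hne
    have h3 := (h (ψ w₁) (-φ w₁) (fun w => by linear_combination hne w)).2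
    exact h1 (neg_eq_zero.1 h3)
  set D := ψ w₁ * φ w₂ - φ w₁ * ψ w₂ with hD
  refine ⟨(D⁻¹ * ψ w₁) • w₂ + (-(D⁻¹ * ψ w₂)) • w₁, (D⁻¹ * φ w₂) • w₁ + (-(D⁻¹ * φ w₁)) • w₂,
    ?_, ?_, ?_, ?_⟩
  · rw [hφa, hφs, hφs]
    have : D⁻¹ * D = 1 := inv_mul_cancel₀ h2
    rw [hD] at this ⊢
    linear_combination this
  · rw [hψa, hψs, hψs]
    ring
  · rw [hφa, hφs, hφs]
    ring
  · rw [hψa, hψs, hψs]
    have : D⁻¹ * D = 1 := inv_mul_cancel₀ h2
    rw [hD] at this ⊢
    linear_combination this

/-- **No pinch point on two components.** -/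
theorem no_pinch (hQ : ∀ i, (Q i).IsSymm) (hfin : NoBase Q) {f g : MvPolynomial (Fin 4) ℂ}
    (hF : octic Q = f * g) (hirr : Irreducible f) {m : ℕ} (hf : f.IsHomogeneous m) (hm : 0 < m)
    {i j k : Fin 4} (hijk : ∀ l, l = 0 ∨ l = i ∨ l = j ∨ l = k)
    (hst : ∀ {R : Type} [CommRing R] (y : Fin 4 → R), st y = y i ^ 2 * y j ^ 2 +
      y i ^ 2 * y k ^ 2 + y j ^ 2 * y k ^ 2 - 2 * (y 0 * y i * y j * y k))
    {s : ℂ} (hs : s * s = 1) {p : Fin 4 → ℂ} (hp : p ≠ 0) (hA : qq Q p 0 = s * qq Q p i)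
    (hB : qq Q p i ≠ 0) (hC : qq Q p j = 0) (hD : qq Q p k = 0)
    (hfp : MvPolynomial.aeval p f = 0) (hgp : MvPolynomial.aeval p g = 0)
    (hindep : ∀ α β : ℂ, (∀ w, α * (2 * qb Q p w j - s * (2 * qb Q p w k)) +
      β * (2 * qb Q p w 0 - s * (2 * qb Q p w i)) = 0) → α = 0 ∧ β = 0) : False := by
  obtain ⟨φ, hφ⟩ : ∃ φ : (Fin 4 → ℂ) → ℂ, ∀ w, φ w = 2 * qb Q p w j - s * (2 * qb Q p w k) :=
    ⟨_, fun _ => rfl⟩
  obtain ⟨ψ, hψ⟩ : ∃ ψ : (Fin 4 → ℂ) → ℂ, ∀ w, ψ w = 2 * qb Q p w 0 - s * (2 * qb Q p w i) :=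
    ⟨_, fun _ => rfl⟩
  have add : ∀ (u w : Fin 4 → ℂ) l, qb Q p (u + w) l = qb Q p u l + qb Q p w l := by
    intro u w l
    rw [qb_add_right]
    rfl
  have smul : ∀ (c : ℂ) (u : Fin 4 → ℂ) l, qb Q p (c • u) l = c * qb Q p u l := by
    intro c u l
    rw [qb_smul_right]
    rfl
  have hφa : ∀ u w, φ (u + w) = φ u + φ w := by
    intro u w
    rw [hφ, hφ, hφ, add, add]
    ring
  have hφs : ∀ (c : ℂ) u, φ (c • u) = c * φ u := by
    intro c u
    rw [hφ, hφ, smul, smul]
    ring
  have hψa : ∀ u w, ψ (u + w) = ψ u + ψ w := by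
    intro u w
    rw [hψ, hψ, hψ, add, add]
    ring
  have hψs : ∀ (c : ℂ) u, ψ (c • u) = c * ψ u := by
    intro c u
    rw [hψ, hψ, smul, smul]
    ring
  obtain ⟨d, a, d1, d2, a1, a2⟩ := exists_dual hφa hφs hψa hψs (by
    intro α β h
    apply hindep
    intro w
    rw [← hφ, ← hψ]
    exact h w)
  have hpp : ∀ l, qb Q p p l = qq Q p l := fun l => rfl
  have p1 : φ p = 0 := by
    rw [hφ, hpp, hpp, hC, hD]
    ring
  have p2 : ψ p = 0 := by
    rw [hψ, hpp, hpp, hA]
    ring
  -- a direction in general position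
  obtain ⟨R, hR, hR0⟩ := octic_pinch hQ hst hs hA hC hD (by rw [← hφ]; exact d1)
    (by rw [← hψ]; exact d2)
  have hne : lineP f p d ≠ 0 := by
    intro h0
    have h1 : lineP (octic Q) p d = 0 := by
      rw [hF]
      unfold lineP at h0 ⊢
      rw [map_mul, h0, zero_mul]
    rw [h1] at hR
    have h2 : R = 0 := by
      rcases mul_eq_zero.1 hR.symm with h3 | h3
      · exact absurd h3 (pow_ne_zero 2 X_ne_zero)
      · exact h3
    rw [h2, eval_zero] at hR0
    exact hB (pow_eq_zero_iff two_ne_zero |>.1 hR0.symm)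
  obtain ⟨t, ht⟩ : ∃ t : ℂ, (X * lineP f p d).eval t ≠ 0 := by
    by_contra hcon
    push Not at hcon
    exact mul_ne_zero X_ne_zero hne (Polynomial.funext fun t => by rw [hcon t, eval_zero])
  rw [eval_mul, eval_X] at ht
  have t0 : t ≠ 0 := left_ne_zero_of_mul ht
  have hev : (lineP f p d).eval t = MvPolynomial.aeval (fun l => p l + t * d l) f := by
    have h1 := lineP_eval₂ f p d (AlgHom.id ℂ ℂ) t
    have h2 : (lineP f p d).eval₂ (AlgHom.id ℂ ℂ).toRingHom t = (lineP f p d).eval t := rfl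
    rw [← h2, h1]
    rfl
  have hfd : MvPolynomial.aeval (d + t⁻¹ • p) f ≠ 0 := by
    have h1 : d + t⁻¹ • p = fun l => t⁻¹ * (p l + t * d l) := by
      funext l
      rw [Pi.add_apply, Pi.smul_apply, smul_eq_mul]
      field_simp
      ring
    rw [h1, aeval_smul_homog hf, ← hev]
    exact mul_ne_zero (pow_ne_zero _ (inv_ne_zero t0)) (right_ne_zero_of_mul ht)
  set d' := d + t⁻¹ • p with hd'
  have d1' : φ d' = 1 := by rw [hd', hφa, hφs, p1, d1, mul_zero, add_zero]
  have d2' : ψ d' = 0 := by rw [hd', hψa, hψs, p2, d2, mul_zero, add_zero]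
  have hli : LinearIndependent ℂ ![p, a, d'] := by
    rw [Fintype.linearIndependent_iff]
    intro c hc
    rw [Fin.sum_univ_three] at hc
    have hc' : c 0 • p + c 1 • a + c 2 • d' = 0 := hc
    have z1 : φ 0 = 0 := by
      have := hφs 0 0
      rw [zero_smul, zero_mul] at this
      exact this
    have z2 : ψ 0 = 0 := by
      have := hψs 0 0
      rw [zero_smul, zero_mul] at this
      exact this
    have k2 : c 2 = 0 := by
      have h1 := congrArg φ hc'
      rw [hφa, hφa, hφs, hφs, hφs, p1, a1, d1', z1] at h1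
      linear_combination h1
    have k1 : c 1 = 0 := by
      have h1 := congrArg ψ hc'
      rw [hψa, hψa, hψs, hψs, hψs, p2, a2, d2', z2] at h1
      linear_combination h1
    rw [k1, k2, zero_smul, zero_smul, add_zero, add_zero] at hc'
    have k0 := (smul_eq_zero.1 hc').resolve_right hp
    intro l
    fin_cases l
    · exact k0
    · exact k1
    · exact k2
  obtain ⟨b, hb⟩ := exists_linearIndependent_cons_of_lt_finrank hli (by simp)
  have hb' : LinearIndependent ℂ ![b, p, a, d'] := hb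
  obtain ⟨hj, hk⟩ := pinch_dvd hQ hF hirr hf hst hs hA hB hC hD hfp hgp
    (by rw [← hφ]; exact d1') (by rw [← hψ]; exact d2') (by rw [← hψ]; exact a2) hfd hb'
  -- a base point
  let S := MvPolynomial (Fin 4) ℂ
  obtain ⟨z, hz, hz0⟩ := exists_zero_three ![f, qq Q (MvPolynomial.X : Fin 4 → S) 0,
    qq Q (MvPolynomial.X : Fin 4 → S) i] ![m, 2, 2] (by
      intro l
      fin_cases l
      · exact hm
      · exact two_pos
      · exact two_pos) (by
      intro l
      fin_cases l
      · exact hf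
      · exact qq_X_homogeneous Q 0
      · exact qq_X_homogeneous Q i)
  have z0 : MvPolynomial.aeval z f = 0 := hz0 0
  have z1 : qq Q z 0 = 0 := by
    rw [← aeval_qq_X]
    exact hz0 1
  have z2 : qq Q z i = 0 := by
    rw [← aeval_qq_X]
    exact hz0 2
  have z3 : ∀ {l : Fin 4}, f ∣ qq Q MvPolynomial.X l → qq Q z l = 0 := by
    rintro l ⟨q, hq⟩
    rw [← aeval_qq_X, hq, map_mul, z0, zero_mul]
  apply hz
  apply hfin
  funext l
  rcases hijk l with rfl | rfl | rfl | rfl
  · exact z1
  · exact z2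
  · exact z3 hj
  · exact z3 hk

theorem octic_ne_zero (hfin : NoBase Q) : octic Q ≠ 0 := by
  intro h0
  have h1 := indep_qq_X hfin
  have h2 : MvPolynomial.aeval (qq Q (MvPolynomial.X : Fin 4 → MvPolynomial (Fin 4) ℂ))
      (st (MvPolynomial.X : Fin 4 → MvPolynomial (Fin 4) ℂ)) = 0 := by
    rw [← h0, octic, map_st]
    simp only [MvPolynomial.aeval_X]
  have h3 := (injective_iff_map_eq_zero _).1 h1 _ h2
  have h4 := congrArg (MvPolynomial.aeval (![0, 1, 1, 0] : Fin 4 → ℂ)) h3
  rw [map_st, map_zero] at h4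
  simp only [MvPolynomial.aeval_X, st, Matrix.cons_val] at h4
  norm_num at h4

/-- **The octic of a smooth intersection is irreducible.** -/
theorem SmoothX.irreducible (hQ : ∀ i, (Q i).IsSymm) (hsm : SmoothX Q) (hfin : NoBase Q) :
    Irreducible (octic Q) := by
  by_contra hirr
  have hF0 := octic_ne_zero hfin
  have hnu : ¬ IsUnit (octic Q) := by
    intro hu
    have h1 := hu.map (MvPolynomial.aeval (0 : Fin 4 → ℂ))
    rw [aeval_octic] at h1
    have h2 : qq Q (0 : Fin 4 → ℂ) = 0 := by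
      funext l
      rw [qq_apply]
      simp
    rw [h2] at h1
    simp [st] at h1
  obtain ⟨f, hf, g, hF⟩ := WfDvdMonoid.exists_irreducible_factor hnu hF0
  have hg : ¬ IsUnit g := by
    intro hu
    apply hirr
    have h1 : Associated f (octic Q) := ⟨hu.unit, by rw [hF]; rfl⟩
    exact h1.irreducible hf
  have hhom := octic_homogeneous Q
  have hF0' : f * g ≠ 0 := hF ▸ hF0
  obtain ⟨m, hfm⟩ := homog_of_mul (hF ▸ hhom) hF0'
  obtain ⟨m', hgm⟩ := homog_of_mul (f := g) (g := f) (by rw [mul_comm, ← hF]; exact hhom)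
    (by rw [mul_comm]; exact hF0')
  have hpos : ∀ {q : MvPolynomial (Fin 4) ℂ} {n : ℕ}, q.IsHomogeneous n → q ≠ 0 → ¬ IsUnit q →
      0 < n := by
    intro q n hq hq0 hqu
    by_contra hn
    apply hqu
    have h1 : n = 0 := by omega
    subst h1
    have h2 := MvPolynomial.totalDegree_eq_zero_iff_eq_C.1 (hq.totalDegree hq0)
    rw [h2]
    apply IsUnit.map
    rw [isUnit_iff_ne_zero]
    intro h3
    rw [h3, map_zero] at h2
    exact hq0 h2
  have hm := hpos hfm (left_ne_zero_of_mul hF0') hf.not_isUnit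
  have hm' := hpos hgm (right_ne_zero_of_mul hF0') hg
  let S := MvPolynomial (Fin 4) ℂ
  let Y : Fin 4 → S := qq Q (MvPolynomial.X : Fin 4 → S)
  have hY := qq_X_homogeneous Q
  obtain ⟨p, hp, hp0⟩ := exists_zero_three ![f, g, Y 0 ^ 2 - Y 1 ^ 2 - Y 2 ^ 2 - Y 3 ^ 2]
    ![m, m', 4] (by
      intro l
      fin_cases l
      · exact hm
      · exact hm'
      · exact four_pos) (by
      intro l
      fin_cases l
      · exact hfm
      · exact hgm
      · exact ((((hY 0).pow 2).sub ((hY 1).pow 2)).sub ((hY 2).pow 2)).sub ((hY 3).pow 2))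
  have hfp : MvPolynomial.aeval p f = 0 := hp0 0
  have hgp : MvPolynomial.aeval p g = 0 := hp0 1
  have h3 : qq Q p 0 ^ 2 - qq Q p 1 ^ 2 - qq Q p 2 ^ 2 - qq Q p 3 ^ 2 = 0 := by
    have h1 : MvPolynomial.aeval p (Y 0 ^ 2 - Y 1 ^ 2 - Y 2 ^ 2 - Y 3 ^ 2) = 0 := hp0 2
    have hYp : ∀ l, MvPolynomial.aeval p (Y l) = qq Q p l := fun l => aeval_qq_X Q p l
    rw [map_sub, map_sub, map_sub, map_pow, map_pow, map_pow, map_pow, hYp, hYp, hYp, hYp] at h1
    exact h1
  have hgrad := gs4_eq_zero hQ hsm hF hp hfp hgp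
  obtain ⟨y, hy⟩ : ∃ y, y = qq Q p := ⟨_, rfl⟩
  rw [← hy] at h3 hgrad
  have g0 : -(2 * (y 1 * y 2 * y 3)) = 0 := congrFun hgrad 0
  have g1 : 2 * (y 1 * y 3 ^ 2) + 2 * (y 1 * y 2 ^ 2) - 2 * (y 0 * y 2 * y 3) = 0 :=
    congrFun hgrad 1
  have g2 : 2 * (y 2 * y 3 ^ 2) + 2 * (y 1 ^ 2 * y 2) - 2 * (y 0 * y 1 * y 3) = 0 :=
    congrFun hgrad 2
  have g3 : 2 * (y 2 ^ 2 * y 3) + 2 * (y 1 ^ 2 * y 3) - 2 * (y 0 * y 1 * y 2) = 0 :=
    congrFun hgrad 3
  have hcases : (y 2 = 0 ∧ y 3 = 0) ∨ (y 1 = 0 ∧ y 3 = 0) ∨ (y 1 = 0 ∧ y 2 = 0) := by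
    have two : ∀ {u v : ℂ}, u ^ 2 * v = 0 → u = 0 ∨ v = 0 := by
      intro u v h
      rcases mul_eq_zero.1 h with h | h
      · exact Or.inl (pow_eq_zero_iff two_ne_zero |>.1 h)
      · exact Or.inr h
    have g0' : y 1 * (y 2 * y 3) = 0 := by linear_combination -(1 / 2) * g0
    rcases mul_eq_zero.1 g0' with h1 | h1
    · rw [h1] at g2
      have h4 : y 3 ^ 2 * y 2 = 0 := by linear_combination (1 / 2) * g2
      rcases two h4 with h5 | h5
      · exact Or.inr (Or.inl ⟨h1, h5⟩)
      · exact Or.inr (Or.inr ⟨h1, h5⟩)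
    · rcases mul_eq_zero.1 h1 with h2 | h2
      · rw [h2] at g1
        have h4 : y 3 ^ 2 * y 1 = 0 := by linear_combination (1 / 2) * g1
        rcases two h4 with h5 | h5
        · exact Or.inl ⟨h2, h5⟩
        · exact Or.inr (Or.inr ⟨h5, h2⟩)
      · rw [h2] at g1
        have h4 : y 2 ^ 2 * y 1 = 0 := by linear_combination (1 / 2) * g1
        rcases two h4 with h5 | h5
        · exact Or.inl ⟨h5, h2⟩
        · exact Or.inr (Or.inl ⟨h5, h2⟩)
  have sgn : ∀ {u v : ℂ}, u ^ 2 = v ^ 2 → ∃ s : ℂ, s * s = 1 ∧ u = s * v := by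
    intro u v h
    rcases sq_eq_sq_iff_eq_or_eq_neg.1 h with h | h
    · exact ⟨1, by norm_num, by rw [h, one_mul]⟩
    · exact ⟨-1, by norm_num, by rw [h, neg_one_mul]⟩
  have hy0 : y ≠ 0 := by
    intro h0
    rw [hy] at h0
    exact hp (hfin p h0)
  obtain ⟨c, hc⟩ := IsAlgClosed.exists_pow_nat_eq (y 0 / 2) two_pos
  have hc' : y 0 = 2 * c ^ 2 := by
    rw [hc]
    ring
  have key : ∀ (l : Fin 4 → ℂ) (v : Fin 3 → ℂ), ee v = y →
      (∀ w, ∑ t, l t * qb Q p w t = 0) → (∀ u, ∑ t, l t * eb v u t = 0) → l = 0 :=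
    fun l v h1 h2 h4 => hsm p v (by rw [h1, hy]) (Or.inl hp) l h2 h4
  rcases hcases with ⟨c1, c2⟩ | ⟨c1, c2⟩ | ⟨c1, c2⟩
  · obtain ⟨s, hs, hs'⟩ := sgn (u := y 0) (v := y 1) (by
      rw [c1, c2] at h3
      linear_combination h3)
    have hyi : y 1 ≠ 0 := by
      intro h0
      apply hy0
      funext l
      fin_cases l
      · change y 0 = 0
        rw [hs', h0, mul_zero]
      · exact h0
      · exact c1
      · exact c2
    refine no_pinch hQ hfin hF hf hfm hm (i := 1) (j := 2) (k := 3) (by decide) (fun y => by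
      unfold st
      ring) hs hp (by rw [← hy]; exact hs') (by rw [← hy]; exact hyi) (by rw [← hy]; exact c1)
      (by rw [← hy]; exact c2) hfp hgp ?_
    intro α β h
    have h5 := key ![β, -(s * β), α, -(s * α)] ![0, c, s * c] (by
      funext l
      fin_cases l
      · change (0 : ℂ) * 0 + c * c + s * c * (s * c) = y 0
        rw [hc']
        linear_combination c ^ 2 * hs
      · change c * (s * c) + s * c * c = y 1
        have h6 : y 1 = s * y 0 := by rw [hs']; linear_combination -(y 1) * hs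
        rw [h6, hc']
        ring
      · change (0 : ℂ) * (s * c) + s * c * 0 = y 2
        rw [c1]
        ring
      · change (0 : ℂ) * c + c * 0 = y 3
        rw [c2]
        ring) (fun w => by
      rw [Fin.sum_univ_four]
      change β * qb Q p w 0 + -(s * β) * qb Q p w 1 + α * qb Q p w 2 + -(s * α) * qb Q p w 3 = 0
      linear_combination (1 / 2) * h w) (fun u => by
      rw [Fin.sum_univ_four]
      change β * (0 * u 0 + c * u 1 + s * c * u 2) + -(s * β) * (c * u 2 + s * c * u 1) +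
        α * (0 * u 2 + s * c * u 0) + -(s * α) * (0 * u 1 + c * u 0) = 0
      linear_combination -(β * c * u 1) * hs)
    exact ⟨congrFun h5 2, congrFun h5 0⟩
  · obtain ⟨s, hs, hs'⟩ := sgn (u := y 0) (v := y 2) (by
      rw [c1, c2] at h3
      linear_combination h3)
    have hyi : y 2 ≠ 0 := by
      intro h0
      apply hy0
      funext l
      fin_cases l
      · change y 0 = 0
        rw [hs', h0, mul_zero]
      · exact c1
      · exact h0
      · exact c2
    refine no_pinch hQ hfin hF hf hfm hm (i := 2) (j := 1) (k := 3) (by decide) (fun y => by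
      unfold st
      ring) hs hp (by rw [← hy]; exact hs') (by rw [← hy]; exact hyi) (by rw [← hy]; exact c1)
      (by rw [← hy]; exact c2) hfp hgp ?_
    intro α β h
    have h5 := key ![β, α, -(s * β), -(s * α)] ![c, 0, s * c] (by
      funext l
      fin_cases l
      · change c * c + (0 : ℂ) * 0 + s * c * (s * c) = y 0
        rw [hc']
        linear_combination c ^ 2 * hs
      · change (0 : ℂ) * (s * c) + s * c * 0 = y 1
        rw [c1]
        ring
      · change c * (s * c) + s * c * c = y 2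
        have h6 : y 2 = s * y 0 := by rw [hs']; linear_combination -(y 2) * hs
        rw [h6, hc']
        ring
      · change c * 0 + 0 * c = y 3
        rw [c2]
        ring) (fun w => by
      rw [Fin.sum_univ_four]
      change β * qb Q p w 0 + α * qb Q p w 1 + -(s * β) * qb Q p w 2 + -(s * α) * qb Q p w 3 = 0
      linear_combination (1 / 2) * h w) (fun u => by
      rw [Fin.sum_univ_four]
      change β * (c * u 0 + 0 * u 1 + s * c * u 2) + α * (0 * u 2 + s * c * u 1) +
        -(s * β) * (c * u 2 + s * c * u 0) + -(s * α) * (c * u 1 + 0 * u 0) = 0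
      linear_combination -(β * c * u 0) * hs)
    exact ⟨congrFun h5 1, congrFun h5 0⟩
  · obtain ⟨s, hs, hs'⟩ := sgn (u := y 0) (v := y 3) (by
      rw [c1, c2] at h3
      linear_combination h3)
    have hyi : y 3 ≠ 0 := by
      intro h0
      apply hy0
      funext l
      fin_cases l
      · change y 0 = 0
        rw [hs', h0, mul_zero]
      · exact c1
      · exact c2
      · exact h0
    refine no_pinch hQ hfin hF hf hfm hm (i := 3) (j := 1) (k := 2) (by decide) (fun y => by
      unfold st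
      ring) hs hp (by rw [← hy]; exact hs') (by rw [← hy]; exact hyi) (by rw [← hy]; exact c1)
      (by rw [← hy]; exact c2) hfp hgp ?_
    intro α β h
    have h5 := key ![β, α, -(s * α), -(s * β)] ![c, s * c, 0] (by
      funext l
      fin_cases l
      · change c * c + s * c * (s * c) + (0 : ℂ) * 0 = y 0
        rw [hc']
        linear_combination c ^ 2 * hs
      · change s * c * 0 + 0 * (s * c) = y 1
        rw [c1]
        ring
      · change c * 0 + 0 * c = y 2
        rw [c2]
        ring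
      · change c * (s * c) + s * c * c = y 3
        have h6 : y 3 = s * y 0 := by rw [hs']; linear_combination -(y 3) * hs
        rw [h6, hc']
        ring) (fun w => by
      rw [Fin.sum_univ_four]
      change β * qb Q p w 0 + α * qb Q p w 1 + -(s * α) * qb Q p w 2 + -(s * β) * qb Q p w 3 = 0
      linear_combination (1 / 2) * h w) (fun u => by
      rw [Fin.sum_univ_four]
      change β * (c * u 0 + s * c * u 1 + 0 * u 2) + α * (s * c * u 2 + 0 * u 1) +
        -(s * α) * (c * u 2 + 0 * u 0) + -(s * β) * (c * u 1 + s * c * u 0) = 0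
      linear_combination -(β * c * u 0) * hs)
    exact ⟨congrFun h5 1, congrFun h5 0⟩

end pinch

end Vale.Agent.P297.C8
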