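import Vale.Agent.P297.H72.Camp8
import Vale.Agent.P297.H521.PsiConst

/-!
Linear maps act on the cycles of the points of an octic on the lines of a ruling.
-/

set_option linter.unusedSectionVars false
set_option linter.unusedSimpArgs false

namespace Vale.Agent.P297.C8.R1

open Vale.Agent.P297 Vale.Agent.P297.C8

variable {K K₁ N : Type} [Field K] [Algebra ℂ K] [Field K₁] [Algebra ℂ K₁] [Field N] [Algebra ℂ N]

theorem cond_smul (Q : Web) (x y c : N) (u : Fin 4 → N)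
    (h : (∑ i, mv x y i * vy (qq Q u) i) = 0) :
    (∑ i, mv x y i * vy (qq Q (c • u)) i) = 0 := by
  rw [qq_smul, vy_smul]
  have h1 : ∀ i, mv x y i * ((c ^ 2) ^ 2 • vy (qq Q u)) i =
      (c ^ 2) ^ 2 * (mv x y i * vy (qq Q u) i) := by
    intro i
    rw [Pi.smul_apply, smul_eq_mul]
    ring
  simp only [h1]
  rw [← Finset.mul_sum, h, mul_zero]

theorem st_cond_smul (Q : Web) (c : N) (u : Fin 4 → N) (h : st (qq Q u) = 0) :
    st (qq Q (c • u)) = 0 := by
  rw [qq_smul, st_smul, h, mul_zero]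

/-- **Equivariance of the cycles under a linear map**, after restriction to a subfield. -/
theorem resK_Psi {Q : Web} {c : Fin 4 → K₁} (ι : K →ₐ[ℂ] K₁) {x y w x' y' w' : N}
    {z : Fin 4 → N} (A : (Fin 4 → N) ≃ₗ[N] (Fin 4 → N))
    (hst : ∀ u, st (qq Q (A u)) = 0 ↔ st (qq Q u) = 0)
    (hmv : ∀ u, (∑ i, mv x' y' i * vy (qq Q (A u)) i) = 0 ↔
      (∑ i, mv x y i * vy (qq Q u) i) = 0)
    (hrul : ∀ u, Rul (MM Q x' y') w' (A z) (A u) ↔ Rul (MM Q x y) w z u)
    (h0 : ∀ o ∈ PtSet Q x y w z, A o 0 ≠ 0)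
    (h0' : ∀ o ∈ PtSet Q x' y' w' (A z), A.symm o 0 ≠ 0)
    (hres : ∀ o ∈ PtSet Q x y w z, resK ι (pt c (A o)) = resK (N := N) ι (pt c o))
    (hfin : (PtSet Q x y w z).Finite) :
    resK ι (Psi Q c x' y' w' (A z)) = resK (N := N) ι (Psi Q c x y w z) := by
  have hbij : Set.BijOn (fun o => (A o 0)⁻¹ • A o) (PtSet Q x y w z)
      (PtSet Q x' y' w' (A z)) := by
    refine ⟨?_, ?_, ?_⟩
    · rintro o ho
      have h1 := h0 o ho
      obtain ⟨k0, k1, k2, k3⟩ := ho
      refine ⟨?_, ?_, ?_, ?_⟩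
      · change (A o 0)⁻¹ * A o 0 = 1
        exact inv_mul_cancel₀ h1
      · exact st_cond_smul Q _ _ ((hst o).2 k1)
      · exact cond_smul Q x' y' _ _ ((hmv o).2 k2)
      · exact ((hrul o).2 k3).smul _
    · intro o ho o' ho' h
      have h1 := h0 o ho
      have h2 := h0 o' ho'
      have h3 : (A o 0)⁻¹ • A o = (A o' 0)⁻¹ • A o' := h
      rw [← map_smul, ← map_smul] at h3
      have h4 := A.injective h3
      have h5 := congrFun h4 0
      simp only [Pi.smul_apply, smul_eq_mul] at h5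
      have e1 : o 0 = 1 := ho.1
      have e2 : o' 0 = 1 := ho'.1
      rw [e1, e2, mul_one, mul_one] at h5
      rw [h5] at h4
      have h6 : (A o' 0)⁻¹ ≠ 0 := inv_ne_zero h2
      exact smul_right_injective _ h6 h4
    · intro o' ho'
      have h1 := h0' o' ho'
      set u := A.symm o' with hu
      have hA : A u = o' := A.apply_symm_apply o'
      obtain ⟨k0, k1, k2, k3⟩ := ho'
      have k0' : o' 0 = 1 := k0
      refine ⟨(u 0)⁻¹ • u, ⟨?_, ?_, ?_, ?_⟩, ?_⟩
      · change (u 0)⁻¹ * u 0 = 1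
        exact inv_mul_cancel₀ h1
      · exact st_cond_smul Q _ _ ((hst u).1 (by rwa [hA]))
      · exact cond_smul Q x y _ _ ((hmv u).1 (by rwa [hA]))
      · exact ((hrul u).1 (by rwa [hA])).smul _
      · change (A ((u 0)⁻¹ • u) 0)⁻¹ • A ((u 0)⁻¹ • u) = o'
        rw [map_smul, hA, Pi.smul_apply, smul_eq_mul, k0', mul_one, inv_inv, smul_smul,
          mul_inv_cancel₀ h1, one_smul]
  have e1 : Psi Q c x' y' w' (A z) = ∑ᶠ o ∈ PtSet Q x y w z, pt c (A o) := by
    unfold Psi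
    refine (finsum_mem_eq_of_bijOn (fun o => (A o 0)⁻¹ • A o) hbij fun o ho => ?_).symm
    exact (pt_smul (inv_ne_zero (h0 o ho))).symm
  rw [e1]
  unfold Psi
  rw [AddMonoidHom.map_finsum_mem _ _ hfin, AddMonoidHom.map_finsum_mem _ _ hfin]
  exact finsum_mem_congr rfl hres

end Vale.Agent.P297.C8.R1
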