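import Vale.Agent.P297.H10.TQ
import Vale.Agent.P297.H637.KAbs
import Vale.Agent.P297.H637.PsiDefs

/-!
The web of quadrics with an action of the quaternion group, and the other side for it.
-/

set_option linter.unusedSectionVars false
set_option linter.unusedSimpArgs false

namespace Vale.Agent.P297.H10

open Vale.Agent.P297 Vale.Agent.P297.Gen Vale.Agent.P297.G4 Vale.Agent.P297.C8
open Vale.Agent.P297.H637 Polynomial

/-- the determinant of a matrix of size four -/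
theorem det4 {R : Type} [CommRing R] (A : Matrix (Fin 4) (Fin 4) R) :
    A.det =
      A 0 0 * (A 1 1 * (A 2 2 * A 3 3 - A 2 3 * A 3 2) - A 1 2 * (A 2 1 * A 3 3 - A 2 3 * A 3 1) +
        A 1 3 * (A 2 1 * A 3 2 - A 2 2 * A 3 1)) -
      A 0 1 * (A 1 0 * (A 2 2 * A 3 3 - A 2 3 * A 3 2) - A 1 2 * (A 2 0 * A 3 3 - A 2 3 * A 3 0) +
        A 1 3 * (A 2 0 * A 3 2 - A 2 2 * A 3 0)) +
      A 0 2 * (A 1 0 * (A 2 1 * A 3 3 - A 2 3 * A 3 1) - A 1 1 * (A 2 0 * A 3 3 - A 2 3 * A 3 0) +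
        A 1 3 * (A 2 0 * A 3 1 - A 2 1 * A 3 0)) -
      A 0 3 * (A 1 0 * (A 2 1 * A 3 2 - A 2 2 * A 3 1) - A 1 1 * (A 2 0 * A 3 2 - A 2 2 * A 3 0) +
        A 1 2 * (A 2 0 * A 3 1 - A 2 1 * A 3 0)) := by
  rw [Matrix.det_succ_row_zero, Fin.sum_univ_four]
  simp only [Matrix.det_fin_three, Matrix.submatrix_apply]
  simp [Fin.succAbove, Fin.succ]
  ring

theorem det4' {R : Type} [CommRing R] (a b c d e f g h i j k l m n o p : R) :
    Matrix.det !![a, b, c, d; e, f, g, h; i, j, k, l; m, n, o, p] =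
      a * (f * (k * p - l * o) - g * (j * p - l * n) + h * (j * o - k * n)) -
      b * (e * (k * p - l * o) - g * (i * p - l * m) + h * (i * o - k * m)) +
      c * (e * (j * p - l * n) - f * (i * p - l * m) + h * (i * n - j * m)) -
      d * (e * (j * o - k * n) - f * (i * o - k * m) + g * (i * n - j * m)) := by
  rw [det4]
  rfl

/-- The web. -/
def webQ (a : ℂ) (p q r : Fin 3 → ℂ) : Web :=
  ![!![0, 0, 0, a; 0, 0, -a, 0; 0, -a, 0, 0; a, 0, 0, 0],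
    !![0, p 0, 0, q 0; p 0, 0, q 0, 0; 0, q 0, 0, r 0; q 0, 0, r 0, 0],
    !![p 1, 0, q 1, 0; 0, p 1, 0, q 1; q 1, 0, r 1, 0; 0, q 1, 0, r 1],
    !![p 2, 0, q 2, 0; 0, -p 2, 0, -q 2; q 2, 0, r 2, 0; 0, -q 2, 0, -r 2]]

/-- the discriminants of the binary forms `p x² + 2 q x y + r y²` and the mixed ones -/
def Dm (p q r : Fin 3 → ℂ) (i j : Fin 3) : ℂ := p i * r j + p j * r i - 2 * (q i * q j)

/-- the determinant of the three binary forms -/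
def br (p q r : Fin 3 → ℂ) : ℂ :=
  p 0 * (q 1 * r 2 - q 2 * r 1) - q 0 * (p 1 * r 2 - p 2 * r 1) + r 0 * (p 1 * q 2 - p 2 * q 1)

/-- The quadratic form. -/
def dQ (a : ℂ) (p q r : Fin 3 → ℂ) : Fin 10 → ℂ :=
  ![a ^ 4 - 2 * a * br p q r,
    2 * a ^ 2 * (p 0 * r 0 - q 0 ^ 2) + 2 * a * br p q r,
    (p 0 * r 0 - q 0 ^ 2) ^ 2,
    2 * a * br p q r - 2 * a ^ 2 * (p 1 * r 1 - q 1 ^ 2),
    2 * (p 0 * r 0 - q 0 ^ 2) * (p 1 * r 1 - q 1 ^ 2) - Dm p q r 0 1 ^ 2,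
    2 * a ^ 2 * (p 2 * r 2 - q 2 ^ 2) + 2 * a * br p q r,
    Dm p q r 0 2 ^ 2 - 2 * (p 0 * r 0 - q 0 ^ 2) * (p 2 * r 2 - q 2 ^ 2),
    (p 1 * r 1 - q 1 ^ 2) ^ 2,
    2 * (p 1 * r 1 - q 1 ^ 2) * (p 2 * r 2 - q 2 ^ 2) - Dm p q r 1 2 ^ 2,
    (p 2 * r 2 - q 2 ^ 2) ^ 2]

theorem webQ_symm (a : ℂ) (p q r : Fin 3 → ℂ) (i : Fin 4) : (webQ a p q r i).IsSymm := by
  apply Matrix.IsSymm.ext
  intro b c
  fin_cases i <;> fin_cases b <;> fin_cases c <;> simp [webQ]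

section

variable {N : Type} [Field N] [Algebra ℂ N]

theorem cayley [CharZero N] {x y : N} (hx : x ≠ 0) (hy : y ≠ 0) :
    1 + 2 * (lam x y 1 * lam x y 2 * lam x y 3) =
      lam x y 1 ^ 2 + lam x y 2 ^ 2 + lam x y 3 ^ 2 := by
  simp only [lam, Matrix.cons_val_zero, Matrix.cons_val_one, Matrix.cons_val_two,
    Matrix.cons_val_three, Matrix.head_cons, Matrix.tail_cons, Matrix.cons_val]
  field_simp
  ring

theorem lam_zero (x y : N) : lam x y 0 = 1 := rfl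

theorem MM_webQ (a : ℂ) (p q r : Fin 3 → ℂ) (x y : N) :
    MM (webQ a p q r) x y =
      !![lam x y 2 * algebraMap ℂ N (p 1) + lam x y 3 * algebraMap ℂ N (p 2),
        lam x y 1 * algebraMap ℂ N (p 0),
        lam x y 2 * algebraMap ℂ N (q 1) + lam x y 3 * algebraMap ℂ N (q 2),
        algebraMap ℂ N a + lam x y 1 * algebraMap ℂ N (q 0);
        lam x y 1 * algebraMap ℂ N (p 0),
        lam x y 2 * algebraMap ℂ N (p 1) - lam x y 3 * algebraMap ℂ N (p 2),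
        lam x y 1 * algebraMap ℂ N (q 0) - algebraMap ℂ N a,
        lam x y 2 * algebraMap ℂ N (q 1) - lam x y 3 * algebraMap ℂ N (q 2);
        lam x y 2 * algebraMap ℂ N (q 1) + lam x y 3 * algebraMap ℂ N (q 2),
        lam x y 1 * algebraMap ℂ N (q 0) - algebraMap ℂ N a,
        lam x y 2 * algebraMap ℂ N (r 1) + lam x y 3 * algebraMap ℂ N (r 2),
        lam x y 1 * algebraMap ℂ N (r 0);
        algebraMap ℂ N a + lam x y 1 * algebraMap ℂ N (q 0),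
        lam x y 2 * algebraMap ℂ N (q 1) - lam x y 3 * algebraMap ℂ N (q 2),
        lam x y 1 * algebraMap ℂ N (r 0),
        lam x y 2 * algebraMap ℂ N (r 1) - lam x y 3 * algebraMap ℂ N (r 2)] := by
  ext b c
  rw [MM, Fin.sum_univ_four, lam_zero]
  fin_cases b <;> fin_cases c <;> simp [webQ] <;> ring

theorem det_webQ [CharZero N] (a : ℂ) (p q r : Fin 3 → ℂ) {x y : N} (hx : x ≠ 0) (hy : y ≠ 0) :
    (MM (webQ a p q r) x y).det =
      qf (fun j => algebraMap ℂ N (dQ a p q r j))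
        ![1, lam x y 1 ^ 2, lam x y 2 ^ 2, lam x y 3 ^ 2] := by
  have hc := cayley hx hy
  rw [MM_webQ, det4']
  change _ = algebraMap ℂ N (a ^ 4 - 2 * a * br p q r) * 1 ^ 2 +
    algebraMap ℂ N (2 * a ^ 2 * (p 0 * r 0 - q 0 ^ 2) + 2 * a * br p q r) *
      (1 * lam x y 1 ^ 2) +
    algebraMap ℂ N ((p 0 * r 0 - q 0 ^ 2) ^ 2) * (lam x y 1 ^ 2) ^ 2 +
    algebraMap ℂ N (2 * a * br p q r - 2 * a ^ 2 * (p 1 * r 1 - q 1 ^ 2)) *
      (1 * lam x y 2 ^ 2) +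
    algebraMap ℂ N (2 * (p 0 * r 0 - q 0 ^ 2) * (p 1 * r 1 - q 1 ^ 2) - Dm p q r 0 1 ^ 2) *
      (lam x y 1 ^ 2 * lam x y 2 ^ 2) +
    algebraMap ℂ N (2 * a ^ 2 * (p 2 * r 2 - q 2 ^ 2) + 2 * a * br p q r) *
      (1 * lam x y 3 ^ 2) +
    algebraMap ℂ N (Dm p q r 0 2 ^ 2 - 2 * (p 0 * r 0 - q 0 ^ 2) * (p 2 * r 2 - q 2 ^ 2)) *
      (lam x y 1 ^ 2 * lam x y 3 ^ 2) +
    algebraMap ℂ N ((p 1 * r 1 - q 1 ^ 2) ^ 2) * (lam x y 2 ^ 2) ^ 2 +
    algebraMap ℂ N (2 * (p 1 * r 1 - q 1 ^ 2) * (p 2 * r 2 - q 2 ^ 2) - Dm p q r 1 2 ^ 2) *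
      (lam x y 2 ^ 2 * lam x y 3 ^ 2) +
    algebraMap ℂ N ((p 2 * r 2 - q 2 ^ 2) ^ 2) * (lam x y 3 ^ 2) ^ 2
  simp only [Dm, br, map_add, map_sub, map_mul, map_pow, map_ofNat]
  generalize lam x y 1 = l1 at *
  generalize lam x y 2 = l2 at *
  generalize lam x y 3 = l3 at *
  linear_combination (2 * algebraMap ℂ N a *
    (algebraMap ℂ N (p 0) * (algebraMap ℂ N (q 1) * algebraMap ℂ N (r 2) -
      algebraMap ℂ N (q 2) * algebraMap ℂ N (r 1)) -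
    algebraMap ℂ N (q 0) * (algebraMap ℂ N (p 1) * algebraMap ℂ N (r 2) -
      algebraMap ℂ N (p 2) * algebraMap ℂ N (r 1)) +
    algebraMap ℂ N (r 0) * (algebraMap ℂ N (p 1) * algebraMap ℂ N (q 2) -
      algebraMap ℂ N (p 2) * algebraMap ℂ N (q 1)))) * hc

end

end Vale.Agent.P297.H10
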