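import Vale.Agent.P297.H10.XField

/-!
Homomorphisms of the function field of the intersection of the four quadrics `Q(o) = e(v)`.
-/

set_option linter.unusedSectionVars false

namespace Vale.Agent.P297.C8

open IntermediateField Polynomial

section

variable {Q : Web} {E : Type} [Field E] [Algebra ℂ E] {x : Fin 4 → E} {v : Fin 3 → E}

/-- Extension of a homomorphism to a quadratic extension. -/
theorem exists_ext {L : IntermediateField ℂ E} {N : Type} [Field N] [Algebra ℂ N] {s : E}
    (hs : s ∉ L) {w : L} (hw : s ^ 2 = (w : E)) (hall : ∀ t : E, ∃ a b : L, t = a + b * s)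
    (φ : L →ₐ[ℂ] N) {s' : N} (hs' : s' ^ 2 = φ w) :
    ∃ Φ : E →ₐ[ℂ] N, (∀ t : L, Φ t = φ t) ∧ Φ s = s' := by
  let ev : L[X] →ₐ[ℂ] E := (Polynomial.aeval s : L[X] →ₐ[L] E).restrictScalars ℂ
  let ψ : L[X] →ₐ[ℂ] N := Polynomial.eval₂AlgHom φ s' (fun _ => Commute.all _ _)
  have hev : Function.Surjective ev := by
    intro t
    obtain ⟨a, b, rfl⟩ := hall t
    refine ⟨C a + C b * X, ?_⟩
    change Polynomial.aeval s (C a + C b * X : L[X]) = _
    rw [map_add, map_mul, Polynomial.aeval_C, Polynomial.aeval_C, Polynomial.aeval_X]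
    rfl
  have hmon : (X ^ 2 - C w : L[X]).Monic := monic_X_pow_sub_C w two_ne_zero
  have hker : ∀ p : L[X], ev p = 0 → ψ p = 0 := by
    intro p hp
    have h1 := Polynomial.modByMonic_add_div p (X ^ 2 - C w)
    have h2 : (p %ₘ (X ^ 2 - C w)).natDegree < 2 := by
      have h3 := Polynomial.natDegree_modByMonic_lt p hmon (by
        intro h4
        have h5 := congrArg natDegree h4
        rw [natDegree_X_pow_sub_C, natDegree_one] at h5
        exact two_ne_zero h5)
      rwa [natDegree_X_pow_sub_C] at h3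
    obtain ⟨b, a, hr⟩ := Polynomial.exists_eq_X_add_C_of_natDegree_le_one (by omega :
      (p %ₘ (X ^ 2 - C w)).natDegree ≤ 1)
    rw [hr] at h1
    have h3 : (a : E) + b * s = 0 := by
      have h4 := congrArg ev h1
      rw [hp, map_add, map_mul] at h4
      have h5 : ev (X ^ 2 - C w) = 0 := by
        change Polynomial.aeval s (X ^ 2 - C w : L[X]) = 0
        rw [map_sub, map_pow, Polynomial.aeval_X, Polynomial.aeval_C, hw]
        exact sub_self _
      have h6 : ev (C b * X + C a) = a + b * s := by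
        change Polynomial.aeval s (C b * X + C a : L[X]) = _
        rw [map_add, map_mul, Polynomial.aeval_C, Polynomial.aeval_C, Polynomial.aeval_X, add_comm]
        rfl
      rw [h5, h6, zero_mul, add_zero] at h4
      exact h4
    have hb : b = 0 := by
      by_contra hb
      apply hs
      have hb' : (b : E) ≠ 0 := fun h => hb (Subtype.ext h)
      have h4 : s = -a / b := by
        field_simp
        linear_combination h3
      rw [h4]
      exact div_mem (neg_mem a.2) b.2
    have ha : a = 0 := by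
      apply Subtype.ext
      rw [hb] at h3
      simpa using h3
    rw [ha, hb] at h1
    rw [← h1, map_add, map_mul]
    have h5 : ψ (X ^ 2 - C w) = 0 := by
      rw [map_sub, map_pow]
      have h6 : ψ X = s' := Polynomial.eval₂_X _ _
      have h7 : ψ (C w) = φ w := Polynomial.eval₂_C _ _
      rw [h6, h7, hs', sub_self]
    rw [h5]
    simp
  let Φ : E →ₐ[ℂ] N := AlgHom.liftOfSurjective ev hev ψ (fun p hp => hker p hp)
  have hΦ : ∀ p, Φ (ev p) = ψ p := fun p => AlgHom.liftOfSurjective_apply _ _ _ _ _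
  refine ⟨Φ, fun t => ?_, ?_⟩
  · have h1 : ev (C t) = t := Polynomial.aeval_C _ _
    rw [← h1, hΦ]
    exact Polynomial.eval₂_C _ _
  · have h1 : ev X = s := Polynomial.aeval_X _
    rw [← h1, hΦ]
    exact Polynomial.eval₂_X _ _

/-- the coordinates of the generic point do not vanish -/
theorem IsX.ne (h : IsX Q x v) (hirr : Irreducible (octic Q)) :
    (∀ i, i ≠ 0 → qq Q x i ≠ 0) ∧ v 0 ≠ 0 ∧ v 1 ≠ 0 ∧ v 2 ≠ 0 := by
  have hFF := h.isFF hirr
  have hgen : GenW Q (cx x) := GenW.of_phi hFF (AlgHom.id ℂ (K1 x))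
  have hne : ∀ i, i ≠ 0 → qq Q x i ≠ 0 := by
    intro i hi h0
    have h1 := H212.Camp.qq_ne hFF hgen hi
    apply h1
    have h2 := map_qq Q (K1 x).val (cx x) i
    have h3 : (fun j => (K1 x).val (cx x j)) = x := rfl
    rw [h3, h0] at h2
    exact (map_eq_zero_iff _ (K1 x).val.toRingHom.injective).1 h2
  have e1 := congrFun h.eq 1
  have e2 := congrFun h.eq 2
  change _ = v 1 * v 2 + v 2 * v 1 at e1
  change _ = v 0 * v 2 + v 2 * v 0 at e2
  have n1 := hne 1 (by decide)
  have n2 := hne 2 (by decide)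
  refine ⟨hne, ?_, ?_, ?_⟩
  · intro h0
    apply n2
    rw [e2, h0]
    ring
  · intro h0
    apply n1
    rw [e1, h0]
    ring
  · intro h0
    apply n1
    rw [e1, h0]
    ring

/-- the square of the coordinate -/
theorem IsX.sq_eq (h : IsX Q x v) (hirr : Irreducible (octic Q)) :
    v 0 ^ 2 = qq Q x 2 * qq Q x 3 / (2 * qq Q x 1) := by
  have : CharZero E := charZero_of_injective_algebraMap (algebraMap ℂ E).injective
  obtain ⟨-, v0, v1, v2⟩ := h.ne hirr
  have e1 := congrFun h.eq 1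
  have e2 := congrFun h.eq 2
  have e3 := congrFun h.eq 3
  change _ = v 1 * v 2 + v 2 * v 1 at e1
  change _ = v 0 * v 2 + v 2 * v 0 at e2
  change _ = v 0 * v 1 + v 1 * v 0 at e3
  rw [e1, e2, e3]
  field_simp
  ring

/-- Homomorphisms of the field of the octic. -/
theorem IsFF.exists_hom {K₁ : Type} [Field K₁] [Algebra ℂ K₁] {c : Fin 4 → K₁} (hc : IsFF Q c)
    {o : Fin 4 → K₁} (h0 : o 0 = 1) (hst : st (qq Q o) = 0)
    (hmem : ∀ j, c j ∈ adjoin ℂ (Set.range o)) : ∃ φ : K₁ →ₐ[ℂ] K₁, ∀ j, φ (c j) = o j := by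
  have hgen : GenW Q o := by
    obtain ⟨i, j, hij⟩ := hc.ind
    refine GenW.of_trdeg hst (by rw [h0]; exact one_ne_zero) _ hij fun l => ?_
    have h1 : (fun j => o j / o 0) = o := by
      funext j
      rw [h0, div_one]
    rw [h1]
    fin_cases l
    · exact hmem i
    · exact hmem j
  obtain ⟨φ, hφ⟩ := hgen.exists_phi hc
  exact ⟨φ, fun j => by rw [hφ, h0, div_one]⟩

/-- **Homomorphisms of the function field.** -/
theorem IsX.exists_hom (h : IsX Q x v) (hirr : Irreducible (octic Q)) (hv : v 0 ∉ K1 x)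
    {x' : Fin 4 → E} {v' : Fin 3 → E} (h0 : x' 0 = 1) (heq : qq Q x' = ee v')
    (hmem : ∀ j, x j ∈ adjoin ℂ (Set.range x')) :
    ∃ G : E →ₐ[ℂ] E, (∀ j, G (x j) = x' j) ∧ ∀ j, G (v j) = v' j := by
  have : CharZero E := charZero_of_injective_algebraMap (algebraMap ℂ E).injective
  have hFF := h.isFF hirr
  obtain ⟨hne, v0, v1, v2⟩ := h.ne hirr
  -- the point is generic
  have hgen : GenW Q x' := by
    obtain ⟨i, j, hij⟩ := hFF.ind
    have hij' := hij.map' (f := (K1 x).val) (K1 x).val.toRingHom.injective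
    refine GenW.of_trdeg (by rw [heq, st_ee]) (by rw [h0]; exact one_ne_zero) _ hij' fun l => ?_
    have h1 : (fun j => x' j / x' 0) = x' := by
      funext j
      rw [h0, div_one]
    rw [h1]
    fin_cases l
    · exact hmem i
    · exact hmem j
  obtain ⟨φ, hφ⟩ := hgen.exists_phi hFF
  have hφ' : ∀ j, φ (cx x j) = x' j := fun j => by rw [hφ, h0, div_one]
  have hφq : ∀ i, φ (qq Q (cx x) i) = qq Q x' i := by
    intro i
    rw [map_qq]
    congr 1
    funext j
    exact hφ' j
  have hne' : ∀ i, i ≠ 0 → qq Q x' i ≠ 0 := fun i hi => H212.Camp.qq_ne hFF hgen hi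
  have e1 := congrFun heq 1
  have e2 := congrFun heq 2
  have e3 := congrFun heq 3
  change _ = v' 1 * v' 2 + v' 2 * v' 1 at e1
  change _ = v' 0 * v' 2 + v' 2 * v' 0 at e2
  change _ = v' 0 * v' 1 + v' 1 * v' 0 at e3
  have n1 := hne' 1 (by decide)
  have n2 := hne' 2 (by decide)
  have w0 : v' 0 ≠ 0 := by
    intro h0
    apply n2
    rw [e2, h0]
    ring
  have w1 : v' 1 ≠ 0 := by
    intro h0
    apply n1
    rw [e1, h0]
    ring
  have w2 : v' 2 ≠ 0 := by
    intro h0
    apply n1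
    rw [e1, h0]
    ring
  have hval : ∀ i, ((qq Q (cx x) i : K1 x) : E) = qq Q x i := fun i => map_qq Q (K1 x).val (cx x) i
  have hsq := h.sq_eq hirr
  have hv2 : v 0 ^ 2 ∈ K1 x := by
    rw [hsq]
    exact div_mem (mul_mem (qq_mem Q x 2) (qq_mem Q x 3)) (mul_mem (ofNat_mem _ 2) (qq_mem Q x 1))
  obtain ⟨G, hG, hG0⟩ := exists_ext (L := K1 x) hv
    (w := qq Q (cx x) 2 * qq Q (cx x) 3 / (2 * qq Q (cx x) 1)) (by
      rw [hsq]
      push_cast
      rw [hval, hval, hval]
      rfl) (fun t => by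
      obtain ⟨a, b, ha, hb, ht⟩ := h.linear v0 hv2 t
      exact ⟨⟨a, ha⟩, ⟨b, hb⟩, ht⟩) φ (s' := v' 0) (by
      rw [map_div₀, map_mul, map_mul, map_ofNat, hφq, hφq, hφq, e1, e2, e3]
      field_simp
      ring)
  have hGx : ∀ j, G (x j) = x' j := by
    intro j
    rw [← hφ' j, ← hG]
    rfl
  have hGq : ∀ i, G (qq Q x i) = qq Q x' i := by
    intro i
    rw [map_qq]
    congr 1
    funext j
    exact hGx j
  refine ⟨G, hGx, fun j => ?_⟩
  have k2 := congrArg G (congrFun h.eq 2)
  have k3 := congrArg G (congrFun h.eq 3)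
  rw [hGq] at k2 k3
  change qq Q x' 2 = G (v 0 * v 2 + v 2 * v 0) at k2
  change qq Q x' 3 = G (v 0 * v 1 + v 1 * v 0) at k3
  rw [e2, map_add, map_mul, map_mul, hG0] at k2
  rw [e3, map_add, map_mul, map_mul, hG0] at k3
  fin_cases j
  · exact hG0
  · have h5 : 2 * v' 0 * (G (v 1) - v' 1) = 0 := by linear_combination -k3
    exact sub_eq_zero.1 ((mul_eq_zero.1 h5).resolve_left (mul_ne_zero two_ne_zero w0))
  · have h5 : 2 * v' 0 * (G (v 2) - v' 2) = 0 := by linear_combination -k2
    exact sub_eq_zero.1 ((mul_eq_zero.1 h5).resolve_left (mul_ne_zero two_ne_zero w0))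

/-- Homomorphisms of the function field are determined by the values of the generators. -/
theorem IsX.hom_ext (h : IsX Q x v) {N : Type} [Field N] [Algebra ℂ N] {G G' : E →ₐ[ℂ] N}
    (hx : ∀ j, G (x j) = G' (x j)) (hv : ∀ j, G (v j) = G' (v j)) : G = G' := by
  apply AlgHom.ext
  intro s
  have hs : s ∈ adjoin ℂ (Set.range x ∪ Set.range v) := by
    rw [h.top]
    exact mem_top
  refine adjoin_induction (F := ℂ) (s := Set.range x ∪ Set.range v)
    (p := fun s _ => G s = G' s) ?_ ?_ ?_ ?_ ?_ hs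
  · rintro _ (⟨j, rfl⟩ | ⟨j, rfl⟩)
    · exact hx j
    · exact hv j
  · intro c
    rw [G.commutes, G'.commutes]
  · intro s t _ _ h1 h2
    rw [map_add, map_add, h1, h2]
  · intro s _ h1
    rw [map_inv₀, map_inv₀, h1]
  · intro s t _ _ h1 h2
    rw [map_mul, map_mul, h1, h2]

end

end Vale.Agent.P297.C8
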