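import Vale.Agent.P297.H10.Q8Fin
import Vale.Agent.P297.H10.XAut

/-!
The quaternion group acts on the function field of the intersection of the four quadrics.
-/

set_option linter.unusedSectionVars false
set_option linter.unusedSimpArgs false

namespace Vale.Agent.P297.H10

open Vale.Agent.P297 Vale.Agent.P297.C8 IntermediateField

section

variable {a : ℂ} {p q r : Fin 3 → ℂ} {E : Type} [Field E] [Algebra ℂ E] {x : Fin 4 → E}
  {v : Fin 3 → E}

/-- The coordinate `v 0` is not a function on the octic. -/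
theorem v_notMem (hirr : Irreducible (octic (webQ a p q r))) (hX : IsX (webQ a p q r) x v) :
    v 0 ∉ K1 x := by
  intro hv
  have hFF := hX.isFF hirr
  obtain ⟨hne, v0, v1, v2⟩ := hX.ne hirr
  set c := cx x with hc
  let o : Fin 4 → K1 x := ![1, -c 1, c 2, -c 3]
  have hq : ∀ i, qq (webQ a p q r) o i = ![-qq (webQ a p q r) c 0, -qq (webQ a p q r) c 1,
      qq (webQ a p q r) c 2, qq (webQ a p q r) c 3] i := by
    intro i
    have c0 : c 0 = 1 := hFF.one
    rw [qq_webQ, qq_webQ]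
    fin_cases i
    · change _ * (2 * (1 * (-c 3) - (-c 1) * c 2)) = -(_ * (2 * (c 0 * c 3 - c 1 * c 2)))
      rw [c0]
      ring
    · change 2 * (_ * (1 * (-c 1)) + _ * (1 * (-c 3) + (-c 1) * c 2) + _ * (c 2 * (-c 3))) =
        -(2 * (_ * (c 0 * c 1) + _ * (c 0 * c 3 + c 1 * c 2) + _ * (c 2 * c 3)))
      rw [c0]
      ring
    · change _ * (1 ^ 2 + (-c 1) ^ 2) + 2 * _ * (1 * c 2 + (-c 1) * (-c 3)) +
        _ * (c 2 ^ 2 + (-c 3) ^ 2) = _ * (c 0 ^ 2 + c 1 ^ 2) + 2 * _ * (c 0 * c 2 + c 1 * c 3) +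
        _ * (c 2 ^ 2 + c 3 ^ 2)
      rw [c0]
      ring
    · change _ * (1 ^ 2 - (-c 1) ^ 2) + 2 * _ * (1 * c 2 - (-c 1) * (-c 3)) +
        _ * (c 2 ^ 2 - (-c 3) ^ 2) = _ * (c 0 ^ 2 - c 1 ^ 2) + 2 * _ * (c 0 * c 2 - c 1 * c 3) +
        _ * (c 2 ^ 2 - c 3 ^ 2)
      rw [c0]
      ring
  have hst : st (qq (webQ a p q r) o) = 0 := by
    rw [← hFF.zero]
    unfold st
    rw [hq, hq, hq, hq]
    change qq (webQ a p q r) c 2 ^ 2 * qq (webQ a p q r) c 3 ^ 2 +
      (-qq (webQ a p q r) c 1) ^ 2 * qq (webQ a p q r) c 3 ^ 2 +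
      (-qq (webQ a p q r) c 1) ^ 2 * qq (webQ a p q r) c 2 ^ 2 -
      2 * (-qq (webQ a p q r) c 0 * -qq (webQ a p q r) c 1 * qq (webQ a p q r) c 2 *
        qq (webQ a p q r) c 3) = _
    ring
  have mo : ∀ j, o j ∈ adjoin ℂ (Set.range o) := fun j => subset_adjoin ℂ _ ⟨j, rfl⟩
  obtain ⟨φ, hφ⟩ := IsFF.exists_hom hFF (o := o) rfl hst (by
    intro j
    fin_cases j
    · change c 0 ∈ _
      rw [show c 0 = 1 from hFF.one]
      exact one_mem _
    · have h1 := neg_mem (mo 1)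
      have h2 : -o 1 = c 1 := neg_neg (c 1)
      rw [h2] at h1
      exact h1
    · exact mo 2
    · have h1 := neg_mem (mo 3)
      have h2 : -o 3 = c 3 := neg_neg (c 3)
      rw [h2] at h1
      exact h1)
  have hφ2 : φ.comp φ = AlgHom.id ℂ (K1 x) := by
    refine phi_ext hFF fun j => ?_
    change φ (φ (c j)) = c j
    rw [hφ]
    fin_cases j
    · change φ 1 = c 0
      rw [map_one]
      exact hFF.one.symm
    · change φ (-c 1) = c 1
      rw [map_neg, hφ]
      exact neg_neg (c 1)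
    · change φ (c 2) = c 2
      rw [hφ]
      rfl
    · change φ (-c 3) = c 3
      rw [map_neg, hφ]
      exact neg_neg (c 3)
  have hφq : ∀ i, φ (qq (webQ a p q r) c i) = qq (webQ a p q r) o i := by
    intro i
    rw [map_qq]
    congr 1
    funext j
    exact hφ j
  have hval : ∀ i, ((qq (webQ a p q r) c i : K1 x) : E) = qq (webQ a p q r) x i :=
    fun i => map_qq _ (K1 x).val (cx x) i
  obtain ⟨s, hs⟩ : ∃ s : K1 x, (s : E) = v 0 := ⟨⟨v 0, hv⟩, rfl⟩
  have hne1 : qq (webQ a p q r) c 1 ≠ 0 := by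
    intro h
    apply hne 1 (by decide)
    rw [← hval, h]
    rfl
  have : CharZero (K1 x) := charZero_of_injective_algebraMap (algebraMap ℂ (K1 x)).injective
  have hs2 : s ^ 2 = qq (webQ a p q r) c 2 * qq (webQ a p q r) c 3 /
      (2 * qq (webQ a p q r) c 1) := by
    apply Subtype.ext
    push_cast
    rw [hs, hval, hval, hval, hX.sq_eq hirr]
    rfl
  have hs3 : φ s ^ 2 = -s ^ 2 := by
    rw [← map_pow, hs2, map_div₀, map_mul, map_mul, map_ofNat, hφq, hφq, hφq, hq, hq, hq]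
    change qq (webQ a p q r) c 2 * qq (webQ a p q r) c 3 / (2 * -qq (webQ a p q r) c 1) =
      -(qq (webQ a p q r) c 2 * qq (webQ a p q r) c 3 / (2 * qq (webQ a p q r) c 1))
    field_simp
  have hI : algebraMap ℂ (K1 x) Complex.I * algebraMap ℂ (K1 x) Complex.I = -1 := by
    rw [← map_mul, Complex.I_mul_I, map_neg, map_one]
  obtain ⟨k, hk, hk'⟩ : ∃ k : ℂ, algebraMap ℂ (K1 x) k * algebraMap ℂ (K1 x) k = -1 ∧
      φ s = algebraMap ℂ (K1 x) k * s := by
    have h1 : (φ s - algebraMap ℂ (K1 x) Complex.I * s) *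
        (φ s + algebraMap ℂ (K1 x) Complex.I * s) = 0 := by
      linear_combination hs3 - s ^ 2 * hI
    rcases mul_eq_zero.1 h1 with h2 | h2
    · exact ⟨Complex.I, hI, sub_eq_zero.1 h2⟩
    · refine ⟨-Complex.I, ?_, ?_⟩
      · rw [map_neg]
        linear_combination hI
      · rw [map_neg]
        linear_combination h2
  have h5 : φ (φ s) = s := DFunLike.congr_fun hφ2 s
  rw [hk', map_mul, φ.commutes, hk', ← mul_assoc, hk] at h5
  have h6 : s = 0 := by
    have h7 : (2 : K1 x) * s = 0 := by linear_combination -h5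
    exact (mul_eq_zero.1 h7).resolve_left two_ne_zero
  apply v0
  rw [← hs, h6]
  rfl

theorem aut_of_hom (hX : IsX (webQ a p q r) x v) (G : E →ₐ[ℂ] E) (h1 : ∀ j, G (G (x j)) = x j)
    (h2 : ∀ j, G (G (v j)) = -v j) : ∃ G' : E ≃ₐ[ℂ] E, ∀ s, G' s = G s := by
  have h4 : (G.comp G).comp (G.comp G) = AlgHom.id ℂ E := by
    refine hX.hom_ext (fun j => ?_) (fun j => ?_)
    · change G (G (G (G (x j)))) = x j
      rw [h1, h1]
    · change G (G (G (G (v j)))) = v j
      rw [h2, map_neg, map_neg, h2, neg_neg]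
  refine ⟨AlgEquiv.ofAlgHom G (G.comp (G.comp G)) ?_ ?_, fun s => rfl⟩
  · exact h4
  · exact h4

/-- **The quaternion group acts on the function field.** -/
theorem exists_act (hirr : Irreducible (octic (webQ a p q r))) (hX : IsX (webQ a p q r) x v) :
    ∃ G₁ G₂ : E ≃ₐ[ℂ] E, ActX x v G₁ G₂ := by
  have hFF := hX.isFF hirr
  have hgen : GenW (webQ a p q r) (cx x) := GenW.of_phi hFF (AlgHom.id ℂ (K1 x))
  have x1 : x 1 ≠ 0 := by
    intro h0
    exact coord_ne hirr hgen 1 (Subtype.ext h0)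
  have hv := v_notMem hirr hX
  have x0 := hX.one
  have hI : algebraMap ℂ E Complex.I * algebraMap ℂ E Complex.I = -1 := by
    rw [← map_mul, Complex.I_mul_I, map_neg, map_one]
  have A := congrFun hX.eq 0
  have B := congrFun hX.eq 1
  have C := congrFun hX.eq 2
  have D := congrFun hX.eq 3
  rw [qq_webQ] at A B C D
  change algebraMap ℂ E a * (2 * (x 0 * x 3 - x 1 * x 2)) = v 0 * v 0 + v 1 * v 1 + v 2 * v 2 at A
  change 2 * (algebraMap ℂ E (p 0) * (x 0 * x 1) + algebraMap ℂ E (q 0) * (x 0 * x 3 + x 1 * x 2) +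
    algebraMap ℂ E (r 0) * (x 2 * x 3)) = v 1 * v 2 + v 2 * v 1 at B
  change algebraMap ℂ E (p 1) * (x 0 ^ 2 + x 1 ^ 2) + 2 * algebraMap ℂ E (q 1) *
    (x 0 * x 2 + x 1 * x 3) + algebraMap ℂ E (r 1) * (x 2 ^ 2 + x 3 ^ 2) =
    v 0 * v 2 + v 2 * v 0 at C
  change algebraMap ℂ E (p 2) * (x 0 ^ 2 - x 1 ^ 2) + 2 * algebraMap ℂ E (q 2) *
    (x 0 * x 2 - x 1 * x 3) + algebraMap ℂ E (r 2) * (x 2 ^ 2 - x 3 ^ 2) =
    v 0 * v 1 + v 1 * v 0 at D
  rw [x0] at A B C D
  set I := algebraMap ℂ E Complex.I with hIdef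
  -- the first automorphism
  obtain ⟨G₁, g1, g2⟩ := hX.exists_hom hirr hv (x' := ![1, -x 1, x 2, -x 3])
    (v' := ![-(I * v 0), I * v 1, I * v 2]) rfl (by
      rw [qq_webQ]
      funext i
      fin_cases i
      · change algebraMap ℂ E a * (2 * (1 * -x 3 - -x 1 * x 2)) =
          -(I * v 0) * -(I * v 0) + I * v 1 * (I * v 1) + I * v 2 * (I * v 2)
        linear_combination -A - (v 0 ^ 2 + v 1 ^ 2 + v 2 ^ 2) * hI
      · change 2 * (algebraMap ℂ E (p 0) * (1 * -x 1) + algebraMap ℂ E (q 0) *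
          (1 * -x 3 + -x 1 * x 2) + algebraMap ℂ E (r 0) * (x 2 * -x 3)) =
          I * v 1 * (I * v 2) + I * v 2 * (I * v 1)
        linear_combination -B - (2 * v 1 * v 2) * hI
      · change algebraMap ℂ E (p 1) * (1 ^ 2 + (-x 1) ^ 2) + 2 * algebraMap ℂ E (q 1) *
          (1 * x 2 + -x 1 * -x 3) + algebraMap ℂ E (r 1) * (x 2 ^ 2 + (-x 3) ^ 2) =
          -(I * v 0) * (I * v 2) + I * v 2 * -(I * v 0)
        linear_combination C + (2 * v 0 * v 2) * hI
      · change algebraMap ℂ E (p 2) * (1 ^ 2 - (-x 1) ^ 2) + 2 * algebraMap ℂ E (q 2) *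
          (1 * x 2 - -x 1 * -x 3) + algebraMap ℂ E (r 2) * (x 2 ^ 2 - (-x 3) ^ 2) =
          -(I * v 0) * (I * v 1) + I * v 1 * -(I * v 0)
        linear_combination D + (2 * v 0 * v 1) * hI) (by
      have mo : ∀ j : Fin 4, (![1, -x 1, x 2, -x 3] : Fin 4 → E) j ∈
          adjoin ℂ (Set.range ![1, -x 1, x 2, -x 3]) := fun j => subset_adjoin ℂ _ ⟨j, rfl⟩
      intro j
      fin_cases j
      · change x 0 ∈ _
        rw [x0]
        exact one_mem _
      · have h1 := neg_mem (mo 1)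
        change - -x 1 ∈ _ at h1
        rw [neg_neg] at h1
        exact h1
      · exact mo 2
      · have h1 := neg_mem (mo 3)
        change - -x 3 ∈ _ at h1
        rw [neg_neg] at h1
        exact h1)
  have g1x1 : G₁ (x 1) = -x 1 := g1 1
  have g1x2 : G₁ (x 2) = x 2 := g1 2
  have g1x3 : G₁ (x 3) = -x 3 := g1 3
  have g1v0 : G₁ (v 0) = -(I * v 0) := g2 0
  have g1v1 : G₁ (v 1) = I * v 1 := g2 1
  have g1v2 : G₁ (v 2) = I * v 2 := g2 2
  have g1I : G₁ I = I := G₁.commutes _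
  obtain ⟨H₁, k1⟩ := aut_of_hom hX G₁ (fun j => by
    fin_cases j
    · change G₁ (G₁ (x 0)) = x 0
      rw [x0, map_one, map_one]
    · change G₁ (G₁ (x 1)) = x 1
      rw [g1x1, map_neg, g1x1, neg_neg]
    · change G₁ (G₁ (x 2)) = x 2
      rw [g1x2, g1x2]
    · change G₁ (G₁ (x 3)) = x 3
      rw [g1x3, map_neg, g1x3, neg_neg]) (fun j => by
    fin_cases j
    · change G₁ (G₁ (v 0)) = -v 0
      rw [g1v0, map_neg, map_mul, g1v0, g1I]
      linear_combination v 0 * hI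
    · change G₁ (G₁ (v 1)) = -v 1
      rw [g1v1, map_mul, g1v1, g1I]
      linear_combination v 1 * hI
    · change G₁ (G₁ (v 2)) = -v 2
      rw [g1v2, map_mul, g1v2, g1I]
      linear_combination v 2 * hI)
  -- the second automorphism
  obtain ⟨G₂, f1, f2⟩ := hX.exists_hom hirr hv
    (x' := ![1, -(x 1)⁻¹, x 3 / x 1, -(x 2 / x 1)])
    (v' := ![-(v 0 / x 1), v 1 / x 1, -(v 2 / x 1)]) rfl (by
      rw [qq_webQ]
      funext i
      fin_cases i
      · change algebraMap ℂ E a * (2 * (1 * -(x 2 / x 1) - -(x 1)⁻¹ * (x 3 / x 1))) =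
          -(v 0 / x 1) * -(v 0 / x 1) + v 1 / x 1 * (v 1 / x 1) + -(v 2 / x 1) * -(v 2 / x 1)
        field_simp
        linear_combination A
      · change 2 * (algebraMap ℂ E (p 0) * (1 * -(x 1)⁻¹) + algebraMap ℂ E (q 0) *
          (1 * -(x 2 / x 1) + -(x 1)⁻¹ * (x 3 / x 1)) +
          algebraMap ℂ E (r 0) * (x 3 / x 1 * -(x 2 / x 1))) =
          v 1 / x 1 * -(v 2 / x 1) + -(v 2 / x 1) * (v 1 / x 1)
        field_simp
        linear_combination -B
      · change algebraMap ℂ E (p 1) * (1 ^ 2 + (-(x 1)⁻¹) ^ 2) + 2 * algebraMap ℂ E (q 1) *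
          (1 * (x 3 / x 1) + -(x 1)⁻¹ * -(x 2 / x 1)) +
          algebraMap ℂ E (r 1) * ((x 3 / x 1) ^ 2 + (-(x 2 / x 1)) ^ 2) =
          -(v 0 / x 1) * -(v 2 / x 1) + -(v 2 / x 1) * -(v 0 / x 1)
        field_simp
        linear_combination C
      · change algebraMap ℂ E (p 2) * (1 ^ 2 - (-(x 1)⁻¹) ^ 2) + 2 * algebraMap ℂ E (q 2) *
          (1 * (x 3 / x 1) - -(x 1)⁻¹ * -(x 2 / x 1)) +
          algebraMap ℂ E (r 2) * ((x 3 / x 1) ^ 2 - (-(x 2 / x 1)) ^ 2) =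
          -(v 0 / x 1) * (v 1 / x 1) + v 1 / x 1 * -(v 0 / x 1)
        field_simp
        linear_combination -D) (by
      have mo : ∀ j : Fin 4, (![1, -(x 1)⁻¹, x 3 / x 1, -(x 2 / x 1)] : Fin 4 → E) j ∈
          adjoin ℂ (Set.range ![1, -(x 1)⁻¹, x 3 / x 1, -(x 2 / x 1)]) :=
        fun j => subset_adjoin ℂ _ ⟨j, rfl⟩
      have m1 : x 1 ∈ adjoin ℂ (Set.range ![1, -(x 1)⁻¹, x 3 / x 1, -(x 2 / x 1)]) := by
        have h1 := inv_mem (neg_mem (mo 1))
        change (- -(x 1)⁻¹)⁻¹ ∈ _ at h1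
        rw [neg_neg, inv_inv] at h1
        exact h1
      intro j
      fin_cases j
      · change x 0 ∈ _
        rw [x0]
        exact one_mem _
      · exact m1
      · have h1 := mul_mem (neg_mem (mo 3)) m1
        change - -(x 2 / x 1) * x 1 ∈ _ at h1
        rw [neg_neg, div_mul_cancel₀ _ x1] at h1
        exact h1
      · have h1 := mul_mem (mo 2) m1
        change x 3 / x 1 * x 1 ∈ _ at h1
        rw [div_mul_cancel₀ _ x1] at h1
        exact h1)
  have f1x1 : G₂ (x 1) = -(x 1)⁻¹ := f1 1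
  have f1x2 : G₂ (x 2) = x 3 / x 1 := f1 2
  have f1x3 : G₂ (x 3) = -(x 2 / x 1) := f1 3
  have f1v0 : G₂ (v 0) = -(v 0 / x 1) := f2 0
  have f1v1 : G₂ (v 1) = v 1 / x 1 := f2 1
  have f1v2 : G₂ (v 2) = -(v 2 / x 1) := f2 2
  obtain ⟨H₂, k2⟩ := aut_of_hom hX G₂ (fun j => by
    fin_cases j
    · change G₂ (G₂ (x 0)) = x 0
      rw [x0, map_one, map_one]
    · change G₂ (G₂ (x 1)) = x 1
      rw [f1x1, map_neg, map_inv₀, f1x1]
      field_simp
    · change G₂ (G₂ (x 2)) = x 2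
      rw [f1x2, map_div₀, f1x1, f1x3]
      field_simp
    · change G₂ (G₂ (x 3)) = x 3
      rw [f1x3, map_neg, map_div₀, f1x1, f1x2]
      field_simp) (fun j => by
    fin_cases j
    · change G₂ (G₂ (v 0)) = -v 0
      rw [f1v0, map_neg, map_div₀, f1x1, f1v0]
      field_simp
    · change G₂ (G₂ (v 1)) = -v 1
      rw [f1v1, map_div₀, f1x1, f1v1]
      field_simp
    · change G₂ (G₂ (v 2)) = -v 2
      rw [f1v2, map_neg, map_div₀, f1x1, f1v2]
      field_simp)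
  exact ⟨H₁, H₂, (k1 _).trans g1x1, (k1 _).trans g1x2, (k1 _).trans g1x3, (k1 _).trans g1v0,
    (k1 _).trans g1v1, (k1 _).trans g1v2, (k2 _).trans f1x1, (k2 _).trans f1x2,
    (k2 _).trans f1x3, (k2 _).trans f1v0, (k2 _).trans f1v1, (k2 _).trans f1v2⟩

/-- **Bloch's conjecture** for the quotients of the smooth intersections of four quadrics by the
quaternion group, with the automorphisms. -/
theorem bloch_Q8_exists (hs : SmoothX (webQ a p q r)) (hX : IsX (webQ a p q r) x v) :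
    ∃ G₁ G₂ : E ≃ₐ[ℂ] E, ActX x v G₁ G₂ ∧ H839.PointsEquivalent
      (IntermediateField.fixedField (F := ℂ) (Subgroup.closure {G₁, G₂})) := by
  obtain ⟨G₁, G₂, hG⟩ := exists_act (hs.irreducible (webQ_symm a p q r) hs.noBase) hX
  exact ⟨G₁, G₂, hG, bloch_Q8_smooth hs hX hG⟩

end

end Vale.Agent.P297.H10
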