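import Vale.Agent.P297.H10.Hact
import Vale.Agent.P297.H10.Cond
import Vale.Agent.P297.H72.Camp8

/-!
The web with an action of the quaternion group: base points, special points, and the points of the
quotient.
-/

set_option linter.unusedSectionVars false
set_option linter.unusedSimpArgs false

namespace Vale.Agent.P297.H10

open Vale.Agent.P297 Vale.Agent.P297.Gen Vale.Agent.P297.G4 Vale.Agent.P297.C8
open Vale.Agent.P297.H637 Vale.Agent.P297.Z3 Polynomial

/-- Two binary quadratic forms with vanishing resultant have a common zero. -/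
theorem common_zero {p q r p' q' r' : ℂ}
    (h : (p * r' + p' * r - 2 * (q * q')) ^ 2 - 4 * (p * r - q ^ 2) * (p' * r' - q' ^ 2) = 0) :
    ∃ k l : ℂ, (k ≠ 0 ∨ l ≠ 0) ∧ p * k ^ 2 + 2 * q * (k * l) + r * l ^ 2 = 0 ∧
      p' * k ^ 2 + 2 * q' * (k * l) + r' * l ^ 2 = 0 := by
  have key : ∀ {p q r p' q' r' : ℂ}, p ≠ 0 →
      (p * r' + p' * r - 2 * (q * q')) ^ 2 - 4 * (p * r - q ^ 2) * (p' * r' - q' ^ 2) = 0 →
      ∃ k l : ℂ, (k ≠ 0 ∨ l ≠ 0) ∧ p * k ^ 2 + 2 * q * (k * l) + r * l ^ 2 = 0 ∧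
        p' * k ^ 2 + 2 * q' * (k * l) + r' * l ^ 2 = 0 := by
    intro p q r p' q' r' hp h
    obtain ⟨δ, hδ⟩ := IsAlgClosed.exists_pow_nat_eq (q ^ 2 - p * r) two_pos
    have h1 : (p' * (-q + δ) ^ 2 + 2 * q' * ((-q + δ) * p) + r' * p ^ 2) *
        (p' * (-q - δ) ^ 2 + 2 * q' * ((-q - δ) * p) + r' * p ^ 2) = 0 := by
      linear_combination p ^ 2 * h + (p' ^ 2 * (δ ^ 2 - q ^ 2) - p' ^ 2 * p * r + 
        2 * p' * r' * p ^ 2 + 4 * q * q' * p * p' - 4 * q' ^ 2 * p ^ 2) * hδ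
    rcases mul_eq_zero.1 h1 with h2 | h2
    · refine ⟨-q + δ, p, Or.inr hp, ?_, h2⟩
      linear_combination p * hδ
    · refine ⟨-q - δ, p, Or.inr hp, ?_, h2⟩
      linear_combination p * hδ
  by_cases hp : p = 0
  · by_cases hp' : p' = 0
    · refine ⟨1, 0, Or.inl one_ne_zero, ?_, ?_⟩
      · rw [hp]
        ring
      · rw [hp']
        ring
    · obtain ⟨k, l, hkl, h1, h2⟩ := key (p := p') (q := q') (r := r') (p' := p) (q' := q)
        (r' := r) hp' (by linear_combination h)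
      exact ⟨k, l, hkl, h2, h1⟩
  · exact key hp h

section

variable {a : ℂ} {p q r : Fin 3 → ℂ}

theorem qq_webQ {R : Type} [Field R] [Algebra ℂ R] (a : ℂ) (p q r : Fin 3 → ℂ) (u : Fin 4 → R) :
    qq (webQ a p q r) u =
      ![algebraMap ℂ R a * (2 * (u 0 * u 3 - u 1 * u 2)),
        2 * (algebraMap ℂ R (p 0) * (u 0 * u 1) +
          algebraMap ℂ R (q 0) * (u 0 * u 3 + u 1 * u 2) +
          algebraMap ℂ R (r 0) * (u 2 * u 3)),
        algebraMap ℂ R (p 1) * (u 0 ^ 2 + u 1 ^ 2) +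
          2 * algebraMap ℂ R (q 1) * (u 0 * u 2 + u 1 * u 3) +
          algebraMap ℂ R (r 1) * (u 2 ^ 2 + u 3 ^ 2),
        algebraMap ℂ R (p 2) * (u 0 ^ 2 - u 1 ^ 2) +
          2 * algebraMap ℂ R (q 2) * (u 0 * u 2 - u 1 * u 3) +
          algebraMap ℂ R (r 2) * (u 2 ^ 2 - u 3 ^ 2)] := by
  rw [qq, qb_webQ]
  funext i
  fin_cases i
  · change algebraMap ℂ R a * _ = algebraMap ℂ R a * _
    ring
  · change algebraMap ℂ R (p 0) * _ + algebraMap ℂ R (q 0) * _ + algebraMap ℂ R (r 0) * _ =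
      2 * (algebraMap ℂ R (p 0) * _ + algebraMap ℂ R (q 0) * _ + algebraMap ℂ R (r 0) * _)
    ring
  · change algebraMap ℂ R (p 1) * _ + algebraMap ℂ R (q 1) * _ + algebraMap ℂ R (r 1) * _ =
      algebraMap ℂ R (p 1) * _ + 2 * algebraMap ℂ R (q 1) * _ + algebraMap ℂ R (r 1) * _
    ring
  · change algebraMap ℂ R (p 2) * _ + algebraMap ℂ R (q 2) * _ + algebraMap ℂ R (r 2) * _ =
      algebraMap ℂ R (p 2) * _ + 2 * algebraMap ℂ R (q 2) * _ + algebraMap ℂ R (r 2) * _
    ring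

/-- A web without base points: the first resultant. -/
theorem res01 (h : NoBase (webQ a p q r)) :
    Dm p q r 0 1 ^ 2 - 4 * Ds p q r 0 * Ds p q r 1 ≠ 0 := by
  intro h0
  obtain ⟨k, l, hkl, h1, h2⟩ := common_zero (p := p 0) (q := q 0) (r := r 0) (p' := p 1)
    (q' := q 1) (r' := r 1) (by simpa only [Dm, Ds] using h0)
  have h3 := h ![k, k, l, l] (by
    rw [qq_webQ]
    funext i
    fin_cases i
    · change algebraMap ℂ ℂ a * (2 * (k * l - k * l)) = 0
      ring
    · change 2 * (p 0 * (k * k) + q 0 * (k * l + k * l) + r 0 * (l * l)) = 0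
      linear_combination 2 * h1
    · change p 1 * (k ^ 2 + k ^ 2) + 2 * q 1 * (k * l + k * l) + r 1 * (l ^ 2 + l ^ 2) = 0
      linear_combination 2 * h2
    · change p 2 * (k ^ 2 - k ^ 2) + 2 * q 2 * (k * l - k * l) + r 2 * (l ^ 2 - l ^ 2) = 0
      ring)
  rcases hkl with hk | hl
  · exact hk (congrFun h3 0)
  · exact hl (congrFun h3 2)

/-- A web without base points: the second resultant. -/
theorem res02 (h : NoBase (webQ a p q r)) :
    Dm p q r 0 2 ^ 2 - 4 * Ds p q r 0 * Ds p q r 2 ≠ 0 := by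
  intro h0
  obtain ⟨k, l, hkl, h1, h2⟩ := common_zero (p := p 0) (q := q 0) (r := r 0) (p' := p 2)
    (q' := q 2) (r' := r 2) (by simpa only [Dm, Ds] using h0)
  have hI := Complex.I_sq
  have h3 := h ![Complex.I * k, k, Complex.I * l, l] (by
    rw [qq_webQ]
    funext i
    fin_cases i
    · change algebraMap ℂ ℂ a * (2 * (Complex.I * k * l - k * (Complex.I * l))) = 0
      ring
    · change 2 * (p 0 * (Complex.I * k * k) + q 0 * (Complex.I * k * l + k * (Complex.I * l)) +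
        r 0 * (Complex.I * l * l)) = 0
      linear_combination 2 * Complex.I * h1
    · change p 1 * ((Complex.I * k) ^ 2 + k ^ 2) + 2 * q 1 * (Complex.I * k * (Complex.I * l) +
        k * l) + r 1 * ((Complex.I * l) ^ 2 + l ^ 2) = 0
      linear_combination (p 1 * k ^ 2 + 2 * q 1 * (k * l) + r 1 * l ^ 2) * hI
    · change p 2 * ((Complex.I * k) ^ 2 - k ^ 2) + 2 * q 2 * (Complex.I * k * (Complex.I * l) -
        k * l) + r 2 * ((Complex.I * l) ^ 2 - l ^ 2) = 0
      linear_combination (p 2 * k ^ 2 + 2 * q 2 * (k * l) + r 2 * l ^ 2) * hI - 2 * h2)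
  rcases hkl with hk | hl
  · exact hk (congrFun h3 1)
  · exact hl (congrFun h3 3)

/-- Three points with the same values. -/
theorem three_webQ (a : ℂ) (p q r : Fin 3 → ℂ) : ∃ o : Fin 4 → ℂ, Three (webQ a p q r) o := by
  have hI := Complex.I_sq
  have key : ∀ (k : Fin 4) (o : Fin 4 → ℂ), (∀ i : Fin 3, qq (webQ a p q r) o i.succ = 0) →
      qq (webQ a p q r) ((hm ℂ k).mulVec o) = qq (webQ a p q r) o := by
    intro k o ho
    funext i
    rw [qq_hm]
    refine Fin.cases ?_ (fun j => ?_) i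
    · have : ep ℂ k 0 = 1 := by fin_cases k <;> rfl
      rw [this, one_mul]
    · rw [ho j, mul_zero]
  have nz : ∀ o : Fin 4 → ℂ, o 0 = 0 → o 1 = 0 → o 2 = 0 → o 3 = 0 → o = 0 := by
    intro o h0 h1 h2 h3
    funext i
    fin_cases i
    · exact h0
    · exact h1
    · exact h2
    · exact h3
  refine three_of_maps (fun o => (hm ℂ 1).mulVec o) (fun o => (hm ℂ 2).mulVec o) (key 1) (key 2)
    ?_ ?_ ?_ ?_ ?_ ?_
  · intro o ho h
    apply ho
    simp only [hm_one] at h
    have h0 : Complex.I * o 0 = o 0 := congrFun h 0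
    have h1 : -(Complex.I * o 1) = o 1 := congrFun h 1
    have h2 : Complex.I * o 2 = o 2 := congrFun h 2
    have h3 : -(Complex.I * o 3) = o 3 := congrFun h 3
    apply nz
    · linear_combination -(1 / 2) * (Complex.I + 1) * h0 + (1 / 2) * o 0 * hI
    · linear_combination (1 / 2) * (Complex.I - 1) * h1 + (1 / 2) * o 1 * hI
    · linear_combination -(1 / 2) * (Complex.I + 1) * h2 + (1 / 2) * o 2 * hI
    · linear_combination (1 / 2) * (Complex.I - 1) * h3 + (1 / 2) * o 3 * hI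
  · intro o ho h
    apply ho
    simp only [hm_one] at h
    have h0 : Complex.I * o 0 = -o 0 := congrFun h 0
    have h1 : -(Complex.I * o 1) = -o 1 := congrFun h 1
    have h2 : Complex.I * o 2 = -o 2 := congrFun h 2
    have h3 : -(Complex.I * o 3) = -o 3 := congrFun h 3
    apply nz
    · linear_combination -(1 / 2) * (Complex.I - 1) * h0 + (1 / 2) * o 0 * hI
    · linear_combination (1 / 2) * (Complex.I + 1) * h1 + (1 / 2) * o 1 * hI
    · linear_combination -(1 / 2) * (Complex.I - 1) * h2 + (1 / 2) * o 2 * hI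
    · linear_combination (1 / 2) * (Complex.I + 1) * h3 + (1 / 2) * o 3 * hI
  · intro o ho h
    apply ho
    simp only [hm_two] at h
    have h0 : o 1 = o 0 := congrFun h 0
    have h1 : -o 0 = o 1 := congrFun h 1
    have h2 : o 3 = o 2 := congrFun h 2
    have h3 : -o 2 = o 3 := congrFun h 3
    apply nz
    · linear_combination -(1 / 2) * h0 - (1 / 2) * h1
    · linear_combination (1 / 2) * h0 - (1 / 2) * h1
    · linear_combination -(1 / 2) * h2 - (1 / 2) * h3
    · linear_combination (1 / 2) * h2 - (1 / 2) * h3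
  · intro o ho h
    apply ho
    simp only [hm_two] at h
    have h0 : o 1 = -o 0 := congrFun h 0
    have h1 : -o 0 = -o 1 := congrFun h 1
    have h2 : o 3 = -o 2 := congrFun h 2
    have h3 : -o 2 = -o 3 := congrFun h 3
    apply nz
    · linear_combination (1 / 2) * h0 - (1 / 2) * h1
    · linear_combination (1 / 2) * h0 + (1 / 2) * h1
    · linear_combination (1 / 2) * h2 - (1 / 2) * h3
    · linear_combination (1 / 2) * h2 + (1 / 2) * h3
  · intro o ho h
    apply ho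
    simp only [hm_one, hm_two] at h
    have h0 : o 1 = Complex.I * o 0 := congrFun h 0
    have h1 : -o 0 = -(Complex.I * o 1) := congrFun h 1
    have h2 : o 3 = Complex.I * o 2 := congrFun h 2
    have h3 : -o 2 = -(Complex.I * o 3) := congrFun h 3
    have k0 : o 0 = 0 := by
      linear_combination (1 / 2) * Complex.I * h0 - (1 / 2) * h1 + (1 / 2) * o 0 * hI
    have k2 : o 2 = 0 := by
      linear_combination (1 / 2) * Complex.I * h2 - (1 / 2) * h3 + (1 / 2) * o 2 * hI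
    apply nz _ k0 _ k2
    · rw [h2, k2, mul_zero]
    · rw [h0, k0, mul_zero]
  · intro o ho h
    apply ho
    simp only [hm_one, hm_two] at h
    have h0 : o 1 = -(Complex.I * o 0) := congrFun h 0
    have h1 : -o 0 = -(-(Complex.I * o 1)) := congrFun h 1
    have h2 : o 3 = -(Complex.I * o 2) := congrFun h 2
    have h3 : -o 2 = -(-(Complex.I * o 3)) := congrFun h 3
    have k0 : o 0 = 0 := by
      linear_combination -(1 / 2) * Complex.I * h0 - (1 / 2) * h1 + (1 / 2) * o 0 * hI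
    have k2 : o 2 = 0 := by
      linear_combination -(1 / 2) * Complex.I * h2 - (1 / 2) * h3 + (1 / 2) * o 2 * hI
    apply nz _ k0 _ k2
    · rw [h2, k2, mul_zero, neg_zero]
    · rw [h0, k0, mul_zero, neg_zero]

end

section

variable {K₁ N : Type} [Field K₁] [Algebra ℂ K₁] [Field N] [Algebra ℂ N]
variable {a : ℂ} {p q r : Fin 3 → ℂ} {x : Fin 4 → K₁}

/-- Two automorphisms of the function field of the octic that act as the quaternion group. -/
structure ActQ (x : Fin 4 → K₁) (g₁ g₂ : K₁ ≃ₐ[ℂ] K₁) : Prop where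
  a1 : g₁ (x 1) = -x 1
  a2 : g₁ (x 2) = x 2
  a3 : g₁ (x 3) = -x 3
  b1 : g₂ (x 1) = -(x 1)⁻¹
  b2 : g₂ (x 2) = x 3 / x 1
  b3 : g₂ (x 3) = -(x 2 / x 1)

theorem coord_ne (hirr : Irreducible (octic (webQ a p q r))) {o : Fin 4 → N}
    (ho : GenW (webQ a p q r) o) (j : Fin 4) : o j ≠ 0 := by
  have h := ho.aeval_ne_zero hirr (MvPolynomial.isHomogeneous_X ℂ j) (by norm_num)
    (MvPolynomial.X_ne_zero j)
  rwa [MvPolynomial.aeval_X] at h

/-- The automorphisms of the group. -/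
def gk (g₁ g₂ : K₁ ≃ₐ[ℂ] K₁) : Fin 4 → (K₁ ≃ₐ[ℂ] K₁) := ![1, g₁, g₂, g₁ * g₂]

theorem ActQ.comp (hx : C8.IsFF (webQ a p q r) x) {g₁ g₂ : K₁ ≃ₐ[ℂ] K₁} (h : ActQ x g₁ g₂)
    (k : Fin 4) {o : Fin 4 → N} (ho : GenW (webQ a p q r) o) (φ : K₁ →ₐ[ℂ] N)
    (hφ : ∀ j, φ (x j) = o j / o 0) (j : Fin 4) :
    φ (gk g₁ g₂ k (x j)) = (hm N k).mulVec o j / (hm N k).mulVec o 0 := by
  have o0 := coord_ne hx.irr ho 0
  have o1 := coord_ne hx.irr ho 1
  have hI : algebraMap ℂ N Complex.I ≠ 0 := by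
    rw [Ne, map_eq_zero_iff _ (algebraMap ℂ N).injective]
    exact Complex.I_ne_zero
  have f0 : φ (x 0) = 1 := by rw [hx.one, map_one]
  fin_cases k
  · change φ (x j) = (hm N 0).mulVec o j / (hm N 0).mulVec o 0
    rw [hm_zero]
    exact hφ j
  · change φ (g₁ (x j)) = (hm N 1).mulVec o j / (hm N 1).mulVec o 0
    rw [hm_one]
    fin_cases j
    · change φ (g₁ (x 0)) = (algebraMap ℂ N Complex.I * o 0) / (algebraMap ℂ N Complex.I * o 0)
      rw [hx.one, map_one, map_one, div_self (mul_ne_zero hI o0)]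
    · change φ (g₁ (x 1)) = (-(algebraMap ℂ N Complex.I * o 1)) / (algebraMap ℂ N Complex.I * o 0)
      rw [h.a1, map_neg, hφ]
      field_simp
    · change φ (g₁ (x 2)) = (algebraMap ℂ N Complex.I * o 2) / (algebraMap ℂ N Complex.I * o 0)
      rw [h.a2, hφ]
      field_simp
    · change φ (g₁ (x 3)) = (-(algebraMap ℂ N Complex.I * o 3)) / (algebraMap ℂ N Complex.I * o 0)
      rw [h.a3, map_neg, hφ]
      field_simp
  · change φ (g₂ (x j)) = (hm N 2).mulVec o j / (hm N 2).mulVec o 0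
    rw [hm_two]
    fin_cases j
    · change φ (g₂ (x 0)) = o 1 / o 1
      rw [hx.one, map_one, map_one, div_self o1]
    · change φ (g₂ (x 1)) = -o 0 / o 1
      rw [h.b1, map_neg, map_inv₀, hφ]
      field_simp
    · change φ (g₂ (x 2)) = o 3 / o 1
      rw [h.b2, map_div₀, hφ, hφ]
      field_simp
    · change φ (g₂ (x 3)) = -o 2 / o 1
      rw [h.b3, map_neg, map_div₀, hφ, hφ]
      field_simp
  · change φ (g₁ (g₂ (x j))) = (hm N 3).mulVec o j / (hm N 3).mulVec o 0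
    rw [hm_three]
    fin_cases j
    · change φ (g₁ (g₂ (x 0))) = (algebraMap ℂ N Complex.I * o 1) /
        (algebraMap ℂ N Complex.I * o 1)
      rw [hx.one, map_one, map_one, map_one, div_self (mul_ne_zero hI o1)]
    · change φ (g₁ (g₂ (x 1))) = (algebraMap ℂ N Complex.I * o 0) /
        (algebraMap ℂ N Complex.I * o 1)
      rw [h.b1, map_neg, map_inv₀, h.a1, map_neg, map_inv₀, map_neg, hφ]
      field_simp
    · change φ (g₁ (g₂ (x 2))) = (algebraMap ℂ N Complex.I * o 3) /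
        (algebraMap ℂ N Complex.I * o 1)
      rw [h.b2, map_div₀, h.a3, h.a1, map_div₀, map_neg, map_neg, hφ, hφ]
      field_simp
    · change φ (g₁ (g₂ (x 3))) = (algebraMap ℂ N Complex.I * o 2) /
        (algebraMap ℂ N Complex.I * o 1)
      rw [h.b3, map_neg, map_div₀, h.a2, h.a1, map_neg, map_div₀, map_neg, hφ, hφ]
      field_simp

/-- The group preserves the generic points. -/
theorem ActQ.genW (hx : C8.IsFF (webQ a p q r) x) {g₁ g₂ : K₁ ≃ₐ[ℂ] K₁} (h : ActQ x g₁ g₂)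
    (k : Fin 4) {o : Fin 4 → N} (ho : GenW (webQ a p q r) o) :
    GenW (webQ a p q r) ((hm N k).mulVec o) := by
  obtain ⟨φ, hφ, -⟩ := ho.exists_pt hx
  have h1 := GenW.of_phi hx (φ.comp (gk g₁ g₂ k : K₁ →ₐ[ℂ] K₁))
  have h0 : (hm N k).mulVec o 0 ≠ 0 := by
    have o0 := coord_ne hx.irr ho 0
    have o1 := coord_ne hx.irr ho 1
    have hI : algebraMap ℂ N Complex.I ≠ 0 := by
      rw [Ne, map_eq_zero_iff _ (algebraMap ℂ N).injective]
      exact Complex.I_ne_zero
    fin_cases k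
    · change (hm N 0).mulVec o 0 ≠ 0
      rw [hm_zero]
      exact o0
    · change (hm N 1).mulVec o 0 ≠ 0
      rw [hm_one]
      exact mul_ne_zero hI o0
    · change (hm N 2).mulVec o 0 ≠ 0
      rw [hm_two]
      exact o1
    · change (hm N 3).mulVec o 0 ≠ 0
      rw [hm_three]
      exact mul_ne_zero hI o1
  have h2 : (fun j => (φ.comp (gk g₁ g₂ k : K₁ →ₐ[ℂ] K₁)) (x j)) =
      ((hm N k).mulVec o 0)⁻¹ • (hm N k).mulVec o := by
    funext j
    change φ (gk g₁ g₂ k (x j)) = _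
    rw [h.comp hx k ho φ hφ j, Pi.smul_apply, smul_eq_mul, div_eq_inv_mul]
  rw [h2] at h1
  exact GenW.of_smul (inv_ne_zero h0) h1

variable {K : Type} [Field K] [Algebra ℂ K]

/-- Points in the same orbit of the group have the same image in the quotient. -/
theorem ActQ.resK_pt (hx : C8.IsFF (webQ a p q r) x) {g₁ g₂ : K₁ ≃ₐ[ℂ] K₁} (h : ActQ x g₁ g₂)
    (ι : K →ₐ[ℂ] K₁) (h₁ : ∀ z, g₁ (ι z) = ι z) (h₂ : ∀ z, g₂ (ι z) = ι z) (k : Fin 4)
    {o : Fin 4 → N} (ho : GenW (webQ a p q r) o) :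
    resK ι (C8.pt x ((hm N k).mulVec o)) = resK ι (C8.pt x o) := by
  refine resK_pt_eq hx ι (gk g₁ g₂ k : K₁ →ₐ[ℂ] K₁) ?_ ho fun φ hφ j => h.comp hx k ho φ hφ j
  ext z
  change gk g₁ g₂ k (ι z) = ι z
  fin_cases k
  · rfl
  · exact h₁ z
  · exact h₂ z
  · change g₁ (g₂ (ι z)) = ι z
    rw [h₂, h₁]

end

end Vale.Agent.P297.H10
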