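import Vale.Agent.P297.H10.Q8Final
import Vale.Agent.P297.H637.ZSum
import Vale.Agent.P297.H521.TwoRoots

/-!
The cycles on the lines of the rulings for the quotient by the quaternion group.
-/

set_option linter.unusedSectionVars false

namespace Vale.Agent.P297.H10

open Vale.Agent.P297 Vale.Agent.P297.Gen Vale.Agent.P297.G4 Vale.Agent.P297.C8
open Vale.Agent.P297.H637 Vale.Agent.P297.Z3 Polynomial Matrix

section

variable {N : Type} [Field N] [Algebra ℂ N] [IsAlgClosed N] {a : ℂ} {p q r : Fin 3 → ℂ}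
  {x y w : N} {z : Fin 4 → N}
variable {K K₁ : Type} [Field K] [Algebra ℂ K] [Field K₁] [Algebra ℂ K₁] {c : Fin 4 → K₁}

/-- **The cycles on the lines of the rulings are torsion modulo relations.** -/
theorem blockD_Q8 (hfin : NoBase (webQ a p q r)) (hc : C8.IsFF (webQ a p q r) c)
    (hdisc : 4 * (tI (fun i => C (dQ a p q r i)) X : ℂ[X]) ^ 3 ≠
      tJ (fun i => C (dQ a p q r i)) X ^ 2)
    {g₁ g₂ : K₁ ≃ₐ[ℂ] K₁} (hg : ActQ c g₁ g₂) (ι : K →ₐ[ℂ] K₁) (h₁ : ∀ s, g₁ (ι s) = ι s)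
    (h₂ : ∀ s, g₂ (ι s) = ι s) (h4 : Algebra.trdeg ℂ N = 4) (h : GQ (webQ a p q r) x y w z)
    (n : ℤ) :
    (128 : ℤ) • resD ι (R1.Psi (webQ a p q r) c x y w z) ∈ H72.Rel n K N :=
  blockD_aux (webQ_symm a p q r) hfin hc.irr h4 (natDegree_tI (dQ a p q r))
    (natDegree_tJ (dQ a p q r)) hdisc (hnt_Q8 (res01 hfin) (res02 hfin) hdisc)
    (qI_PQ a p q r) (qJ_PQ a p q r) (twin_Q8 a p q r) hc ι
    (fun hxy hdet _ _ h5 h6 => two_roots (webQ_symm a p q r) (h33_webQ hfin) hxy hdet h5 h6)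
    (fun h5 _ _ hS hX hY => hH_Q8 hfin hc hg ι h₁ h₂ h4 h5 hS hX hY) h

end

end Vale.Agent.P297.H10
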