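import Vale.Agent.P297.H10.Q8Main
import Vale.Agent.P297.H10.OctIrr

/-!
Bloch's conjecture for the quotients by the quaternion group of the smooth intersections of four
quadrics, final form.
-/

set_option linter.unusedSectionVars false

namespace Vale.Agent.P297.H10

open Vale.Agent.P297 Vale.Agent.P297.C8

/-- **Bloch's conjecture** for the numerical Campedelli surfaces with quaternion group: only the
smoothness of the intersection of the four quadrics is assumed. -/
theorem bloch_Q8_smooth {a : ℂ} {p q r : Fin 3 → ℂ} {E : Type} [Field E] [Algebra ℂ E]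
    {x : Fin 4 → E} {v : Fin 3 → E} (hs : SmoothX (webQ a p q r))
    (hX : IsX (webQ a p q r) x v) {G₁ G₂ : E ≃ₐ[ℂ] E} (hG : ActX x v G₁ G₂) :
    H839.PointsEquivalent (IntermediateField.fixedField (F := ℂ) (Subgroup.closure {G₁, G₂})) :=
  bloch_Q8X hs (hs.irreducible (webQ_symm a p q r) hs.noBase) hX hG

end Vale.Agent.P297.H10
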