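import Vale.Agent.P297.H10.Q8Twin

/-!
The quotient of the octic surface by the quaternion group.
-/

set_option linter.unusedSectionVars false
set_option linter.unusedSimpArgs false

namespace Vale.Agent.P297.H10

open Vale.Agent.P297 Vale.Agent.P297.Gen Vale.Agent.P297.G4 Vale.Agent.P297.C8
open Vale.Agent.P297.H637 Vale.Agent.P297.Z3 Polynomial Matrix

section

variable {K₁ N : Type} [Field K₁] [Algebra ℂ K₁] [Field N] [Algebra ℂ N] [IsAlgClosed N]
variable {a : ℂ} {p q r : Fin 3 → ℂ} {x : Fin 4 → K₁}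

theorem fixed_val (g₁ g₂ : K₁ ≃ₐ[ℂ] K₁)
    (s : IntermediateField.fixedField (F := ℂ) (Subgroup.closure {g₁, g₂})) :
    g₁ (s : K₁) = s ∧ g₂ (s : K₁) = s := by
  have h := s.2
  constructor
  · exact h ⟨g₁, Subgroup.subset_closure (by simp)⟩
  · exact h ⟨g₂, Subgroup.subset_closure (by simp)⟩

/-- The quaternion case of Bloch's conjecture from the linking. -/
theorem bloch_Q8_of_link (hfin : NoBase (webQ a p q r)) (hx : C8.IsFF (webQ a p q r) x)
    (g₁ g₂ : K₁ ≃ₐ[ℂ] K₁) (φ : K₁ →ₐ[ℂ] N) {n : ℤ} (hn : n ≠ 0)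
    (link : ∀ o o' : Fin 4 → N, GenW (webQ a p q r) o → GenW (webQ a p q r) o' →
      qq (webQ a p q r) o' = qq (webQ a p q r) o → o' ≠ o → o' ≠ -o →
      n • resK (IntermediateField.fixedField (F := ℂ) (Subgroup.closure {g₁, g₂})).val
        (C8.pt x o + C8.pt x o') ∈ H72.Rel 0
          (IntermediateField.fixedField (F := ℂ) (Subgroup.closure {g₁, g₂})) N) :
    H839.PointsEquivalent
      (IntermediateField.fixedField (F := ℂ) (Subgroup.closure {g₁, g₂})) :=
  camp_glue (webQ_symm a p q r) hfin hx.irr (three_webQ a p q r) hx _ φ hn link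

end

end Vale.Agent.P297.H10
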