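import Vale.Agent.P297.H10.Q8HH
import Vale.Agent.P297.H637.Rel3

/-!
The cycles for two points of the plane with the same image on the other side.
-/

set_option linter.unusedSectionVars false
set_option linter.unusedSimpArgs false

namespace Vale.Agent.P297.H10

open Vale.Agent.P297 Vale.Agent.P297.Gen Vale.Agent.P297.G4 Vale.Agent.P297.C8
open Vale.Agent.P297.H637 Vale.Agent.P297.Z3 Polynomial Matrix

section

variable {N : Type} [Field N] [Algebra ℂ N] [IsAlgClosed N] {Q : Web} {x y w : N}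
  {z : Fin 4 → N}

/-- The set of the points is finite. -/
theorem ptSet_finite (hQ : ∀ i, (Q i).IsSymm) (hfin : NoBase Q) (hirr : Irreducible (octic Q))
    (h4 : Algebra.trdeg ℂ N = 4) (h : GQ Q x y w z) : (R1.PtSet Q x y w z).Finite := by
  have : CharZero N := charZero_of_injective_algebraMap (algebraMap ℂ N).injective
  obtain ⟨D, hD0, hD, hR⟩ := exists_dir (MM_isSymm hQ x y) h.det h.ne h.gen.one h.iso
  obtain ⟨t, -, -, hset⟩ := h.eight hQ hfin hirr h4 hD0 hD hR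
  refine (Set.finite_range fun (i : Fin 8) (j : Fin 4) => z j + t i * D j).subset ?_
  rw [← hset]
  rintro o ⟨e1, e2, -, e4⟩
  exact ⟨e1, e2, e4⟩

theorem Psi_smul {K₁ : Type} [Field K₁] [Algebra ℂ K₁] {c : Fin 4 → K₁} {k : N} (hk : k ≠ 0) :
    R1.Psi Q c x y w (k • z) = R1.Psi Q c x y w z := by
  unfold R1.Psi
  have h : R1.PtSet Q x y w (k • z) = R1.PtSet Q x y w z := by
    ext o
    constructor
    · rintro ⟨e1, e2, e3, e4⟩
      refine ⟨e1, e2, e3, ?_⟩
      have h1 := e4.smul_left k⁻¹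
      rwa [smul_smul, inv_mul_cancel₀ hk, one_smul] at h1
    · rintro ⟨e1, e2, e3, e4⟩
      exact ⟨e1, e2, e3, e4.smul_left k⟩
  rw [h]

end

section

variable {N : Type} [Field N] [Algebra ℂ N] [IsAlgClosed N] {a : ℂ} {p q r : Fin 3 → ℂ}
  {x y w : N} {z : Fin 4 → N}

/-- `z₂` is algebraic over the other coordinates. -/
theorem z2_mem (hfin : NoBase (webQ a p q r)) (h : GQ (webQ a p q r) x y w z)
    {F : IntermediateField ℂ N} (hF : Closed F) (hx : x ∈ F) (hy : y ∈ F) (h1 : z 1 ∈ F)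
    (h3 : z 3 ∈ F) : z 2 ∈ F := by
  set M := MM (webQ a p q r) x y with hM
  have hm : ∀ i j, M i j ∈ F := H637.MM_mem hx hy
  have h0 := h.gen.one
  have hiso := h.gen.iso
  have hs := MM_isSymm (webQ_symm a p q r) x y
  have h22 : M 2 2 ≠ 0 := by
    have e1 : M 2 2 = lam x y 2 * algebraMap ℂ N (r 1) + lam x y 3 * algebraMap ℂ N (r 2) := by
      rw [hM, MM_webQ]
      rfl
    rw [e1]
    exact lin_lam_ne h.gen.xy (noBase_r hfin)
  have hz0 : z 0 ∈ F := by
    rw [h0]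
    exact one_mem F
  have e2 : M 2 2 * z 2 ^ 2 + ((M 0 2 + M 2 0) * z 0 + (M 1 2 + M 2 1) * z 1 +
      (M 2 3 + M 3 2) * z 3) * z 2 + (M 0 0 * z 0 ^ 2 + M 1 1 * z 1 ^ 2 + M 3 3 * z 3 ^ 2 +
      (M 0 1 + M 1 0) * (z 0 * z 1) + (M 0 3 + M 3 0) * (z 0 * z 3) +
      (M 1 3 + M 3 1) * (z 1 * z 3)) = 0 := by
    rw [← hiso]
    simp only [dotProduct, mulVec, Fin.sum_univ_four]
    ring
  apply hF
  refine isAlgebraic_of_coeff (p := C (M 2 2) * X ^ 2 + C ((M 0 2 + M 2 0) * z 0 +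
    (M 1 2 + M 2 1) * z 1 + (M 2 3 + M 3 2) * z 3) * X ^ 1 + C (M 0 0 * z 0 ^ 2 +
      M 1 1 * z 1 ^ 2 + M 3 3 * z 3 ^ 2 + (M 0 1 + M 1 0) * (z 0 * z 1) +
      (M 0 3 + M 3 0) * (z 0 * z 3) + (M 1 3 + M 3 1) * (z 1 * z 3)) * X ^ 0) ?_ ?_ ?_
  · intro n
    simp only [coeff_add]
    refine add_mem (add_mem (C_mul_pow_coeff_mem (hm _ _) _ _)
      (C_mul_pow_coeff_mem ?_ _ _)) (C_mul_pow_coeff_mem ?_ _ _)
    · exact add_mem (add_mem (mul_mem (add_mem (hm _ _) (hm _ _)) hz0)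
        (mul_mem (add_mem (hm _ _) (hm _ _)) h1)) (mul_mem (add_mem (hm _ _) (hm _ _)) h3)
    · exact add_mem (add_mem (add_mem (add_mem (add_mem (mul_mem (hm _ _) (pow_mem hz0 2))
        (mul_mem (hm _ _) (pow_mem h1 2))) (mul_mem (hm _ _) (pow_mem h3 2)))
        (mul_mem (add_mem (hm _ _) (hm _ _)) (mul_mem hz0 h1)))
        (mul_mem (add_mem (hm _ _) (hm _ _)) (mul_mem hz0 h3)))
        (mul_mem (add_mem (hm _ _) (hm _ _)) (mul_mem h1 h3))
  · intro h5
    apply h22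
    have k2 := congrArg (fun f => coeff f 2) h5
    simp only [coeff_add, coeff_C_mul, coeff_X_pow, coeff_zero] at k2
    norm_num at k2
    exact k2
  · simp only [eval_add, eval_mul, eval_C, eval_pow, eval_X]
    linear_combination e2

/-- The group acts on the generic pairs. -/
theorem GQ_hm (hfin : NoBase (webQ a p q r)) (h4 : Algebra.trdeg ℂ N = 4)
    (h : GQ (webQ a p q r) x y w z) (k : Fin 4) :
    (hm N k).mulVec z 0 ≠ 0 ∧ GQ (webQ a p q r) (sx N k * x) (sy N k * y) w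
      (((hm N k).mulVec z 0)⁻¹ • hl N k z) := by
  have : CharZero N := charZero_of_injective_algebraMap (algebraMap ℂ N).injective
  have z1 : z 1 ≠ 0 := by
    intro h0
    apply h.gen.z1
    rw [h0]
    exact zero_mem _
  have z0 := h.gen.one
  have z0' : z 0 ≠ 0 := by
    rw [z0]
    exact one_ne_zero
  have hA0 := hm_apply_zero_ne (k := k) z0' z1
  have hI : algebraMap ℂ N Complex.I ≠ 0 := by
    rw [Ne, map_eq_zero_iff _ (algebraMap ℂ N).injective]
    exact Complex.I_ne_zero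
  refine ⟨hA0, ?_⟩
  set z' : Fin 4 → N := ((hm N k).mulVec z 0)⁻¹ • hl N k z with hz'
  have hx0 := h.x_ne
  have hy0 := h.y_ne
  have hxs : (sx N k * x) ^ 2 = x ^ 2 := by
    linear_combination x ^ 2 * sx_sq (N := N) k
  have hys : (sy N k * y) ^ 2 = y ^ 2 := by
    linear_combination y ^ 2 * sy_sq (N := N) k
  refine ⟨⟨?_, ?_, ?_⟩, ?_, h.ne⟩
  · change ((hm N k).mulVec z 0)⁻¹ * (hm N k).mulVec z 0 = 1
    exact inv_mul_cancel₀ hA0
  · exact iso_hm k x y _ z h.gen.iso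
  · apply ind_of_all h4
    intro t
    set F := cl0 (Set.range ![sx N k * x, sy N k * y, z' 1, z' 2]) with hF
    have hFc : Closed F := closed_cl0 _
    have m0 : sx N k * x ∈ F := subset_cl0 _ ⟨0, rfl⟩
    have m1 : sy N k * y ∈ F := subset_cl0 _ ⟨1, rfl⟩
    have m2 : z' 1 ∈ F := subset_cl0 _ ⟨2, rfl⟩
    have m3 : z' 2 ∈ F := subset_cl0 _ ⟨3, rfl⟩
    have mx : x ∈ F := by
      apply mem_of_sq_mem hFc
      rw [← hxs]
      exact pow_mem m0 2
    have my : y ∈ F := by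
      apply mem_of_sq_mem hFc
      rw [← hys]
      exact pow_mem m1 2
    have key : z 1 ∈ F ∧ z 2 ∈ F := by
      fin_cases k
      · have e1 : z' 1 = z 1 := by
          change ((hm N 0).mulVec z 0)⁻¹ * (hm N 0).mulVec z 1 = z 1
          rw [hm_zero, z0, inv_one, one_mul]
        have e2 : z' 2 = z 2 := by
          change ((hm N 0).mulVec z 0)⁻¹ * (hm N 0).mulVec z 2 = z 2
          rw [hm_zero, z0, inv_one, one_mul]
        exact ⟨e1 ▸ m2, e2 ▸ m3⟩
      · have e1 : z' 1 = -z 1 := by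
          change ((hm N 1).mulVec z 0)⁻¹ * (hm N 1).mulVec z 1 = -z 1
          rw [hm_one]
          change (algebraMap ℂ N Complex.I * z 0)⁻¹ * -(algebraMap ℂ N Complex.I * z 1) = -z 1
          rw [z0]
          field_simp
        have e2 : z' 2 = z 2 := by
          change ((hm N 1).mulVec z 0)⁻¹ * (hm N 1).mulVec z 2 = z 2
          rw [hm_one]
          change (algebraMap ℂ N Complex.I * z 0)⁻¹ * (algebraMap ℂ N Complex.I * z 2) = z 2
          rw [z0]
          field_simp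
        refine ⟨?_, e2 ▸ m3⟩
        have h5 : -z 1 ∈ F := e1 ▸ m2
        exact neg_mem_iff.1 h5
      · have e1 : z' 1 = -(z 1)⁻¹ := by
          change ((hm N 2).mulVec z 0)⁻¹ * (hm N 2).mulVec z 1 = -(z 1)⁻¹
          rw [hm_two]
          change (z 1)⁻¹ * -z 0 = -(z 1)⁻¹
          rw [z0]
          ring
        have e2 : z' 2 = (z 1)⁻¹ * z 3 := by
          change ((hm N 2).mulVec z 0)⁻¹ * (hm N 2).mulVec z 2 = _
          rw [hm_two]
          rfl
        have h5 : -(z 1)⁻¹ ∈ F := e1 ▸ m2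
        have h6 : (z 1)⁻¹ * z 3 ∈ F := e2 ▸ m3
        have h7 : z 1 ∈ F := by
          have h8 := inv_mem (neg_mem_iff.1 h5)
          rwa [inv_inv] at h8
        have h9 : z 3 ∈ F := by
          have h10 := mul_mem h7 h6
          rwa [← mul_assoc, mul_inv_cancel₀ z1, one_mul] at h10
        exact ⟨h7, z2_mem hfin h hFc mx my h7 h9⟩
      · have e1 : z' 1 = (z 1)⁻¹ := by
          change ((hm N 3).mulVec z 0)⁻¹ * (hm N 3).mulVec z 1 = (z 1)⁻¹
          rw [hm_three]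
          change (algebraMap ℂ N Complex.I * z 1)⁻¹ * (algebraMap ℂ N Complex.I * z 0) = (z 1)⁻¹
          rw [z0]
          field_simp
        have e2 : z' 2 = (z 1)⁻¹ * z 3 := by
          change ((hm N 3).mulVec z 0)⁻¹ * (hm N 3).mulVec z 2 = _
          rw [hm_three]
          change (algebraMap ℂ N Complex.I * z 1)⁻¹ * (algebraMap ℂ N Complex.I * z 3) = _
          field_simp
        have h5 : (z 1)⁻¹ ∈ F := e1 ▸ m2
        have h6 : (z 1)⁻¹ * z 3 ∈ F := e2 ▸ m3
        have h7 : z 1 ∈ F := by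
          have h8 := inv_mem h5
          rwa [inv_inv] at h8
        have h9 : z 3 ∈ F := by
          have h10 := mul_mem h7 h6
          rwa [← mul_assoc, mul_inv_cancel₀ z1, one_mul] at h10
        exact ⟨h7, z2_mem hfin h hFc mx my h7 h9⟩
    refine cl0_le hFc ?_ (all_of_four h4 h.gen.ind t)
    rintro _ ⟨i, rfl⟩
    fin_cases i
    · exact mx
    · exact my
    · exact key.1
    · exact key.2
  · rw [det_congr a p q r hx0 hy0 (sq_eq hxs) (sq_eq hys)]
    exact h.det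

variable {K K₁ : Type} [Field K] [Algebra ℂ K] [Field K₁] [Algebra ℂ K₁] {c : Fin 4 → K₁}

/-- **The cycles depend only on the image on the other side.** -/
theorem hH_Q8 (hfin : NoBase (webQ a p q r)) (hc : C8.IsFF (webQ a p q r) c)
    {g₁ g₂ : K₁ ≃ₐ[ℂ] K₁} (hg : ActQ c g₁ g₂) (ι : K →ₐ[ℂ] K₁) (h₁ : ∀ s, g₁ (ι s) = ι s)
    (h₂ : ∀ s, g₂ (ι s) = ι s) (h4 : Algebra.trdeg ℂ N = 4) (h : GQ (webQ a p q r) x y w z)
    {x' y' w' : N} (hS : tS x' = tS x) (hX : tX x' y' = tX x y) (hY : tY x' y' w' = tY x y w) :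
    ∃ z', GQ (webQ a p q r) x' y' w' z' ∧
      resK ι (R1.Psi (webQ a p q r) c x' y' w' z') =
        resK (N := N) ι (R1.Psi (webQ a p q r) c x y w z) := by
  have : CharZero N := charZero_of_injective_algebraMap (algebraMap ℂ N).injective
  obtain ⟨hx, hy⟩ := tran_of_ind h.gen.xy
  obtain ⟨x0, x1, x2⟩ := tran_ne hx
  obtain ⟨y0, -, y2⟩ := tran_ne (tran_of_notMem hy)
  have hX0 : tX x y ≠ 0 := by
    intro h0
    apply tX_notMem hx hy
    rw [h0]
    exact zero_mem _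
  have y2' : y' ^ 2 + 1 ≠ 0 := by
    intro h0
    apply hX0
    rw [← hX, tX, h0, div_zero, zero_mul]
  obtain ⟨e1, e2, e3⟩ := eq_of_T x0 y0 x1 x2 y2 y2' hS hX hY
  obtain ⟨k, rfl, rfl⟩ := exists_hm e1 e2
  rw [e3]
  obtain ⟨hA0, hGQ⟩ := GQ_hm hfin h4 h k
  refine ⟨_, hGQ, ?_⟩
  rw [Psi_smul (inv_ne_zero hA0)]
  have hsym := webQ_symm a p q r
  have hW : ∀ o ∈ R1.PtSet (webQ a p q r) x y w z, GenW (webQ a p q r) o := by
    rintro o ⟨k1, k2, -, k4⟩
    refine h.genW hsym hfin hc.irr h4 ?_ k4 k2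
    rintro rfl
    exact zero_ne_one k1
  have hW' : ∀ o ∈ R1.PtSet (webQ a p q r) (sx N k * x) (sy N k * y) w (hl N k z),
      GenW (webQ a p q r) o := by
    rintro o ⟨k1, k2, -, k4⟩
    refine hGQ.genW hsym hfin hc.irr h4 ?_ (k4.smul_left _) k2
    rintro rfl
    exact zero_ne_one k1
  obtain ⟨c₀, hc₀, hcc⟩ := hm_hm (N := N) k
  refine R1.resK_Psi ι (hl N k) ?_ ?_ ?_ ?_ ?_ ?_ (ptSet_finite hsym hfin hc.irr h4 h)
  · intro u
    rw [hl_apply, st_hm]
  · intro u
    rw [hl_apply, mv_hm]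
    constructor
    · intro h5
      exact (mul_eq_zero.1 h5).resolve_left (sm_ne k)
    · intro h5
      rw [h5, mul_zero]
  · intro u
    exact Rul_hm' k x y w z u
  · intro o ho
    have h5 := hg.genW hc k (hW o ho)
    exact h5.ne
  · intro o ho
    have h5 := hg.genW hc k (hW' o ho)
    set u := (hl N k).symm o with hu
    have h6 : hl N k u = o := (hl N k).apply_symm_apply o
    have h7 : (hm N k).mulVec o = c₀ • u := by
      rw [← h6, hl_apply]
      exact hcc u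
    intro h8
    apply h5.ne
    rw [h7, Pi.smul_apply, h8, smul_zero]
  · intro o ho
    exact hg.resK_pt hc ι h₁ h₂ k (hW o ho)

end

end Vale.Agent.P297.H10
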