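import Vale.Agent.P297.H10.Q8Base
import Vale.Agent.P297.H10.PsiMap

/-!
The quaternion group acts on the cycles of the points of the octic on the lines of the rulings.
-/

set_option linter.unusedSectionVars false
set_option linter.unusedSimpArgs false

namespace Vale.Agent.P297.H10

open Vale.Agent.P297 Vale.Agent.P297.Gen Vale.Agent.P297.G4 Vale.Agent.P297.C8
open Vale.Agent.P297.H637 Vale.Agent.P297.Z3 Polynomial Matrix

section

variable {N : Type} [Field N] [Algebra ℂ N]

theorem sx_sq (k : Fin 4) : sx N k * sx N k = 1 := by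
  fin_cases k <;> simp [sx]

theorem sy_sq (k : Fin 4) : sy N k * sy N k = 1 := by
  fin_cases k <;> simp [sy]

/-- The square of a matrix of the group. -/
theorem hm_hm (k : Fin 4) : ∃ c : N, c ≠ 0 ∧ ∀ u : Fin 4 → N,
    (hm N k).mulVec ((hm N k).mulVec u) = c • u := by
  have hI := I_sq N
  fin_cases k
  · refine ⟨1, one_ne_zero, fun u => ?_⟩
    change (hm N 0).mulVec ((hm N 0).mulVec u) = _
    rw [hm_zero, hm_zero, one_smul]
  · refine ⟨-1, neg_ne_zero.2 one_ne_zero, fun u => ?_⟩
    change (hm N 1).mulVec ((hm N 1).mulVec u) = _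
    rw [hm_one, hm_one]
    funext j
    fin_cases j
    · change algebraMap ℂ N Complex.I * (algebraMap ℂ N Complex.I * u 0) = -1 * u 0
      linear_combination u 0 * hI
    · change -(algebraMap ℂ N Complex.I * -(algebraMap ℂ N Complex.I * u 1)) = -1 * u 1
      linear_combination u 1 * hI
    · change algebraMap ℂ N Complex.I * (algebraMap ℂ N Complex.I * u 2) = -1 * u 2
      linear_combination u 2 * hI
    · change -(algebraMap ℂ N Complex.I * -(algebraMap ℂ N Complex.I * u 3)) = -1 * u 3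
      linear_combination u 3 * hI
  · refine ⟨-1, neg_ne_zero.2 one_ne_zero, fun u => ?_⟩
    change (hm N 2).mulVec ((hm N 2).mulVec u) = _
    rw [hm_two, hm_two]
    funext j
    fin_cases j
    · change -u 0 = -1 * u 0
      ring
    · change -u 1 = -1 * u 1
      ring
    · change -u 2 = -1 * u 2
      ring
    · change -u 3 = -1 * u 3
      ring
  · refine ⟨-1, neg_ne_zero.2 one_ne_zero, fun u => ?_⟩
    change (hm N 3).mulVec ((hm N 3).mulVec u) = _
    rw [hm_three, hm_three]
    funext j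
    fin_cases j
    · change algebraMap ℂ N Complex.I * (algebraMap ℂ N Complex.I * u 0) = -1 * u 0
      linear_combination u 0 * hI
    · change algebraMap ℂ N Complex.I * (algebraMap ℂ N Complex.I * u 1) = -1 * u 1
      linear_combination u 1 * hI
    · change algebraMap ℂ N Complex.I * (algebraMap ℂ N Complex.I * u 2) = -1 * u 2
      linear_combination u 2 * hI
    · change algebraMap ℂ N Complex.I * (algebraMap ℂ N Complex.I * u 3) = -1 * u 3
      linear_combination u 3 * hI

/-- The linear automorphisms of the group. -/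
noncomputable def hl (N : Type) [Field N] [Algebra ℂ N] (k : Fin 4) :
    (Fin 4 → N) ≃ₗ[N] (Fin 4 → N) :=
  LinearEquiv.ofBijective (hm N k).mulVecLin (by
    obtain ⟨c, hc, h⟩ := hm_hm (N := N) k
    constructor
    · intro u v huv
      have h1 : (hm N k).mulVec u = (hm N k).mulVec v := huv
      have h2 := congrArg (fun t => (hm N k).mulVec t) h1
      simp only [h] at h2
      exact smul_right_injective _ hc h2
    · intro u
      refine ⟨c⁻¹ • (hm N k).mulVec u, ?_⟩
      change (hm N k).mulVec (c⁻¹ • (hm N k).mulVec u) = u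
      rw [mulVec_smul, h, smul_smul, inv_mul_cancel₀ hc, one_smul])

theorem hl_apply (k : Fin 4) (u : Fin 4 → N) : hl N k u = (hm N k).mulVec u := rfl

theorem hm_apply_zero_ne {k : Fin 4} {u : Fin 4 → N} (h0 : u 0 ≠ 0) (h1 : u 1 ≠ 0) :
    (hm N k).mulVec u 0 ≠ 0 := by
  have hI : algebraMap ℂ N Complex.I ≠ 0 := by
    rw [Ne, map_eq_zero_iff _ (algebraMap ℂ N).injective]
    exact Complex.I_ne_zero
  fin_cases k
  · change (hm N 0).mulVec u 0 ≠ 0
    rw [hm_zero]
    exact h0
  · change (hm N 1).mulVec u 0 ≠ 0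
    rw [hm_one]
    exact mul_ne_zero hI h0
  · change (hm N 2).mulVec u 0 ≠ 0
    rw [hm_two]
    exact h1
  · change (hm N 3).mulVec u 0 ≠ 0
    rw [hm_three]
    exact mul_ne_zero hI h1

theorem Rul_hm' {a : ℂ} {p q r : Fin 3 → ℂ} (k : Fin 4) (x y w : N) (z u : Fin 4 → N) :
    Rul (MM (webQ a p q r) (sx N k * x) (sy N k * y)) w (hl N k z) (hl N k u) ↔
      Rul (MM (webQ a p q r) x y) w z u :=
  (rul_congr_iff (MM_hm a p q r k x y) (by rw [det_hm, mul_one])
    (by rw [det_hm]; exact one_ne_zero)).symm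

theorem iso_hm {a : ℂ} {p q r : Fin 3 → ℂ} (k : Fin 4) (x y c : N) (z : Fin 4 → N)
    (h : z ⬝ᵥ (MM (webQ a p q r) x y).mulVec z = 0) :
    (c • hl N k z) ⬝ᵥ (MM (webQ a p q r) (sx N k * x) (sy N k * y)).mulVec (c • hl N k z) =
      0 := by
  rw [mulVec_smul, smul_dotProduct, dotProduct_smul, ← MB_eq]
  have h1 := MB_hm a p q r k x y z z
  rw [hl_apply, h1, MB_eq, h, smul_zero, smul_zero]

theorem noBase_r {a : ℂ} {p q r : Fin 3 → ℂ} (h : NoBase (webQ a p q r)) :
    r 1 ≠ 0 ∨ r 2 ≠ 0 := by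
  by_contra hcon
  push Not at hcon
  have h1 := h ![0, 0, 1, 0] (by
    rw [qq_webQ]
    funext i
    fin_cases i
    · change a * (2 * (0 * 0 - 0 * 1)) = (0 : ℂ)
      ring
    · change 2 * (p 0 * (0 * 0) + q 0 * (0 * 0 + 0 * 1) + r 0 * (1 * 0)) = (0 : ℂ)
      ring
    · change p 1 * (0 ^ 2 + 0 ^ 2) + 2 * q 1 * (0 * 1 + 0 * 0) + r 1 * (1 ^ 2 + 0 ^ 2) = (0 : ℂ)
      rw [hcon.1]
      ring
    · change p 2 * (0 ^ 2 - 0 ^ 2) + 2 * q 2 * (0 * 1 - 0 * 0) + r 2 * (1 ^ 2 - 0 ^ 2) = (0 : ℂ)
      rw [hcon.2]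
      ring)
  exact one_ne_zero (congrFun h1 2)

theorem h33_webQ {a : ℂ} {p q r : Fin 3 → ℂ} (h : NoBase (webQ a p q r)) :
    ∃ i, webQ a p q r i 3 3 ≠ 0 := by
  rcases noBase_r h with h1 | h1
  · exact ⟨2, h1⟩
  · exact ⟨3, neg_ne_zero.2 h1⟩

variable [IsAlgClosed N]

theorem tran_of_ind {x y : N} (h : AlgebraicIndependent ℂ ![x, y]) :
    Transcendental ℂ x ∧ y ∉ cl0 ({x} : Set N) := by
  refine ⟨h.transcendental 0, ?_⟩
  have h1 := indep_notMem h (s := {0}) (i := 1) (by decide)
  rw [Set.image_singleton] at h1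
  exact h1

theorem ind_of_tran {x y : N} (hx : Transcendental ℂ x) (hy : y ∉ cl0 ({x} : Set N)) :
    AlgebraicIndependent ℂ ![x, y] := by
  have k1 : AlgebraicIndependent ℂ ![x] := (algebraicIndependent_unique_type_iff).2 hx
  have h := indep_snoc k1 (x := y) (by
    rwa [Matrix.range_cons, Matrix.range_empty, Set.union_empty])
  have h3 : (Fin.snoc ![x] y : Fin 2 → N) = ![x, y] := by
    funext i
    fin_cases i <;> rfl
  rwa [h3] at h

/-- the entry of the matrix -/
theorem lin_lam_ne {x y : N} (h : AlgebraicIndependent ℂ ![x, y]) {b c : ℂ}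
    (hbc : b ≠ 0 ∨ c ≠ 0) : lam x y 2 * algebraMap ℂ N b + lam x y 3 * algebraMap ℂ N c ≠ 0 := by
  have : CharZero N := charZero_of_injective_algebraMap (algebraMap ℂ N).injective
  obtain ⟨hx, hy⟩ := tran_of_ind h
  obtain ⟨x0, -, -⟩ := tran_ne hx
  obtain ⟨y0, -, -⟩ := tran_ne (tran_of_notMem hy)
  intro h0
  have h1 : (y + y⁻¹) / 2 * algebraMap ℂ N b + (x * y + (x * y)⁻¹) / 2 * algebraMap ℂ N c = 0 := h0
  have h2 : y ^ 2 * (x * (algebraMap ℂ N b + x * algebraMap ℂ N c)) =
      -(x * algebraMap ℂ N b + algebraMap ℂ N c) := by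
    field_simp at h1
    linear_combination h1
  have h3 : algebraMap ℂ N b + x * algebraMap ℂ N c ≠ 0 := by
    intro h4
    by_cases hc : c = 0
    · rw [hc, map_zero, mul_zero, add_zero, map_eq_zero_iff _ (algebraMap ℂ N).injective] at h4
      rcases hbc with hb | hb
      · exact hb h4
      · exact hb hc
    · apply hx
      have hc' : algebraMap ℂ N c ≠ 0 := by
        rwa [Ne, map_eq_zero_iff _ (algebraMap ℂ N).injective]
      have h5 : x = algebraMap ℂ N (-b / c) := by
        rw [map_div₀, map_neg, eq_div_iff hc']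
        linear_combination h4
      rw [h5]
      exact isAlgebraic_algebraMap _
  apply hy
  apply mem_of_sq_mem (closed_cl0 _)
  have hxm : x ∈ cl0 ({x} : Set N) := subset_cl0 _ (Set.mem_singleton _)
  have h4 : y ^ 2 = -(x * algebraMap ℂ N b + algebraMap ℂ N c) /
      (x * (algebraMap ℂ N b + x * algebraMap ℂ N c)) := by
    rw [eq_div_iff (mul_ne_zero x0 h3)]
    exact h2
  rw [h4]
  exact div_mem (neg_mem (add_mem (mul_mem hxm (IntermediateField.algebraMap_mem _ _))
    (IntermediateField.algebraMap_mem _ _))) (mul_mem hxm (add_mem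
    (IntermediateField.algebraMap_mem _ _) (mul_mem hxm (IntermediateField.algebraMap_mem _ _))))

end

end Vale.Agent.P297.H10
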