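import Vale.Agent.P297.H10.Q8Twin
import Vale.Agent.P297.H600.Deg

/-!
Double roots of the determinant of the web for the quaternion group.
-/

set_option linter.unusedSectionVars false
set_option linter.unusedSimpArgs false

namespace Vale.Agent.P297.H10

open Vale.Agent.P297 Vale.Agent.P297.Gen Vale.Agent.P297.G4 Vale.Agent.P297.C8
open Vale.Agent.P297.H637 Vale.Agent.P297.H600 Vale.Agent.P297.G4.J Polynomial

section

variable {k : Type} [Field k] [CharZero k]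

/-- a cubic with a double root -/
theorem exists_double3 {c : Fin 5 → k} (h4 : c 4 = 0) (h3 : c 3 ≠ 0)
    (hd : 4 * qI c ^ 3 = qJ c ^ 2) :
    ∃ X, qv c X = 0 ∧ c 1 + 2 * c 2 * X + 3 * c 3 * X ^ 2 + 4 * c 4 * X ^ 3 = 0 := by
  obtain ⟨h, hh⟩ : ∃ h, c 2 = 3 * c 3 * h := ⟨c 2 / (3 * c 3), by field_simp⟩
  obtain ⟨p, hp⟩ : ∃ p, c 1 = c 3 * (3 * h ^ 2 + p) := ⟨c 1 / c 3 - 3 * h ^ 2, by
    field_simp
    ring⟩
  obtain ⟨q, hq⟩ : ∃ q, c 0 = c 3 * (h ^ 3 + p * h + q) := ⟨c 0 / c 3 - (h ^ 3 + p * h), by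
    field_simp
    ring⟩
  have hd' : 4 * p ^ 3 + 27 * q ^ 2 = 0 := by
    have h5 : (27 * c 3 ^ 6) ≠ 0 := mul_ne_zero (by norm_num) (pow_ne_zero 6 h3)
    apply mul_left_cancel₀ h5
    unfold qI qJ at hd
    rw [h4, hh, hp, hq] at hd
    linear_combination -hd
  by_cases p0 : p = 0
  · have q0 : q = 0 := by
      have h6 : (27 : k) * q ^ 2 = 0 := by
        rw [← hd', p0]
        ring
      have h7 := (mul_eq_zero.1 h6).resolve_left (by norm_num)
      exact pow_eq_zero_iff two_ne_zero |>.1 h7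
    refine ⟨-h, ?_, ?_⟩
    · unfold qv
      rw [h4, hh, hp, hq, p0, q0]
      ring
    · rw [h4, hh, hp, p0]
      ring
  · obtain ⟨U, hU⟩ : ∃ U, 2 * p * U = -3 * q := ⟨-3 * q / (2 * p), by field_simp⟩
    have e1 : 3 * U ^ 2 + p = 0 := by
      have h6 : (4 * p ^ 2) ≠ 0 := mul_ne_zero (by norm_num) (pow_ne_zero 2 p0)
      apply mul_left_cancel₀ h6
      linear_combination 3 * (2 * p * U - 3 * q) * hU + hd'
    have e2 : U ^ 3 + p * U + q = 0 := by
      have h6 : (3 : k) ≠ 0 := by norm_num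
      apply mul_left_cancel₀ h6
      linear_combination U * e1 + hU
    refine ⟨U - h, ?_, ?_⟩
    · unfold qv
      rw [h4, hh, hp, hq]
      linear_combination c 3 * e2
    · rw [h4, hh, hp]
      linear_combination c 3 * e1

variable [IsAlgClosed k]

/-- a quartic with a double root -/
theorem exists_double {c : Fin 5 → k} (hd : 4 * qI c ^ 3 = qJ c ^ 2) :
    (c 4 = 0 ∧ c 3 = 0) ∨
      ∃ X, qv c X = 0 ∧ c 1 + 2 * c 2 * X + 3 * c 3 * X ^ 2 + 4 * c 4 * X ^ 3 = 0 := by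
  by_cases h4 : c 4 = 0
  · by_cases h3 : c 3 = 0
    · exact Or.inl ⟨h4, h3⟩
    · exact Or.inr (exists_double3 h4 h3 hd)
  right
  by_cases hs : sU c = 0 ∧ sV c = 0
  · obtain ⟨hU, hV⟩ := hs
    obtain ⟨α, hα⟩ : ∃ α, c 3 = 2 * c 4 * α := ⟨c 3 / (2 * c 4), by field_simp⟩
    obtain ⟨β, hβ⟩ : ∃ β, c 2 = c 4 * (α ^ 2 + 2 * β) := ⟨(c 2 / c 4 - α ^ 2) / 2, by
      field_simp
      ring⟩
    have e1 : c 1 = c 4 * (2 * α * β) := by
      have h6 : (8 * c 4 ^ 2) ≠ 0 := mul_ne_zero (by norm_num) (pow_ne_zero 2 h4)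
      apply mul_left_cancel₀ h6
      unfold sU at hU
      rw [hα, hβ] at hU
      linear_combination hU
    have e0 : c 0 = c 4 * β ^ 2 := by
      have h6 : (64 * c 4 ^ 3) ≠ 0 := mul_ne_zero (by norm_num) (pow_ne_zero 3 h4)
      apply mul_left_cancel₀ h6
      unfold sV at hV
      rw [hα, hβ] at hV
      linear_combination -hV
    obtain ⟨s, hs⟩ := IsAlgClosed.exists_pow_nat_eq (α ^ 2 - 4 * β) two_pos
    have e2 : ((s - α) / 2) ^ 2 + α * ((s - α) / 2) + β = 0 := by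
      have h6 : (4 : k) ≠ 0 := by norm_num
      apply mul_left_cancel₀ h6
      linear_combination hs
    set X := (s - α) / 2 with hX
    refine ⟨X, ?_, ?_⟩
    · unfold qv
      rw [hα, hβ, e1, e0]
      linear_combination c 4 * (X ^ 2 + α * X + β) * e2
    · rw [hα, hβ, e1]
      linear_combination 2 * c 4 * (2 * X + α) * e2
  · obtain ⟨X, g₁, g₀, -, e3, e2, e1, e0⟩ := exists_factor h4 hd hs
    refine ⟨X, ?_, ?_⟩
    · unfold qv
      rw [e0, e1, e2, e3]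
      ring
    · rw [e1, e2, e3]
      ring

end

section

variable {a : ℂ} {p q r : Fin 3 → ℂ}

/-- A web without base points: the third resultant. -/
theorem res12 (h : NoBase (webQ a p q r)) :
    Dm p q r 1 2 ^ 2 - 4 * Ds p q r 1 * Ds p q r 2 ≠ 0 := by
  intro h0
  obtain ⟨k, l, hkl, h1, h2⟩ := common_zero (p := p 1) (q := q 1) (r := r 1) (p' := p 2)
    (q' := q 2) (r' := r 2) (by simpa only [Dm, Ds] using h0)
  have h3 := h ![k, 0, l, 0] (by
    rw [qq_webQ]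
    funext i
    fin_cases i
    · change algebraMap ℂ ℂ a * (2 * (k * 0 - 0 * l)) = 0
      ring
    · change 2 * (p 0 * (k * 0) + q 0 * (k * 0 + 0 * l) + r 0 * (l * 0)) = 0
      ring
    · change p 1 * (k ^ 2 + 0 ^ 2) + 2 * q 1 * (k * l + 0 * 0) + r 1 * (l ^ 2 + 0 ^ 2) = 0
      linear_combination h1
    · change p 2 * (k ^ 2 - 0 ^ 2) + 2 * q 2 * (k * l - 0 * 0) + r 2 * (l ^ 2 - 0 ^ 2) = 0
      linear_combination h2)
  rcases hkl with hk | hl
  · exact hk (congrFun h3 0)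
  · exact hl (congrFun h3 2)

theorem quad_tran {N : Type} [Field N] [Algebra ℂ N] {x : N} (hx : Transcendental ℂ x)
    {u v w : ℂ} (h : algebraMap ℂ N u + algebraMap ℂ N v * x ^ 2 + algebraMap ℂ N w * x ^ 4 = 0) :
    u = 0 ∧ v = 0 ∧ w = 0 := by
  have h1 : (C u + C v * X ^ 2 + C w * X ^ 4 : ℂ[X]) = 0 := by
    by_contra hne
    apply hx
    refine ⟨_, hne, ?_⟩
    simpa using h
  have e0 := congrArg (fun f => coeff f 0) h1
  have e2 := congrArg (fun f => coeff f 2) h1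
  have e4 := congrArg (fun f => coeff f 4) h1
  simp only [coeff_add, coeff_C_mul, coeff_X_pow, coeff_C, coeff_zero] at e0 e2 e4
  simp at e0 e2 e4
  exact ⟨e0, e2, e4⟩

/-- A square factor gives a double root. -/
theorem double_of_sq {N : Type} [Field N] {P L R : N[X]} (hP : P = L ^ 2 * R) {y : N}
    (hy : L.eval y = 0) : P.eval y = 0 ∧ (derivative P).eval y = 0 := by
  constructor
  · rw [hP, eval_mul, eval_pow, hy]
    ring
  · rw [hP, derivative_mul, derivative_pow]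
    simp only [eval_add, eval_mul, eval_pow, hy]
    simp

end

section

variable {N : Type} [Field N] [Algebra ℂ N] [IsAlgClosed N] {a : ℂ} {p q r : Fin 3 → ℂ}

/-- the special points of the conics are not on the curve -/
theorem X_ne (hfin : NoBase (webQ a p q r)) {x X : N} (hx : Transcendental ℂ x)
    (hX : qv (cP (PQ a p q r) (tS x)) X = 0) :
    X ≠ (x ^ 2 + 1) / (x ^ 2 - 1) ∧ X ≠ -((x ^ 2 + 1) / (x ^ 2 - 1)) := by
  have : CharZero N := charZero_of_injective_algebraMap (algebraMap ℂ N).injective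
  obtain ⟨h0, h1, h2⟩ := tran_ne hx
  have key : ∀ {t : N}, Transcendental ℂ t →
      uq (lv (tS x)) X = (fun i => (4 * lv (tS x)) * ![0, 0, 1, t ^ 2] i) → False := by
    intro t ht hu
    rw [cP_PQ, qv_tq, hu, qf_smul] at hX
    have h5 : (4 * lv (tS x)) ≠ 0 := by
      refine mul_ne_zero (by norm_num) ?_
      rw [lv, tS]
      exact div_ne_zero (pow_ne_zero 2 (by rwa [add_comm])) (pow_ne_zero 2 h0)
    have h6 := (mul_eq_zero.1 hX).resolve_left (pow_ne_zero 2 h5)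
    obtain ⟨k7, k8, k9⟩ := quad_tran ht (u := (p 1 * r 1 - q 1 ^ 2) ^ 2)
      (v := 2 * (p 1 * r 1 - q 1 ^ 2) * (p 2 * r 2 - q 2 ^ 2) - Dm p q r 1 2 ^ 2)
      (w := (p 2 * r 2 - q 2 ^ 2) ^ 2) (by
        rw [← h6]
        change _ = algebraMap ℂ N _ * (0 : N) ^ 2 + algebraMap ℂ N _ * (0 * 0) +
          algebraMap ℂ N _ * (0 : N) ^ 2 + algebraMap ℂ N _ * (0 * 1) +
          algebraMap ℂ N _ * (0 * 1) + algebraMap ℂ N _ * (0 * t ^ 2) +
          algebraMap ℂ N _ * (0 * t ^ 2) + algebraMap ℂ N ((p 1 * r 1 - q 1 ^ 2) ^ 2) * 1 ^ 2 +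
          algebraMap ℂ N (2 * (p 1 * r 1 - q 1 ^ 2) * (p 2 * r 2 - q 2 ^ 2) -
            Dm p q r 1 2 ^ 2) * (1 * t ^ 2) +
          algebraMap ℂ N ((p 2 * r 2 - q 2 ^ 2) ^ 2) * (t ^ 2) ^ 2
        ring)
    have l1 : p 1 * r 1 - q 1 ^ 2 = 0 := pow_eq_zero_iff two_ne_zero |>.1 k7
    apply res12 hfin
    rw [Ds, Ds, l1]
    rw [l1] at k8
    linear_combination -k8
  constructor
  · rintro rfl
    refine key hx ?_
    funext i
    fin_cases i
    · change 4 * (lv (tS x) - (lv (tS x) - 4) * ((x ^ 2 + 1) / (x ^ 2 - 1)) ^ 2) =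
        4 * lv (tS x) * 0
      simp only [lv, tS]
      field_simp
      ring
    · change lv (tS x) * (lv (tS x) - (lv (tS x) - 4) * ((x ^ 2 + 1) / (x ^ 2 - 1)) ^ 2) =
        4 * lv (tS x) * 0
      simp only [lv, tS]
      field_simp
      ring
    · change 4 * lv (tS x) = 4 * lv (tS x) * 1
      ring
    · change (lv (tS x) + (lv (tS x) - 4) * ((x ^ 2 + 1) / (x ^ 2 - 1))) ^ 2 =
        4 * lv (tS x) * x ^ 2
      simp only [lv, tS]
      field_simp
      ring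
  · rintro rfl
    refine key (t := x⁻¹) (fun h => hx (by simpa using h.inv)) ?_
    funext i
    fin_cases i
    · change 4 * (lv (tS x) - (lv (tS x) - 4) * (-((x ^ 2 + 1) / (x ^ 2 - 1))) ^ 2) =
        4 * lv (tS x) * 0
      simp only [lv, tS]
      field_simp
      ring
    · change lv (tS x) * (lv (tS x) - (lv (tS x) - 4) * (-((x ^ 2 + 1) / (x ^ 2 - 1))) ^ 2) =
        4 * lv (tS x) * 0
      simp only [lv, tS]
      field_simp
      ring
    · change 4 * lv (tS x) = 4 * lv (tS x) * 1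
      ring
    · change (lv (tS x) + (lv (tS x) - 4) * (-((x ^ 2 + 1) / (x ^ 2 - 1)))) ^ 2 =
        4 * lv (tS x) * x⁻¹ ^ 2
      simp only [lv, tS]
      field_simp
      ring

/-- The determinant of the web in the coordinate of the conic. -/
theorem det_conic (a : ℂ) (p q r : Fin 3 → ℂ) {x t : N} (hx : x ≠ 0) (ht : t ≠ 0)
    (h1 : x ^ 2 - 1 ≠ 0) (h2 : x ^ 2 + 1 ≠ 0) (h3 : t ^ 2 + 1 ≠ 0) :
    (16 * (x ^ 2 + 1) ^ 2 / x ^ 2) ^ 2 * (t ^ 4 * (MM (webQ a p q r) x t).det) =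
      (t ^ 2 + 1) ^ 4 * qv (cP (PQ a p q r) (tS x)) (tX x t) := by
  have : CharZero N := charZero_of_injective_algebraMap (algebraMap ℂ N).injective
  have e1 := uq_frame hx ht h1 h3
  have e2 := det_webQ a p q r hx ht
  have e3 := qf_smul (fun j => algebraMap ℂ N (dQ a p q r j)) (tF x t)
    ![1, lam x t 1 ^ 2, lam x t 2 ^ 2, lam x t 3 ^ 2]
  have e4 := qv_tq (fun j => algebraMap ℂ N (dQ a p q r j)) (lv (tS x)) (tX x t)
  have e5 := cP_PQ a p q r (tS x)
  rw [e5, e4, e1, e3, ← e2, tF]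
  field_simp
  ring

/-- **A double root of the determinant**, if the quartics of the twin have double roots. -/
theorem double_Q8 (hfin : NoBase (webQ a p q r))
    (hd : 4 * (tI (fun i => C (dQ a p q r i)) X : ℂ[X]) ^ 3 =
      tJ (fun i => C (dQ a p q r i)) X ^ 2) {x : N} (hx : Transcendental ℂ x) {P : N[X]}
    (hP : ∀ t : N, t ≠ 0 → P.eval t = t ^ 4 * (MM (webQ a p q r) x t).det) :
    ∃ y : N, y ≠ 0 ∧ P.eval y = 0 ∧ (derivative P).eval y = 0 := by
  classical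
  have : CharZero N := charZero_of_injective_algebraMap (algebraMap ℂ N).injective
  obtain ⟨h0, h1, h2⟩ := tran_ne hx
  set c := cP (PQ a p q r) (tS x) with hc
  have hdisc : 4 * qI c ^ 3 = qJ c ^ 2 := by
    have e1 := congrArg (fun f => aeval (lv (tS x)) f) hd
    simp only [map_mul, map_pow, map_ofNat] at e1
    have e2 : ∀ f : ℂ[X], aeval (lv (tS x)) f = (aeval (lv (tS x)) : ℂ[X] →ₐ[ℂ] N).toRingHom f :=
      fun _ => rfl
    rw [e2, e2, map_tI, map_tJ] at e1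
    simp only [AlgHom.toRingHom_eq_coe, RingHom.coe_coe, aeval_X, aeval_C] at e1
    rw [hc, cP_PQ, qI_tq, qJ_tq]
    linear_combination (lv (tS x) * (lv (tS x) - 4)) ^ 6 * e1
  set ρ := (x ^ 2 + 1) / (x ^ 2 - 1) with hρ
  have ρ0 : ρ ≠ 0 := div_ne_zero h2 h1
  set κ := (16 * (x ^ 2 + 1) ^ 2 / x ^ 2) ^ 2 with hκ
  have κ0 : κ ≠ 0 := pow_ne_zero 2 (div_ne_zero (mul_ne_zero (by norm_num) (pow_ne_zero 2 h2))
    (pow_ne_zero 2 h0))
  have hX : ∀ t : N, t ^ 2 + 1 ≠ 0 → (t ^ 2 + 1) * tX x t = ρ * (t ^ 2 - 1) := by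
    intro t ht
    rw [tX, hρ]
    field_simp
  have hfind : ∀ (L R : N[X]), (∀ t : N, t ≠ 0 → t ^ 2 + 1 ≠ 0 →
      (t ^ 2 + 1) ^ 4 * qv c (tX x t) = L.eval t ^ 2 * R.eval t) → C κ * P = L ^ 2 * R := by
    intro L R hLR
    apply eq_of_infinite_eval_eq
    refine Set.Infinite.mono (s := {t : N | t ≠ 0 ∧ t ^ 2 + 1 ≠ 0}) ?_ ?_
    · rintro t ⟨k0, k1⟩
      change (C κ * P).eval t = (L ^ 2 * R).eval t
      rw [eval_mul, eval_C, hP t k0, hκ, det_conic a p q r h0 k0 h1 h2 k1, ← hc, hLR t k0 k1,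
        eval_mul, eval_pow]
    · have h5 : ({t : N | t ≠ 0 ∧ t ^ 2 + 1 ≠ 0}ᶜ : Set N).Finite := by
        refine Set.Finite.subset ((X * (X ^ 2 + 1) : N[X]).roots.toFinset.finite_toSet) ?_
        intro t ht
        have hne : (X * (X ^ 2 + 1) : N[X]) ≠ 0 := by
          refine mul_ne_zero X_ne_zero ?_
          have : (X ^ 2 + 1 : N[X]).Monic := by
            have := monic_X_pow_add_C (R := N) 1 two_ne_zero
            simpa using this
          exact this.ne_zero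
        rw [Finset.mem_coe, Multiset.mem_toFinset, mem_roots hne, IsRoot.def, eval_mul, eval_X,
          eval_add, eval_pow, eval_X, eval_one]
        by_contra h6
        exact ht ⟨left_ne_zero_of_mul h6, right_ne_zero_of_mul h6⟩
      have h6 := h5.infinite_compl
      rwa [compl_compl] at h6
  have hend : ∀ {L R : N[X]} {y : N}, C κ * P = L ^ 2 * R → L.eval y = 0 →
      P.eval y = 0 ∧ (derivative P).eval y = 0 := by
    intro L R y h5 h6
    have h7 : P = L ^ 2 * (C κ⁻¹ * R) := by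
      have h8 : C κ⁻¹ * (C κ * P) = C κ⁻¹ * (L ^ 2 * R) := by rw [h5]
      rw [← mul_assoc, ← C_mul, inv_mul_cancel₀ κ0, C_1, one_mul] at h8
      rw [h8]
      ring
    exact double_of_sq h7 h6
  rcases exists_double hdisc with ⟨h4, h3⟩ | ⟨X₀, e0, e1⟩
  · obtain ⟨y, hy⟩ := IsAlgClosed.exists_pow_nat_eq (-1 : N) two_pos
    refine ⟨y, ?_, hend (L := X ^ 2 + 1) (R := C (c 0) * (X ^ 2 + 1) ^ 2 +
      C (c 1 * ρ) * ((X ^ 2 - 1) * (X ^ 2 + 1)) + C (c 2 * ρ ^ 2) * (X ^ 2 - 1) ^ 2)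
      (hfind _ _ ?_) ?_⟩
    · rintro rfl
      norm_num at hy
    · intro t _ k1
      have k2 := hX t k1
      simp only [eval_add, eval_mul, eval_pow, eval_X, eval_one, eval_C, eval_sub]
      unfold qv
      rw [h4, h3]
      linear_combination (t ^ 2 + 1) ^ 2 * (c 1 * (t ^ 2 + 1) + c 2 * ((t ^ 2 + 1) * tX x t +
        ρ * (t ^ 2 - 1))) * k2
    · rw [eval_add, eval_pow, eval_X, eval_one, hy]
      ring
  · obtain ⟨n1, n2⟩ := X_ne hfin hx (by rw [← hc]; exact e0)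
    have m1 : ρ - X₀ ≠ 0 := fun h => n1 (sub_eq_zero.1 h).symm
    have m2 : ρ + X₀ ≠ 0 := fun h => n2 (by linear_combination h)
    obtain ⟨y, hy⟩ := IsAlgClosed.exists_pow_nat_eq ((ρ + X₀) / (ρ - X₀)) two_pos
    refine ⟨y, ?_, hend (L := C (ρ - X₀) * X ^ 2 - C (ρ + X₀)) (R :=
      C (c 4 * ρ ^ 2) * (X ^ 2 - 1) ^ 2 +
      C ((c 3 + 2 * c 4 * X₀) * ρ) * ((X ^ 2 - 1) * (X ^ 2 + 1)) +
      C (c 2 + 2 * c 3 * X₀ + 3 * c 4 * X₀ ^ 2) * (X ^ 2 + 1) ^ 2)
      (hfind _ _ ?_) ?_⟩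
    · rintro rfl
      rw [zero_pow two_ne_zero] at hy
      exact (div_ne_zero m2 m1) hy.symm
    · intro t _ k1
      have k2 := hX t k1
      simp only [eval_add, eval_mul, eval_pow, eval_X, eval_one, eval_C, eval_sub]
      set T := tX x t with hT
      have k3 : ∀ T : N, qv c T = (T - X₀) ^ 2 * (c 4 * T ^ 2 + (c 3 + 2 * c 4 * X₀) * T +
          (c 2 + 2 * c 3 * X₀ + 3 * c 4 * X₀ ^ 2)) := by
        intro T
        unfold qv at e0 ⊢
        linear_combination e0 + (T - X₀) * e1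
      have k4 : (ρ - X₀) * t ^ 2 - (ρ + X₀) = (t ^ 2 + 1) * (T - X₀) := by
        linear_combination -k2
      have k5 : c 4 * ρ ^ 2 * (t ^ 2 - 1) ^ 2 + (c 3 + 2 * c 4 * X₀) * ρ * ((t ^ 2 - 1) *
          (t ^ 2 + 1)) + (c 2 + 2 * c 3 * X₀ + 3 * c 4 * X₀ ^ 2) * (t ^ 2 + 1) ^ 2 =
          (t ^ 2 + 1) ^ 2 * (c 4 * T ^ 2 + (c 3 + 2 * c 4 * X₀) * T +
          (c 2 + 2 * c 3 * X₀ + 3 * c 4 * X₀ ^ 2)) := by
        linear_combination -(c 4 * ((t ^ 2 + 1) * T + ρ * (t ^ 2 - 1)) +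
          (c 3 + 2 * c 4 * X₀) * (t ^ 2 + 1)) * k2
      rw [k4, k5, k3]
      ring
    · rw [eval_sub, eval_mul, eval_pow, eval_X, eval_C, eval_C, hy]
      field_simp
      ring

end

end Vale.Agent.P297.H10
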