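import Vale.Agent.P297.H10.Q8BlockD
import Vale.Agent.P297.H10.Q8Sing
import Vale.Agent.P297.H55.Sing
import Vale.Agent.P297.H777.SmoothR
import Vale.Agent.P297.H637.DetNe
import Vale.Agent.P297.H212.Camp.Gcase

/-!
The quaternion case: the conditions follow from the smoothness of the intersection of the four
quadrics.
-/

set_option linter.unusedSectionVars false

namespace Vale.Agent.P297.C8

open Matrix

/-- A smooth intersection has no base points. -/
theorem SmoothX.noBase {Q : Web} (h : SmoothX Q) : NoBase Q := by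
  intro o ho
  by_contra hne
  set B : Matrix (Fin 4) (Fin 4) ℂ := fun i u => qb Q o (Pi.single u 1) i with hB
  have hlin : ∀ (v : Fin 4 → ℂ) (i : Fin 4), qb Q o v i = ∑ u, B i u * v u := by
    intro v i
    simp only [hB, qb_apply, Pi.single_apply, mul_ite, mul_one, mul_zero, Finset.sum_ite_eq',
      Finset.mem_univ, if_true]
    rw [Finset.sum_comm]
    refine Finset.sum_congr rfl fun u _ => ?_
    rw [Finset.sum_mul]
    exact Finset.sum_congr rfl fun b _ => by ring
  have hdet : B.det = 0 := by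
    refine Matrix.exists_mulVec_eq_zero_iff.1 ⟨o, hne, ?_⟩
    funext i
    exact (hlin o i).symm.trans (congrFun ho i)
  obtain ⟨l, hl, hl0⟩ := Matrix.exists_vecMul_eq_zero_iff.2 hdet
  apply hl
  refine h o 0 ?_ (Or.inl hne) l (fun u => ?_) (fun u => ?_)
  · rw [ho]
    funext i
    fin_cases i <;> simp [ee, eb]
  · simp only [hlin, Finset.mul_sum]
    rw [Finset.sum_comm]
    refine Finset.sum_eq_zero fun j _ => ?_
    have h1 := congrFun hl0 j
    have h2 : ∑ i, l i * B i j = 0 := h1
    have h3 : ∑ i, l i * (B i j * u j) = (∑ i, l i * B i j) * u j := by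
      rw [Finset.sum_mul]
      exact Finset.sum_congr rfl fun i _ => by ring
    rw [h3, h2, zero_mul]
  · refine Finset.sum_eq_zero fun i _ => ?_
    have h1 : eb (0 : Fin 3 → ℂ) u i = 0 := by
      fin_cases i <;> simp [eb]
    rw [h1, mul_zero]

end Vale.Agent.P297.C8

namespace Vale.Agent.P297.H10

open Vale.Agent.P297 Vale.Agent.P297.Gen Vale.Agent.P297.G4 Vale.Agent.P297.C8
open Vale.Agent.P297.H637 Vale.Agent.P297.Z3 Polynomial Matrix

section

variable {a : ℂ} {p q r : Fin 3 → ℂ}

/-- The family of quartics is nondegenerate if the intersection of the quadrics is smooth. -/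
theorem hdisc_Q8_of_smooth (hs : SmoothX (webQ a p q r)) :
    4 * (tI (fun i => C (dQ a p q r i)) X : ℂ[X]) ^ 3 ≠ tJ (fun i => C (dQ a p q r i)) X ^ 2 := by
  intro hd
  have hfin := hs.noBase
  let N := AlgebraicClosure (RatFunc ℂ)
  let x : N := algebraMap (RatFunc ℂ) N RatFunc.X
  have hx : Transcendental ℂ x := by
    have h1 : Transcendental ℂ (RatFunc.X : RatFunc ℂ) := RatFunc.transcendental_X
    intro h2
    apply h1
    exact (isAlgebraic_algebraMap_iff (algebraMap (RatFunc ℂ) N).injective).1 h2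
  obtain ⟨y, hy, e1, e2⟩ := double_Q8 (N := N) hfin hd hx (P := (A1 (webQ a p q r) x).det) (by
    intro t ht
    have h1 : (evalRingHom t) (A1 (webQ a p q r) x).det =
      ((evalRingHom t).mapMatrix (A1 (webQ a p q r) x)).det := RingHom.map_det _ _
    have h2 : (evalRingHom t).mapMatrix (A1 (webQ a p q r) x) = t • MM (webQ a p q r) x t := by
      ext i l
      rw [RingHom.mapMatrix_apply, Matrix.map_apply, coe_evalRingHom, A1_eval _ _ ht,
        Matrix.smul_apply, smul_eq_mul]
    rw [coe_evalRingHom] at h1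
    rw [h1, h2, Matrix.det_smul]
    rfl)
  exact no_double_one (webQ_symm a p q r) (fun o v h1 h2 l h3 h4 => smN_of hs o v h1 h2 l h3 h4)
    (fun o ho => zero_of_noBase hfin ho) hx hy e1 e2

/-- The determinant of the web does not vanish at generic points of the plane. -/
theorem hdet_Q8 (hdisc : 4 * (tI (fun i => C (dQ a p q r i)) X : ℂ[X]) ^ 3 ≠
      tJ (fun i => C (dQ a p q r i)) X ^ 2) (N : Type) [Field N] [Algebra ℂ N] (x y : N)
    (h : AlgebraicIndependent ℂ ![x, y]) : (MM (webQ a p q r) x y).det ≠ 0 :=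
  det_ne_of_closed (fun _ _ _ _ _ _ h => (twin_Q8 a p q r).det_ne hdisc (qI_PQ a p q r)
    (qJ_PQ a p q r) h) N x y h

variable {K K₁ : Type} [Field K] [Algebra ℂ K] [Field K₁] [Algebra ℂ K₁] {c : Fin 4 → K₁}

/-- The cycles of the lines of the rulings, in the form for the linking. -/
theorem dhyp_Q8 (hfin : NoBase (webQ a p q r)) (hc : C8.IsFF (webQ a p q r) c)
    (hdisc : 4 * (tI (fun i => C (dQ a p q r i)) X : ℂ[X]) ^ 3 ≠
      tJ (fun i => C (dQ a p q r i)) X ^ 2)
    {g₁ g₂ : K₁ ≃ₐ[ℂ] K₁} (hg : ActQ c g₁ g₂) (ι : K →ₐ[ℂ] K₁) (h₁ : ∀ s, g₁ (ι s) = ι s)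
    (h₂ : ∀ s, g₂ (ι s) = ι s) (n : ℤ) : H212.Camp.DHyp (webQ a p q r) c ι n 128 := by
  intro N _ _ _ h4 x y w z h
  have h5 := blockD_Q8 hfin hc hdisc hg ι h₁ h₂ h4 h n
  rw [← map_zsmul] at h5
  exact h5

end

end Vale.Agent.P297.H10
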