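import Vale.Agent.P297.H777.Octic
import Vale.Agent.P297.H212.Camp.Gen

/-!
The function field of the intersection of the four quadrics `Q(o) = e(v)` in the projective space of
dimension six, and the function field of the octic.
-/

set_option linter.unusedSectionVars false

namespace Vale.Agent.P297.C8

open IntermediateField

/-- The elements `x`, `v` generate the function field of the intersection `Q(o) = e(v)` of four
quadrics. -/
structure IsX (Q : Web) {E : Type} [Field E] [Algebra ℂ E] (x : Fin 4 → E) (v : Fin 3 → E) :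
    Prop where
  one : x 0 = 1
  eq : qq Q x = ee v
  top : adjoin ℂ (Set.range x ∪ Set.range v) = ⊤
  trdeg : Algebra.trdeg ℂ E = 2

section

variable {Q : Web} {E : Type} [Field E] [Algebra ℂ E] {x : Fin 4 → E} {v : Fin 3 → E}

/-- The field generated by the coordinates of the octic. -/
noncomputable abbrev K1 (x : Fin 4 → E) : IntermediateField ℂ E := adjoin ℂ (Set.range x)

/-- The coordinates. -/
noncomputable def cx (x : Fin 4 → E) : Fin 4 → K1 x := fun j => ⟨x j, subset_adjoin ℂ _ ⟨j, rfl⟩⟩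

theorem val_cx (x : Fin 4 → E) (j : Fin 4) : ((cx x j : K1 x) : E) = x j := rfl

theorem qq_mem (Q : Web) (x : Fin 4 → E) (i : Fin 4) : qq Q x i ∈ K1 x := by
  have h := map_qq Q (K1 x).val (cx x) i
  have h1 : (fun j => (K1 x).val (cx x j)) = x := rfl
  rw [h1] at h
  rw [← h]
  exact ((qq Q (cx x)) i).2

/-- the squares of the coordinates `v` -/
theorem IsX.quartic (h : IsX Q x v) (j : Fin 3) : ∃ a b : E, a ∈ K1 x ∧ b ∈ K1 x ∧
    v j ^ 4 + a * v j ^ 2 + b = 0 := by
  have h0 := congrFun h.eq 0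
  have h1 := congrFun h.eq 1
  have h2 := congrFun h.eq 2
  have h3 := congrFun h.eq 3
  change _ = v 0 * v 0 + v 1 * v 1 + v 2 * v 2 at h0
  change _ = v 1 * v 2 + v 2 * v 1 at h1
  change _ = v 0 * v 2 + v 2 * v 0 at h2
  change _ = v 0 * v 1 + v 1 * v 0 at h3
  have m := qq_mem Q x
  have key : ∀ i k : Fin 4, ((qq Q x i) ^ 2 + (qq Q x k) ^ 2) / 4 ∈ K1 x := fun i k =>
    div_mem (add_mem (pow_mem (m i) 2) (pow_mem (m k) 2)) (ofNat_mem _ 4)
  have : CharZero E := charZero_of_injective_algebraMap (algebraMap ℂ E).injective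
  fin_cases j
  · refine ⟨-qq Q x 0, _, neg_mem (m 0), key 2 3, ?_⟩
    change v 0 ^ 4 + -qq Q x 0 * v 0 ^ 2 + (qq Q x 2 ^ 2 + qq Q x 3 ^ 2) / 4 = 0
    rw [h0, h2, h3]
    ring
  · refine ⟨-qq Q x 0, _, neg_mem (m 0), key 1 3, ?_⟩
    change v 1 ^ 4 + -qq Q x 0 * v 1 ^ 2 + (qq Q x 1 ^ 2 + qq Q x 3 ^ 2) / 4 = 0
    rw [h0, h1, h3]
    ring
  · refine ⟨-qq Q x 0, _, neg_mem (m 0), key 1 2, ?_⟩
    change v 2 ^ 4 + -qq Q x 0 * v 2 ^ 2 + (qq Q x 1 ^ 2 + qq Q x 2 ^ 2) / 4 = 0
    rw [h0, h1, h2]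
    ring

theorem IsX.algebraic (h : IsX Q x v) : Algebra.IsAlgebraic (K1 x) E := by
  have hv : ∀ s ∈ Set.range x ∪ Set.range v, IsAlgebraic (K1 x) s := by
    rintro s (⟨j, rfl⟩ | ⟨j, rfl⟩)
    · exact isAlgebraic_algebraMap (⟨x j, subset_adjoin ℂ _ ⟨j, rfl⟩⟩ : K1 x)
    · obtain ⟨a, b, ha, hb, he⟩ := h.quartic j
      refine ⟨Polynomial.X ^ 4 + Polynomial.C (⟨a, ha⟩ : K1 x) * Polynomial.X ^ 2 +
        Polynomial.C (⟨b, hb⟩ : K1 x), ?_, ?_⟩
      · intro h0
        have h1 := congrArg (fun p => Polynomial.coeff p 4) h0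
        simp [Polynomial.coeff_X_pow] at h1
      · simpa using he
  have htop : adjoin (K1 x) (Set.range x ∪ Set.range v) = ⊤ := by
    rw [← restrictScalars_eq_top_iff (K := ℂ)]
    rw [eq_top_iff, ← h.top, adjoin_le_iff]
    intro s hs
    exact subset_adjoin (K1 x) _ hs
  have halg := isAlgebraic_adjoin (K := K1 x) (S := Set.range x ∪ Set.range v)
    (fun s hs => (hv s hs).isIntegral)
  refine ⟨fun s => ?_⟩
  have hs : s ∈ adjoin (K1 x) (Set.range x ∪ Set.range v) := by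
    rw [htop]
    exact mem_top
  exact isAlgebraic_iff.1 (halg.isAlgebraic (⟨s, hs⟩ : adjoin (K1 x) (Set.range x ∪ Set.range v)))

theorem IsX.trdeg_K1 (h : IsX Q x v) : Algebra.trdeg ℂ (K1 x) = 2 := by
  have := h.algebraic
  have h1 := trdeg_add_eq ℂ (K1 x) (A := E)
  rw [trdeg_eq_zero_iff.2 this, add_zero, h.trdeg] at h1
  exact h1

/-- **The octic.** -/
theorem IsX.isFF (h : IsX Q x v) (hirr : Irreducible (octic Q)) : IsFF Q (cx x) where
  one := Subtype.ext h.one
  top := by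
    have h1 : (adjoin ℂ (Set.range (cx x))).map (K1 x).val = (⊤ : IntermediateField ℂ (K1 x)).map
        (K1 x).val := by
      rw [adjoin_map, ← Set.range_comp]
      have h2 : ((K1 x).val ∘ cx x) = x := rfl
      rw [h2]
      apply le_antisymm
      · rintro s hs
        exact ⟨⟨s, hs⟩, trivial, rfl⟩
      · rintro _ ⟨s, -, rfl⟩
        exact s.2
    apply map_injective (K1 x).val h1
  zero := by
    have h1 := map_st_qq Q (K1 x).val (cx x)
    have h2 : (fun j => (K1 x).val (cx x j)) = x := rfl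
    rw [h2, h.eq, st_ee] at h1
    exact (map_eq_zero_iff _ (K1 x).val.toRingHom.injective).1 h1
  trdeg := h.trdeg_K1
  irr := hirr

/-- All elements are linear in `v 0`. -/
theorem IsX.linear (h : IsX Q x v) (h0 : v 0 ≠ 0) (h1 : v 0 ^ 2 ∈ K1 x) (s : E) :
    ∃ a b : E, a ∈ K1 x ∧ b ∈ K1 x ∧ s = a + b * v 0 := by
  have hs : s ∈ adjoin ℂ (Set.range x ∪ Set.range v) := by
    rw [h.top]
    exact mem_top
  have e2 := congrFun h.eq 2
  have e3 := congrFun h.eq 3
  change _ = v 0 * v 2 + v 2 * v 0 at e2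
  change _ = v 0 * v 1 + v 1 * v 0 at e3
  have : CharZero E := charZero_of_injective_algebraMap (algebraMap ℂ E).injective
  have m := qq_mem Q x
  refine adjoin_induction (F := ℂ) (s := Set.range x ∪ Set.range v)
    (p := fun s _ => ∃ a b : E, a ∈ K1 x ∧ b ∈ K1 x ∧ s = a + b * v 0) ?_ ?_ ?_ ?_ ?_ hs
  · rintro _ (⟨j, rfl⟩ | ⟨j, rfl⟩)
    · exact ⟨x j, 0, subset_adjoin ℂ _ ⟨j, rfl⟩, zero_mem _, by ring⟩
    · fin_cases j
      · exact ⟨0, 1, zero_mem _, one_mem _, by simp⟩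
      · refine ⟨0, qq Q x 3 / (2 * v 0 ^ 2), zero_mem _,
          div_mem (m 3) (mul_mem (ofNat_mem _ 2) h1), ?_⟩
        change v 1 = _
        rw [e3]
        field_simp
        ring
      · refine ⟨0, qq Q x 2 / (2 * v 0 ^ 2), zero_mem _,
          div_mem (m 2) (mul_mem (ofNat_mem _ 2) h1), ?_⟩
        change v 2 = _
        rw [e2]
        field_simp
        ring
  · intro c
    exact ⟨algebraMap ℂ E c, 0, (K1 x).algebraMap_mem c, zero_mem _, by ring⟩
  · rintro s t - - ⟨a, b, ha, hb, rfl⟩ ⟨a', b', ha', hb', rfl⟩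
    exact ⟨a + a', b + b', add_mem ha ha', add_mem hb hb', by ring⟩
  · rintro s - ⟨a, b, ha, hb, rfl⟩
    by_cases hn : a ^ 2 - b ^ 2 * v 0 ^ 2 = 0
    · have h2 : (a - b * v 0) * (a + b * v 0) = 0 := by linear_combination hn
      rcases mul_eq_zero.1 h2 with h3 | h3
      · refine ⟨(2 * a)⁻¹, 0, inv_mem (mul_mem (ofNat_mem _ 2) ha), zero_mem _, ?_⟩
        have h4 : b * v 0 = a := by linear_combination -h3
        rw [h4]
        ring
      · exact ⟨0, 0, zero_mem _, zero_mem _, by rw [h3]; simp⟩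
    · have hden := sub_mem (pow_mem ha 2) (mul_mem (pow_mem hb 2) h1)
      refine ⟨a / (a ^ 2 - b ^ 2 * v 0 ^ 2), -b / (a ^ 2 - b ^ 2 * v 0 ^ 2),
        div_mem ha hden, div_mem (neg_mem hb) hden, ?_⟩
      have h5 : a + b * v 0 ≠ 0 := by
        intro h6
        apply hn
        linear_combination (a - b * v 0) * h6
      field_simp
      ring
  · rintro s t - - ⟨a, b, ha, hb, rfl⟩ ⟨a', b', ha', hb', rfl⟩
    refine ⟨a * a' + b * b' * v 0 ^ 2, a * b' + a' * b,
      add_mem (mul_mem ha ha') (mul_mem (mul_mem hb hb') h1),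
      add_mem (mul_mem ha hb') (mul_mem ha' hb), by ring⟩

/-- **The involution.** An element fixed by the involution lies in the field of the octic. -/
theorem IsX.mem_of_fixed (h : IsX Q x v) (hirr : Irreducible (octic Q)) {σ : E →ₐ[ℂ] E}
    (hx : ∀ j, σ (x j) = x j) (hv : ∀ j, σ (v j) = -v j) {s : E} (hs : σ s = s) : s ∈ K1 x := by
  have : CharZero E := charZero_of_injective_algebraMap (algebraMap ℂ E).injective
  have hFF := h.isFF hirr
  have hgen : GenW Q (cx x) := by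
    have h1 := GenW.of_phi hFF (AlgHom.id ℂ (K1 x))
    exact h1
  have hne : ∀ i, i ≠ 0 → qq Q x i ≠ 0 := by
    intro i hi h0
    have h1 := H212.Camp.qq_ne hFF hgen hi
    apply h1
    have h2 := map_qq Q (K1 x).val (cx x) i
    have h3 : (fun j => (K1 x).val (cx x j)) = x := rfl
    rw [h3, h0] at h2
    exact (map_eq_zero_iff _ (K1 x).val.toRingHom.injective).1 h2
  have e1 := congrFun h.eq 1
  have e2 := congrFun h.eq 2
  have e3 := congrFun h.eq 3
  change _ = v 1 * v 2 + v 2 * v 1 at e1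
  change _ = v 0 * v 2 + v 2 * v 0 at e2
  change _ = v 0 * v 1 + v 1 * v 0 at e3
  have n1 := hne 1 (by decide)
  have n2 := hne 2 (by decide)
  have v0 : v 0 ≠ 0 := by
    intro h0
    apply n2
    rw [e2, h0]
    ring
  have v1 : v 1 ≠ 0 := by
    intro h0
    apply n1
    rw [e1, h0]
    ring
  have v2 : v 2 ≠ 0 := by
    intro h0
    apply n1
    rw [e1, h0]
    ring
  have m := qq_mem Q x
  have hv2 : v 0 ^ 2 ∈ K1 x := by
    have h5 : v 0 ^ 2 = qq Q x 2 * qq Q x 3 / (2 * qq Q x 1) := by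
      rw [e1, e2, e3]
      field_simp
      ring
    rw [h5]
    exact div_mem (mul_mem (m 2) (m 3)) (mul_mem (ofNat_mem _ 2) (m 1))
  obtain ⟨a, b, ha, hb, rfl⟩ := h.linear v0 hv2 s
  have hfix : ∀ t ∈ K1 x, σ t = t := by
    intro t ht
    refine adjoin_induction (F := ℂ) (s := Set.range x) (p := fun s _ => σ s = s) ?_ ?_ ?_ ?_ ?_ ht
    · rintro _ ⟨j, rfl⟩
      exact hx j
    · intro c
      exact σ.commutes c
    · intro s t _ _ h1 h2
      rw [map_add, h1, h2]
    · intro s _ h1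
      rw [map_inv₀, h1]
    · intro s t _ _ h1 h2
      rw [map_mul, h1, h2]
  rw [map_add, map_mul, hfix a ha, hfix b hb, hv 0] at hs
  have h6 : b * v 0 = 0 := by
    have h7 : (2 : E) * (b * v 0) = 0 := by linear_combination -hs
    exact (mul_eq_zero.1 h7).resolve_left two_ne_zero
  rw [h6, add_zero]
  exact ha

end

end Vale.Agent.P297.C8
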