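import Vale.Agent.P297.H10.Q8Link
import Vale.Agent.P297.H10.XField
import Vale.Agent.P297.H212.Camp.Smooth8

/-!
Bloch's conjecture for the quotients by the quaternion group of the smooth intersections of four
quadrics.
-/

set_option linter.unusedSectionVars false

namespace Vale.Agent.P297.C8

open IntermediateField

section

variable {Q : Web} {E : Type} [Field E] [Algebra ℂ E] {x : Fin 4 → E} {v : Fin 3 → E}

/-- An automorphism that acts as an involution on the field of the octic. -/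
theorem exists_restrK1 (G : E ≃ₐ[ℂ] E) (h1 : ∀ j, G (x j) ∈ K1 x)
    (h2 : ∀ j, G (G (x j)) = x j) : ∃ g : K1 x ≃ₐ[ℂ] K1 x, ∀ s, (g s : E) = G s := by
  have k1 : ∀ s ∈ K1 x, G s ∈ K1 x := by
    intro s hs
    refine adjoin_induction (F := ℂ) (s := Set.range x) (p := fun s _ => G s ∈ K1 x)
      ?_ ?_ ?_ ?_ ?_ hs
    · rintro _ ⟨j, rfl⟩
      exact h1 j
    · intro c
      rw [G.commutes]
      exact (K1 x).algebraMap_mem c
    · intro s t _ _ e1 e2
      rw [map_add]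
      exact add_mem e1 e2
    · intro s _ e1
      rw [map_inv₀]
      exact inv_mem e1
    · intro s t _ _ e1 e2
      rw [map_mul]
      exact mul_mem e1 e2
  have k2 : ∀ s ∈ K1 x, G (G s) = s := by
    intro s hs
    refine adjoin_induction (F := ℂ) (s := Set.range x) (p := fun s _ => G (G s) = s)
      ?_ ?_ ?_ ?_ ?_ hs
    · rintro _ ⟨j, rfl⟩
      exact h2 j
    · intro c
      rw [G.commutes, G.commutes]
    · intro s t _ _ e1 e2
      rw [map_add, map_add, e1, e2]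
    · intro s _ e1
      rw [map_inv₀, map_inv₀, e1]
    · intro s t _ _ e1 e2
      rw [map_mul, map_mul, e1, e2]
  let g : K1 x →ₐ[ℂ] K1 x := (G.toAlgHom.comp (K1 x).val).codRestrict (K1 x).toSubalgebra
    (fun s => k1 s s.2)
  have hg : ∀ s, (g s : E) = G s := fun s => rfl
  have hgg : g.comp g = AlgHom.id ℂ (K1 x) := by
    apply AlgHom.ext
    intro s
    apply Subtype.ext
    exact k2 s s.2
  exact ⟨AlgEquiv.ofAlgHom g g hgg hgg, hg⟩

end

end Vale.Agent.P297.C8

namespace Vale.Agent.P297.H10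

open Vale.Agent.P297 Vale.Agent.P297.Gen Vale.Agent.P297.G4 Vale.Agent.P297.C8
open Vale.Agent.P297.H637 Vale.Agent.P297.Z3

section

variable {a : ℂ} {p q r : Fin 3 → ℂ}
variable {K K₁ : Type} [Field K] [Algebra ℂ K] [Field K₁] [Algebra ℂ K₁] {c : Fin 4 → K₁}

/-- **Bloch's conjecture**: the quaternion case, on the field of the octic. -/
theorem bloch_Q8 (hs : SmoothX (webQ a p q r)) (hc : C8.IsFF (webQ a p q r) c)
    {g₁ g₂ : K₁ ≃ₐ[ℂ] K₁} (hg : ActQ c g₁ g₂) (ι : K →ₐ[ℂ] K₁) (h₁ : ∀ s, g₁ (ι s) = ι s)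
    (h₂ : ∀ s, g₂ (ι s) = ι s) : H839.PointsEquivalent K := by
  have hdisc := hdisc_Q8_of_smooth hs
  exact H212.Camp.bloch_smooth (N := AlgebraicClosure K₁) (n := 128) hc (webQ_symm a p q r)
    hs.noBase hc.irr (three_webQ a p q r) (hdet_Q8 hdisc) (by norm_num)
    (dhyp_Q8 hs.noBase hc hdisc hg ι h₁ h₂ 0) hs
    (IsScalarTower.toAlgHom ℂ K₁ (AlgebraicClosure K₁))

variable {E : Type} [Field E] [Algebra ℂ E] {x : Fin 4 → E} {v : Fin 3 → E}

/-- The automorphisms of the function field of `Q(o) = e(v)` that generate the quaternion group. -/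
structure ActX (x : Fin 4 → E) (v : Fin 3 → E) (G₁ G₂ : E ≃ₐ[ℂ] E) : Prop where
  a1 : G₁ (x 1) = -x 1
  a2 : G₁ (x 2) = x 2
  a3 : G₁ (x 3) = -x 3
  a4 : G₁ (v 0) = -(algebraMap ℂ E Complex.I * v 0)
  a5 : G₁ (v 1) = algebraMap ℂ E Complex.I * v 1
  a6 : G₁ (v 2) = algebraMap ℂ E Complex.I * v 2
  b1 : G₂ (x 1) = -(x 1)⁻¹
  b2 : G₂ (x 2) = x 3 / x 1
  b3 : G₂ (x 3) = -(x 2 / x 1)
  b4 : G₂ (v 0) = -(v 0 / x 1)
  b5 : G₂ (v 1) = v 1 / x 1
  b6 : G₂ (v 2) = -(v 2 / x 1)

/-- **Bloch's conjecture** for the quotients by the quaternion group. -/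
theorem bloch_Q8X (hs : SmoothX (webQ a p q r)) (hirr : Irreducible (octic (webQ a p q r)))
    (hX : IsX (webQ a p q r) x v) {G₁ G₂ : E ≃ₐ[ℂ] E} (hG : ActX x v G₁ G₂) :
    H839.PointsEquivalent (IntermediateField.fixedField (F := ℂ) (Subgroup.closure {G₁, G₂})) := by
  have mx : ∀ j, x j ∈ K1 x := fun j => IntermediateField.subset_adjoin ℂ _ ⟨j, rfl⟩
  have hFF := hX.isFF hirr
  have hgen : GenW (webQ a p q r) (cx x) := GenW.of_phi hFF (AlgHom.id ℂ (K1 x))
  have x1 : x 1 ≠ 0 := by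
    intro h0
    have h1 := coord_ne hirr hgen 1
    exact h1 (Subtype.ext h0)
  have h0 : ∀ G : E ≃ₐ[ℂ] E, G (x 0) = x 0 := fun G => by rw [hX.one, map_one]
  obtain ⟨g₁, hg₁⟩ := exists_restrK1 (x := x) G₁ (by
    intro j
    fin_cases j
    · change G₁ (x 0) ∈ _
      rw [h0]
      exact mx 0
    · change G₁ (x 1) ∈ _
      rw [hG.a1]
      exact neg_mem (mx 1)
    · change G₁ (x 2) ∈ _
      rw [hG.a2]
      exact mx 2
    · change G₁ (x 3) ∈ _
      rw [hG.a3]
      exact neg_mem (mx 3)) (by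
    intro j
    fin_cases j
    · change G₁ (G₁ (x 0)) = x 0
      rw [h0, h0]
    · change G₁ (G₁ (x 1)) = x 1
      rw [hG.a1, map_neg, hG.a1, neg_neg]
    · change G₁ (G₁ (x 2)) = x 2
      rw [hG.a2, hG.a2]
    · change G₁ (G₁ (x 3)) = x 3
      rw [hG.a3, map_neg, hG.a3, neg_neg])
  obtain ⟨g₂, hg₂⟩ := exists_restrK1 (x := x) G₂ (by
    intro j
    fin_cases j
    · change G₂ (x 0) ∈ _
      rw [h0]
      exact mx 0
    · change G₂ (x 1) ∈ _
      rw [hG.b1]
      exact neg_mem (inv_mem (mx 1))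
    · change G₂ (x 2) ∈ _
      rw [hG.b2]
      exact div_mem (mx 3) (mx 1)
    · change G₂ (x 3) ∈ _
      rw [hG.b3]
      exact neg_mem (div_mem (mx 2) (mx 1))) (by
    intro j
    fin_cases j
    · change G₂ (G₂ (x 0)) = x 0
      rw [h0, h0]
    · change G₂ (G₂ (x 1)) = x 1
      rw [hG.b1, map_neg, map_inv₀, hG.b1]
      field_simp
    · change G₂ (G₂ (x 2)) = x 2
      rw [hG.b2, map_div₀, hG.b1, hG.b3]
      field_simp
    · change G₂ (G₂ (x 3)) = x 3
      rw [hG.b3, map_neg, map_div₀, hG.b1, hG.b2]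
      field_simp)
  have hact : ActQ (cx x) g₁ g₂ := by
    refine ⟨?_, ?_, ?_, ?_, ?_, ?_⟩ <;> apply Subtype.ext
    · rw [hg₁]
      exact hG.a1
    · rw [hg₁]
      exact hG.a2
    · rw [hg₁]
      exact hG.a3
    · rw [hg₂]
      exact hG.b1
    · rw [hg₂]
      exact hG.b2
    · rw [hg₂]
      exact hG.b3
  set H := Subgroup.closure {G₁, G₂} with hH
  have hI : algebraMap ℂ E Complex.I * algebraMap ℂ E Complex.I = -1 := by
    rw [← map_mul, Complex.I_mul_I, map_neg, map_one]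
  have hle : IntermediateField.fixedField (F := ℂ) H ≤ K1 x := by
    intro s hs
    obtain ⟨e1, -⟩ := fixed_val G₁ G₂ ⟨s, hs⟩
    refine hX.mem_of_fixed hirr (σ := (G₁ * G₁ : E ≃ₐ[ℂ] E).toAlgHom) ?_ ?_ ?_
    · intro j
      change G₁ (G₁ (x j)) = x j
      fin_cases j
      · change G₁ (G₁ (x 0)) = x 0
        rw [h0, h0]
      · change G₁ (G₁ (x 1)) = x 1
        rw [hG.a1, map_neg, hG.a1, neg_neg]
      · change G₁ (G₁ (x 2)) = x 2
        rw [hG.a2, hG.a2]
      · change G₁ (G₁ (x 3)) = x 3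
        rw [hG.a3, map_neg, hG.a3, neg_neg]
    · intro j
      change G₁ (G₁ (v j)) = -v j
      fin_cases j
      · change G₁ (G₁ (v 0)) = -v 0
        rw [hG.a4, map_neg, map_mul, G₁.commutes, hG.a4]
        linear_combination v 0 * hI
      · change G₁ (G₁ (v 1)) = -v 1
        rw [hG.a5, map_mul, G₁.commutes, hG.a5]
        linear_combination v 1 * hI
      · change G₁ (G₁ (v 2)) = -v 2
        rw [hG.a6, map_mul, G₁.commutes, hG.a6]
        linear_combination v 2 * hI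
    · change G₁ (G₁ s) = s
      have e2 : G₁ s = s := e1
      rw [e2, e2]
  refine bloch_Q8 hs hFF hact (IntermediateField.inclusion hle) ?_ ?_
  · intro s
    apply Subtype.ext
    rw [hg₁]
    exact (fixed_val G₁ G₂ s).1
  · intro s
    apply Subtype.ext
    rw [hg₂]
    exact (fixed_val G₁ G₂ s).2

end

end Vale.Agent.P297.H10
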