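import Vale.Agent.P297.H10.Q8Grp
import Vale.Agent.P297.H637.ZSum

/-!
The group package for the quaternion group.
-/

set_option linter.unusedSectionVars false
set_option linter.unusedSimpArgs false

namespace Vale.Agent.P297.H10

open Vale.Agent.P297 Vale.Agent.P297.Gen Vale.Agent.P297.G4 Vale.Agent.P297.C8
open Vale.Agent.P297.H637 Vale.Agent.P297.Z3 Polynomial Matrix

section

variable {N : Type} [Field N] [Algebra ℂ N]

theorem map_tS (g : N ≃ₐ[ℂ] N) (x : N) : g (tS x) = tS (g x) := map_pow g x 2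

theorem map_tX (g : N ≃ₐ[ℂ] N) (x y : N) : g (tX x y) = tX (g x) (g y) := by
  simp only [tX, map_mul, map_div₀, map_add, map_sub, map_pow, map_one]

theorem map_tY (g : N ≃ₐ[ℂ] N) (x y w : N) : g (tY x y w) = tY (g x) (g y) (g w) := by
  simp only [tY, tF, map_mul, map_div₀, map_add, map_pow, map_one, map_ofNat]

variable [IsAlgClosed N]

theorem xy_mem {x y : N} (h : AlgebraicIndependent ℂ ![x, y]) {F : IntermediateField ℂ N}
    (hF : Closed F) (hS : tS x ∈ F) (hX : tX x y ∈ F) : x ∈ F ∧ y ∈ F := by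
  have : CharZero N := charZero_of_injective_algebraMap (algebraMap ℂ N).injective
  obtain ⟨hx, hy⟩ := tran_of_ind h
  obtain ⟨-, h1, h2⟩ := tran_ne hx
  obtain ⟨-, -, h3⟩ := tran_ne (tran_of_notMem hy)
  have hxm : x ∈ F := mem_of_sq_mem hF hS
  refine ⟨hxm, ?_⟩
  apply mem_of_sq_mem hF
  have k1 : (y ^ 2 - 1) / (y ^ 2 + 1) ∈ F := by
    have e : (y ^ 2 - 1) / (y ^ 2 + 1) = tX x y * ((x ^ 2 - 1) / (x ^ 2 + 1)) := by
      rw [tX]
      field_simp
    rw [e]
    exact mul_mem hX (div_mem (sub_mem (pow_mem hxm 2) (one_mem _))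
      (add_mem (pow_mem hxm 2) (one_mem _)))
  set κ := (y ^ 2 - 1) / (y ^ 2 + 1) with hκ
  have k3 : 1 - κ ≠ 0 := by
    rw [hκ]
    have e : 1 - (y ^ 2 - 1) / (y ^ 2 + 1) = 2 / (y ^ 2 + 1) := by
      field_simp
      ring
    rw [e]
    exact div_ne_zero two_ne_zero h3
  have k4 : y ^ 2 = (1 + κ) / (1 - κ) := by
    rw [eq_div_iff k3, hκ]
    field_simp
    ring
  rw [k4]
  exact div_mem (add_mem (one_mem _) k1) (sub_mem (one_mem _) k1)

/-- **The group package.** -/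
theorem twin_Q8 (a : ℂ) (p q r : Fin 3 → ℂ) :
    Twin (webQ a p q r) (PQ a p q r) (N := N) (fun x _ => tS x) tX tY where
  gen := by
    intro x y w h hw
    obtain ⟨hx, hy⟩ := tran_of_ind h
    exact genT_Q8 a p q r hx hy hw
  inv := by
    intro x y h w
    obtain ⟨hx, hy⟩ := tran_of_ind h
    obtain ⟨x0, x1, -⟩ := tran_ne hx
    obtain ⟨y0, -, y2⟩ := tran_ne (tran_of_notMem hy)
    exact ⟨tS_inv x, tX_inv x0 y0 x1 y2, tY_inv x0 y0 w⟩
  map := fun g x y w => ⟨map_tS g x, map_tX g x y, map_tY g x y w⟩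
  zero := fun x y => mul_zero _
  alg := by
    intro x y h
    exact xy_mem h (closed_cl0 _) (subset_cl0 _ (by simp)) (subset_cl0 _ (by simp))
  lifts := by
    intro s X Y h
    obtain ⟨k, hk, hk'⟩ := lifts_Q8 a p q r h
    refine ⟨k, hk, fun x y w => ?_⟩
    constructor
    · rintro ⟨h1, h2, h3, h4, h5⟩
      obtain ⟨hx, hy⟩ := tran_of_ind h1
      obtain ⟨i, hi⟩ := (hk' x y w).1 ⟨hx, hy, h2, h3, h4, h5⟩
      exact ⟨i, hi.symm⟩
    · rintro ⟨i, hi⟩
      obtain ⟨hx, hy, h2, h3, h4, h5⟩ := (hk' x y w).2 ⟨i, hi.symm⟩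
      exact ⟨ind_of_tran hx hy, h2, h3, h4, h5⟩

end

end Vale.Agent.P297.H10
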