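import Vale.Agent.P297.H55.All

/-!
The twin of the numerical Campedelli surfaces with fundamental group of order eight on which
`(ℤ/2)²` acts: a quadratic form in four variables on a pencil of conics.
-/

namespace Vale.Agent.P297.H10

open Vale.Agent.P297.G4 Polynomial

section

variable {R : Type} [CommRing R]

/-- A quadratic form in four variables. -/
def qf (d : Fin 10 → R) (u : Fin 4 → R) : R :=
  d 0 * u 0 ^ 2 + d 1 * (u 0 * u 1) + d 2 * u 1 ^ 2 + d 3 * (u 0 * u 2) + d 4 * (u 1 * u 2) +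
    d 5 * (u 0 * u 3) + d 6 * (u 1 * u 3) + d 7 * u 2 ^ 2 + d 8 * (u 2 * u 3) + d 9 * u 3 ^ 2

/-- A point of the pencil of conics. -/
def uq (l X : R) : Fin 4 → R :=
  ![4 * (l - (l - 4) * X ^ 2), l * (l - (l - 4) * X ^ 2), 4 * l, (l + (l - 4) * X) ^ 2]

/-- `α` -/
def ta (d : Fin 10 → R) (l : R) : R := 16 * d 0 + 4 * l * d 1 + l ^ 2 * d 2

/-- `β` -/
def tb (d : Fin 10 → R) (l : R) : R := 4 * d 3 + l * d 4

/-- `γ` -/
def tg (d : Fin 10 → R) (l : R) : R := 4 * d 5 + l * d 6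

/-- The quartic: the quadratic form on the conic. -/
def tq (d : Fin 10 → R) (l : R) : Fin 5 → R :=
  ![l ^ 2 * (ta d l + 4 * tb d l + l * tg d l + 16 * d 7 + 4 * l * d 8 + l ^ 2 * d 9),
    2 * l ^ 2 * (l - 4) * (tg d l + 4 * d 8 + 2 * l * d 9),
    -(2 * l * (l - 4)) * ta d l - 4 * l * (l - 4) * tb d l - 4 * l * (l - 4) * tg d l +
      4 * l * (l - 4) ^ 2 * d 8 + 6 * l ^ 2 * (l - 4) ^ 2 * d 9,
    2 * l * (l - 4) ^ 2 * (2 * (l - 4) * d 9 - tg d l),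
    (l - 4) ^ 2 * (ta d l - (l - 4) * tg d l + (l - 4) ^ 2 * d 9)]

theorem qv_tq (d : Fin 10 → R) (l X : R) : qv (tq d l) X = qf d (uq l X) := by
  change l ^ 2 * (ta d l + 4 * tb d l + l * tg d l + 16 * d 7 + 4 * l * d 8 + l ^ 2 * d 9) +
    2 * l ^ 2 * (l - 4) * (tg d l + 4 * d 8 + 2 * l * d 9) * X +
    (-(2 * l * (l - 4)) * ta d l - 4 * l * (l - 4) * tb d l - 4 * l * (l - 4) * tg d l +
      4 * l * (l - 4) ^ 2 * d 8 + 6 * l ^ 2 * (l - 4) ^ 2 * d 9) * X ^ 2 +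
    2 * l * (l - 4) ^ 2 * (2 * (l - 4) * d 9 - tg d l) * X ^ 3 +
    (l - 4) ^ 2 * (ta d l - (l - 4) * tg d l + (l - 4) ^ 2 * d 9) * X ^ 4 =
    d 0 * (4 * (l - (l - 4) * X ^ 2)) ^ 2 + d 1 * (4 * (l - (l - 4) * X ^ 2) *
      (l * (l - (l - 4) * X ^ 2))) + d 2 * (l * (l - (l - 4) * X ^ 2)) ^ 2 +
    d 3 * (4 * (l - (l - 4) * X ^ 2) * (4 * l)) + d 4 * (l * (l - (l - 4) * X ^ 2) * (4 * l)) +
    d 5 * (4 * (l - (l - 4) * X ^ 2) * (l + (l - 4) * X) ^ 2) +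
    d 6 * (l * (l - (l - 4) * X ^ 2) * (l + (l - 4) * X) ^ 2) + d 7 * (4 * l) ^ 2 +
    d 8 * (4 * l * (l + (l - 4) * X) ^ 2) + d 9 * ((l + (l - 4) * X) ^ 2) ^ 2
  simp only [ta, tb, tg]
  ring

/-- `Θ` -/
def tTh (d : Fin 10 → R) (l : R) : R := ta d l + 2 * tb d l + 2 * tg d l - 2 * (l - 4) * d 8

/-- `Q` -/
def tQ (d : Fin 10 → R) (l : R) : R :=
  4 * (l - 4) ^ 2 * (d 7 * d 9) - (l - 4) ^ 2 * d 8 ^ 2 +
    (l - 4) * (-4 * tb d l * d 9 + 2 * tg d l * d 8 + 2 * tb d l * d 8 - 4 * d 7 * tg d l) +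
    4 * ta d l * d 9 - tg d l ^ 2 + 4 * ta d l * d 7 - tb d l ^ 2 +
    (2 - l) * (tb d l * tg d l - 2 * ta d l * d 8)

/-- `Δ` -/
def tDe (d : Fin 10 → R) (l : R) : R :=
  4 * ta d l * d 7 * d 9 - ta d l * d 8 ^ 2 - tb d l ^ 2 * d 9 + tb d l * tg d l * d 8 -
    tg d l ^ 2 * d 7

/-- The form of degree four. -/
def tI (d : Fin 10 → R) (l : R) : R := 16 * (tTh d l ^ 2 + 3 * tQ d l)

/-- The form of degree six. -/
def tJ (d : Fin 10 → R) (l : R) : R :=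
  -(64 * (2 * tTh d l ^ 3 + 9 * tTh d l * tQ d l - 27 * l * (l - 4) * tDe d l))

theorem qI_tq (d : Fin 10 → R) (l : R) : qI (tq d l) = (l * (l - 4)) ^ 2 * tI d l := by
  simp only [tI, tTh, tQ]
  unfold tq
  generalize ta d l = a
  generalize tb d l = b
  generalize tg d l = g
  change 12 * ((l - 4) ^ 2 * (a - (l - 4) * g + (l - 4) ^ 2 * d 9) *
      (l ^ 2 * (a + 4 * b + l * g + 16 * d 7 + 4 * l * d 8 + l ^ 2 * d 9))) -
    3 * (2 * l * (l - 4) ^ 2 * (2 * (l - 4) * d 9 - g) *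
      (2 * l ^ 2 * (l - 4) * (g + 4 * d 8 + 2 * l * d 9))) +
    (-(2 * l * (l - 4)) * a - 4 * l * (l - 4) * b - 4 * l * (l - 4) * g +
      4 * l * (l - 4) ^ 2 * d 8 + 6 * l ^ 2 * (l - 4) ^ 2 * d 9) ^ 2 = _
  ring

theorem qJ_tq (d : Fin 10 → R) (l : R) : qJ (tq d l) = (l * (l - 4)) ^ 3 * tJ d l := by
  simp only [tJ, tTh, tQ, tDe]
  unfold tq
  generalize ta d l = a
  generalize tb d l = b
  generalize tg d l = g
  change 72 * ((l - 4) ^ 2 * (a - (l - 4) * g + (l - 4) ^ 2 * d 9) *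
      (-(2 * l * (l - 4)) * a - 4 * l * (l - 4) * b - 4 * l * (l - 4) * g +
        4 * l * (l - 4) ^ 2 * d 8 + 6 * l ^ 2 * (l - 4) ^ 2 * d 9) *
      (l ^ 2 * (a + 4 * b + l * g + 16 * d 7 + 4 * l * d 8 + l ^ 2 * d 9))) +
    9 * (2 * l * (l - 4) ^ 2 * (2 * (l - 4) * d 9 - g) *
      (-(2 * l * (l - 4)) * a - 4 * l * (l - 4) * b - 4 * l * (l - 4) * g +
        4 * l * (l - 4) ^ 2 * d 8 + 6 * l ^ 2 * (l - 4) ^ 2 * d 9) *
      (2 * l ^ 2 * (l - 4) * (g + 4 * d 8 + 2 * l * d 9))) -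
    27 * ((l - 4) ^ 2 * (a - (l - 4) * g + (l - 4) ^ 2 * d 9) *
      (2 * l ^ 2 * (l - 4) * (g + 4 * d 8 + 2 * l * d 9)) ^ 2) -
    27 * ((2 * l * (l - 4) ^ 2 * (2 * (l - 4) * d 9 - g)) ^ 2 *
      (l ^ 2 * (a + 4 * b + l * g + 16 * d 7 + 4 * l * d 8 + l ^ 2 * d 9))) -
    2 * (-(2 * l * (l - 4)) * a - 4 * l * (l - 4) * b - 4 * l * (l - 4) * g +
      4 * l * (l - 4) ^ 2 * d 8 + 6 * l ^ 2 * (l - 4) ^ 2 * d 9) ^ 3 = _
  ring

end

section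

variable {R S : Type} [CommRing R] [CommRing S] (φ : R →+* S)

theorem map_tI (d : Fin 10 → R) (l : R) : φ (tI d l) = tI (fun i => φ (d i)) (φ l) := by
  simp only [tI, tTh, tQ, ta, tb, tg, map_add, map_sub, map_mul, map_pow, map_neg, map_ofNat]

theorem map_tJ (d : Fin 10 → R) (l : R) : φ (tJ d l) = tJ (fun i => φ (d i)) (φ l) := by
  simp only [tJ, tTh, tQ, tDe, ta, tb, tg, map_add, map_sub, map_mul, map_pow, map_neg, map_ofNat]

theorem map_tq (d : Fin 10 → R) (l : R) (i : Fin 5) :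
    φ (tq d l i) = tq (fun i => φ (d i)) (φ l) i := by
  unfold tq
  fin_cases i <;>
    simp [ta, tb, tg, map_add, map_sub, map_mul, map_pow, map_neg, map_ofNat]

end

/-- The polynomial of degree four. -/
theorem natDegree_tI (d : Fin 10 → ℂ) : (tI (fun i => (C (d i) : ℂ[X])) X).natDegree ≤ 4 := by
  unfold tI tTh tQ ta tb tg
  compute_degree

/-- The polynomial of degree six. -/
theorem natDegree_tJ (d : Fin 10 → ℂ) : (tJ (fun i => (C (d i) : ℂ[X])) X).natDegree ≤ 6 := by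
  unfold tJ tTh tQ tDe ta tb tg
  compute_degree

end Vale.Agent.P297.H10
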